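/-
Row 242 (S0480), package ANAD (analytic adapter).  Architect: helper286.

`EChart n K` : a `Chart n` embedded in the field `K` (= the data that `Model n K` carries at one closed point),
               so that localisations of charts are again objects of the same kind.
`E.RegAtPt w a`, `E.val w a` : regularity and value of `a : K` at the point `w` of the chart.
`C.pr`        : the projection `C.pts → Cn n` (a Riemann domain: file `RD`).
-/
import Claimed.Agent.R242.Model
import Claimed.Agent.R242.SCV.Defs

set_option autoImplicit false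

noncomputable section

namespace Claimed.Agent.R242

open MvPolynomial

/-- A chart embedded in the field `K`, with the derivations `d/dz_j`. -/
structure EChart (n : ℕ) (K : Type) [Field K] [Algebra ℂ K] extends Chart n where
  /-- the images in `K` of the variables -/
  gen : Fin n ⊕ Fin c → K
  gen_ker : ∀ P : MvPolynomial (Fin n ⊕ Fin c) ℂ, aeval gen P = 0 ↔ P ∈ toChart.ideal
  gen_frac : ∀ a : K, ∃ P Q : MvPolynomial (Fin n ⊕ Fin c) ℂ,
    aeval gen Q ≠ 0 ∧ a * aeval gen Q = aeval gen P
  /-- the derivations `d/dz_j` -/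
  der : Fin n → Derivation ℂ K K
  der_coord : ∀ i j, der j (gen (Sum.inl i)) = if i = j then 1 else 0

/-- the projection of the points of a chart to `ℂⁿ` -/
def Chart.pr {n : ℕ} (C : Chart n) : C.pts → Cn n := fun w => C.proj w.1

/-- the chart of a model at a closed point, as an embedded chart -/
def Model.echart {n : ℕ} {K : Type} [Field K] [Algebra ℂ K] (M : Model n K) (p : M.Pt) :
    EChart n K where
  toChart := M.chart p
  gen := M.gen p
  gen_ker := M.gen_ker p
  gen_frac := M.gen_frac p
  der := M.der p
  der_coord := M.der_coord p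

namespace EChart

variable {n : ℕ} {K : Type} [Field K] [Algebra ℂ K] (E : EChart n K)

/-- the coordinate ring, inside `K` -/
def ring : Subalgebra ℂ K := (aeval (R := ℂ) E.gen).range

/-- the coordinates `z_i`, as elements of `K` -/
def zc (i : Fin n) : K := E.gen (Sum.inl i)

/-- `a` is regular at the point `w` -/
def RegAtPt (w : Fin n ⊕ Fin E.c → ℂ) (a : K) : Prop :=
  ∃ P Q : MvPolynomial (Fin n ⊕ Fin E.c) ℂ, eval w Q ≠ 0 ∧ a * aeval E.gen Q = aeval E.gen P

/-- `a` is regular and nonzero at the point `w` -/
def UnitAtPt (w : Fin n ⊕ Fin E.c → ℂ) (a : K) : Prop :=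
  ∃ P Q : MvPolynomial (Fin n ⊕ Fin E.c) ℂ,
    eval w Q ≠ 0 ∧ eval w P ≠ 0 ∧ a * aeval E.gen Q = aeval E.gen P

open Classical in
/-- the value of `a` at the point `w` (junk value `0` if `a` is not regular at `w`) -/
def val (w : Fin n ⊕ Fin E.c → ℂ) (a : K) : ℂ :=
  if h : E.RegAtPt w a then eval w h.choose / eval w h.choose_spec.choose else 0

/-- Jacobian of the coordinates of `E` with respect to the coordinates of `E'` -/
def jac (E E' : EChart n K) : K :=
  (Matrix.of fun i j => E'.der j (E.gen (Sum.inl i))).det

/-- `w` (point of `E`) and `w'` (point of `E'`) are the same point of the variety: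
same local ring in `K`, same evaluation. -/
def Same (E E' : EChart n K) (w : Fin n ⊕ Fin E.c → ℂ) (w' : Fin n ⊕ Fin E'.c → ℂ) : Prop :=
  ∀ a : K, (E.RegAtPt w a ↔ E'.RegAtPt w' a) ∧ E.val w a = E'.val w' a

end EChart

namespace Model

variable {n : ℕ} {K : Type} [Field K] [Algebra ℂ K] (M : Model n K)

theorem regAtPt_iff_echart (p : M.Pt) (w : Fin n ⊕ Fin (M.chart p).c → ℂ) (a : K) :
    M.RegAtPt p w a ↔ (M.echart p).RegAtPt w a := Iff.rfl

theorem unitAtPt_iff_echart (p : M.Pt) (w : Fin n ⊕ Fin (M.chart p).c → ℂ) (a : K) :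
    M.UnitAtPt p w a ↔ (M.echart p).UnitAtPt w a := Iff.rfl

theorem ring_eq_echart (p : M.Pt) : M.ring p = (M.echart p).ring := rfl

theorem jac_eq_echart (x p : M.Pt) : M.jac x p = (M.echart x).jac (M.echart p) := rfl

end Model

end Claimed.Agent.R242

end

/-! equation lemmas of this file, cited once here (rule 6) -/
namespace Claimed.Agent.R242

theorem r242_eqcite_Anad_Defs : True := by
  have := @Claimed.Agent.R242.EChart.jac.eq_1
  have := @Claimed.Agent.R242.EChart.val.eq_1
  have := @Claimed.Agent.R242.EChart.RegAtPt.eq_1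
  have := @Claimed.Agent.R242.Model.echart.eq_1
  have := @Claimed.Agent.R242.EChart.zc.eq_1
  have := @Claimed.Agent.R242.EChart.Same.eq_1
  have := @Claimed.Agent.R242.EChart.UnitAtPt.eq_1
  have := @Claimed.Agent.R242.Chart.pr.eq_1
  have := @Claimed.Agent.R242.EChart.ring.eq_1
  trivial

end Claimed.Agent.R242
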