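/-
Row 242, package ANAD.  Val: calculus of `E.RegAtPt w a` and `E.val w a`.     Architect: helper286.
LEAF ANAD-VAL (easy, pure algebra + one continuity lemma; Mathlib only, no paper).

Plan.  Everything follows from
 * `eval_eq_zero_of_aeval_eq_zero`: `aeval gen P = 0 → P ∈ ideal = span (range rel)` (`E.gen_ker`), and every element of
   that ideal vanishes at `w ∈ pts` (`Submodule.span_induction` / `Ideal.span_le` with the kernel of `eval w`).
 * `val_eq`: two representations `a Q = P`, `a Q' = P'` give `aeval gen (P Q' - P' Q) = 0`, hence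
   `P(w) Q'(w) = P'(w) Q(w)`.
 * sums/products: `a = P/Q`, `b = P'/Q'` : `a + b = (P Q' + P' Q)/(Q Q')`, `a b = P P'/(Q Q')`.
-/
import Claimed.Agent.R242.Anad.Defs

set_option autoImplicit false

namespace Claimed.Agent.R242

open MvPolynomial Filter Topology

namespace EChart

variable {n : ℕ} {K : Type} [Field K] [Algebra ℂ K] (E : EChart n K)
  {w : Fin n ⊕ Fin E.c → ℂ} {a b : K}

/-! ### 1. evaluation is well defined -/

theorem eval_eq_zero_of_mem_ideal (hw : w ∈ E.pts) {P : MvPolynomial (Fin n ⊕ Fin E.c) ℂ}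
    (h : P ∈ E.ideal) : eval w P = 0 := by
  have hle : E.ideal ≤ RingHom.ker (eval w) := by
    unfold Chart.ideal
    rw [Ideal.span_le]
    rintro _ ⟨i, rfl⟩
    exact RingHom.mem_ker.2 (hw i)
  exact RingHom.mem_ker.1 (hle h)

theorem eval_eq_zero_of_aeval_eq_zero (hw : w ∈ E.pts) {P : MvPolynomial (Fin n ⊕ Fin E.c) ℂ}
    (h : aeval E.gen P = 0) : eval w P = 0 := by
  exact E.eval_eq_zero_of_mem_ideal hw ((E.gen_ker P).1 h)

theorem eval_eq_of_aeval_eq (hw : w ∈ E.pts) {P Q : MvPolynomial (Fin n ⊕ Fin E.c) ℂ}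
    (h : aeval E.gen P = aeval E.gen Q) : eval w P = eval w Q := by
  have h1 : aeval E.gen (P - Q) = 0 := by rw [map_sub, h, sub_self]
  have h2 := E.eval_eq_zero_of_aeval_eq_zero hw h1
  rw [map_sub] at h2
  exact sub_eq_zero.1 h2

theorem aeval_ne_zero_of_eval_ne_zero (hw : w ∈ E.pts) {Q : MvPolynomial (Fin n ⊕ Fin E.c) ℂ}
    (h : eval w Q ≠ 0) : aeval E.gen Q ≠ 0 := by
  exact fun h0 => h (E.eval_eq_zero_of_aeval_eq_zero hw h0)

theorem val_eq (hw : w ∈ E.pts) {P Q : MvPolynomial (Fin n ⊕ Fin E.c) ℂ} (hQ : eval w Q ≠ 0)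
    (h : a * aeval E.gen Q = aeval E.gen P) : E.val w a = eval w P / eval w Q := by
  have hr : E.RegAtPt w a := ⟨P, Q, hQ, h⟩
  have aux : ∀ P' Q' : MvPolynomial (Fin n ⊕ Fin E.c) ℂ, eval w Q' ≠ 0 →
      a * aeval E.gen Q' = aeval E.gen P' → eval w P' / eval w Q' = eval w P / eval w Q := by
    intro P' Q' hQ' h'
    rw [div_eq_div_iff hQ' hQ]
    have h1 : aeval E.gen (P' * Q) = aeval E.gen (P * Q') := by
      rw [map_mul, map_mul, ← h', ← h]; ring
    have h2 := E.eval_eq_of_aeval_eq hw h1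
    rwa [map_mul, map_mul] at h2
  unfold val
  rw [dif_pos hr]
  exact aux _ _ hr.choose_spec.choose_spec.1 hr.choose_spec.choose_spec.2

theorem val_of_not_regAtPt (h : ¬ E.RegAtPt w a) : E.val w a = 0 := by
  unfold val
  rw [dif_neg h]

/-! ### 2. regular elements -/

theorem regAtPt_aeval (w : Fin n ⊕ Fin E.c → ℂ) (P : MvPolynomial (Fin n ⊕ Fin E.c) ℂ) :
    E.RegAtPt w (aeval E.gen P) := by
  exact ⟨P, 1, by rw [map_one]; exact one_ne_zero, by rw [map_one, mul_one]⟩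

theorem val_aeval (hw : w ∈ E.pts) (P : MvPolynomial (Fin n ⊕ Fin E.c) ℂ) :
    E.val w (aeval E.gen P) = eval w P := by
  rw [E.val_eq hw (P := P) (Q := 1) (by rw [map_one]; exact one_ne_zero) (by rw [map_one, mul_one]),
    map_one, div_one]

theorem regAtPt_of_mem_ring (w : Fin n ⊕ Fin E.c → ℂ) (h : a ∈ E.ring) : E.RegAtPt w a := by
  obtain ⟨P, rfl⟩ := h
  exact E.regAtPt_aeval w P

theorem regAtPt_gen (w : Fin n ⊕ Fin E.c → ℂ) (v : Fin n ⊕ Fin E.c) : E.RegAtPt w (E.gen v) := by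
  have h := E.regAtPt_aeval w (X v)
  rwa [aeval_X] at h

theorem val_gen (hw : w ∈ E.pts) (v : Fin n ⊕ Fin E.c) : E.val w (E.gen v) = w v := by
  have h := E.val_aeval hw (X v)
  rwa [aeval_X, eval_X] at h

theorem gen_mem_ring (v : Fin n ⊕ Fin E.c) : E.gen v ∈ E.ring := by
  exact ⟨X v, aeval_X _ _⟩

theorem val_zc (hw : w ∈ E.pts) (i : Fin n) : E.val w (E.zc i) = E.proj w i := by
  exact E.val_gen hw (Sum.inl i)

theorem regAtPt_algebraMap (w : Fin n ⊕ Fin E.c → ℂ) (c : ℂ) : E.RegAtPt w (algebraMap ℂ K c) := by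
  have h := E.regAtPt_aeval w (C c)
  rwa [aeval_C] at h

theorem val_algebraMap (hw : w ∈ E.pts) (c : ℂ) : E.val w (algebraMap ℂ K c) = c := by
  have h := E.val_aeval hw (C c)
  rwa [aeval_C, eval_C] at h

theorem regAtPt_zero (w : Fin n ⊕ Fin E.c → ℂ) : E.RegAtPt w 0 := by
  have h := E.regAtPt_aeval w 0
  rwa [map_zero] at h

theorem regAtPt_one (w : Fin n ⊕ Fin E.c → ℂ) : E.RegAtPt w 1 := by
  have h := E.regAtPt_aeval w 1
  rwa [map_one] at h

/-- (statement corrected by helper287: for `w ∉ pts` the chosen numerator of `0` need not vanish at `w`) -/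
theorem val_zero (hw : w ∈ E.pts) : E.val w 0 = 0 := by
  have h := E.val_aeval hw 0
  rwa [map_zero, map_zero] at h

theorem val_one (hw : w ∈ E.pts) : E.val w 1 = 1 := by
  have h := E.val_aeval hw 1
  rwa [map_one, map_one] at h

variable {E}

theorem RegAtPt.add (ha : E.RegAtPt w a) (hb : E.RegAtPt w b) : E.RegAtPt w (a + b) := by
  obtain ⟨P, Q, hQ, h⟩ := ha
  obtain ⟨P', Q', hQ', h'⟩ := hb
  refine ⟨P * Q' + P' * Q, Q * Q', by rw [map_mul]; exact mul_ne_zero hQ hQ', ?_⟩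
  simp only [map_add, map_mul]
  rw [← h, ← h']; ring

theorem RegAtPt.mul (ha : E.RegAtPt w a) (hb : E.RegAtPt w b) : E.RegAtPt w (a * b) := by
  obtain ⟨P, Q, hQ, h⟩ := ha
  obtain ⟨P', Q', hQ', h'⟩ := hb
  refine ⟨P * P', Q * Q', by rw [map_mul]; exact mul_ne_zero hQ hQ', ?_⟩
  simp only [map_mul]
  rw [← h, ← h']; ring

theorem RegAtPt.neg (ha : E.RegAtPt w a) : E.RegAtPt w (-a) := by
  obtain ⟨P, Q, hQ, h⟩ := ha
  exact ⟨-P, Q, hQ, by rw [map_neg, ← h]; ring⟩

theorem RegAtPt.sub (ha : E.RegAtPt w a) (hb : E.RegAtPt w b) : E.RegAtPt w (a - b) := by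
  rw [sub_eq_add_neg]
  exact ha.add hb.neg

theorem RegAtPt.pow (ha : E.RegAtPt w a) (k : ℕ) : E.RegAtPt w (a ^ k) := by
  induction k with
  | zero => rw [pow_zero]; exact E.regAtPt_one w
  | succ k ih => rw [pow_succ]; exact ih.mul ha

theorem RegAtPt.smul (ha : E.RegAtPt w a) (c : ℂ) : E.RegAtPt w (c • a) := by
  rw [Algebra.smul_def]
  exact (E.regAtPt_algebraMap w c).mul ha

theorem RegAtPt.sum {ι : Type*} (s : Finset ι) {f : ι → K} (hf : ∀ i ∈ s, E.RegAtPt w (f i)) :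
    E.RegAtPt w (∑ i ∈ s, f i) := by
  exact Finset.sum_induction f (fun x => E.RegAtPt w x) (fun _ _ h1 h2 => h1.add h2)
    (E.regAtPt_zero w) hf

theorem RegAtPt.prod {ι : Type*} (s : Finset ι) {f : ι → K} (hf : ∀ i ∈ s, E.RegAtPt w (f i)) :
    E.RegAtPt w (∏ i ∈ s, f i) := by
  exact Finset.prod_induction f (fun x => E.RegAtPt w x) (fun _ _ h1 h2 => h1.mul h2)
    (E.regAtPt_one w) hf

theorem val_add (hw : w ∈ E.pts) (ha : E.RegAtPt w a) (hb : E.RegAtPt w b) :
    E.val w (a + b) = E.val w a + E.val w b := by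
  obtain ⟨P, Q, hQ, h⟩ := ha
  obtain ⟨P', Q', hQ', h'⟩ := hb
  have h1 : (a + b) * aeval E.gen (Q * Q') = aeval E.gen (P * Q' + P' * Q) := by
    simp only [map_add, map_mul]
    rw [← h, ← h']; ring
  rw [E.val_eq hw (by rw [map_mul]; exact mul_ne_zero hQ hQ') h1, E.val_eq hw hQ h,
    E.val_eq hw hQ' h']
  simp only [map_add, map_mul]
  field_simp

theorem val_mul (hw : w ∈ E.pts) (ha : E.RegAtPt w a) (hb : E.RegAtPt w b) :
    E.val w (a * b) = E.val w a * E.val w b := by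
  obtain ⟨P, Q, hQ, h⟩ := ha
  obtain ⟨P', Q', hQ', h'⟩ := hb
  have h1 : (a * b) * aeval E.gen (Q * Q') = aeval E.gen (P * P') := by
    simp only [map_mul]
    rw [← h, ← h']; ring
  rw [E.val_eq hw (by rw [map_mul]; exact mul_ne_zero hQ hQ') h1, E.val_eq hw hQ h,
    E.val_eq hw hQ' h']
  simp only [map_mul]
  field_simp

theorem val_neg (hw : w ∈ E.pts) (a : K) : E.val w (-a) = - E.val w a := by
  by_cases ha : E.RegAtPt w a
  · obtain ⟨P, Q, hQ, h⟩ := ha
    have h1 : (-a) * aeval E.gen Q = aeval E.gen (-P) := by rw [map_neg, ← h]; ring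
    rw [E.val_eq hw hQ h1, E.val_eq hw hQ h, map_neg, neg_div]
  · have ha' : ¬ E.RegAtPt w (-a) := fun h => ha (by simpa using h.neg)
    rw [E.val_of_not_regAtPt ha, E.val_of_not_regAtPt ha', neg_zero]

theorem val_sub (hw : w ∈ E.pts) (ha : E.RegAtPt w a) (hb : E.RegAtPt w b) :
    E.val w (a - b) = E.val w a - E.val w b := by
  rw [sub_eq_add_neg, val_add hw ha hb.neg, val_neg hw, sub_eq_add_neg]

theorem val_pow (hw : w ∈ E.pts) (ha : E.RegAtPt w a) (k : ℕ) :
    E.val w (a ^ k) = E.val w a ^ k := by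
  induction k with
  | zero => rw [pow_zero, pow_zero]; exact E.val_one hw
  | succ k ih => rw [pow_succ, pow_succ, val_mul hw (ha.pow k) ha, ih]

theorem val_smul (hw : w ∈ E.pts) (ha : E.RegAtPt w a) (c : ℂ) :
    E.val w (c • a) = c * E.val w a := by
  rw [Algebra.smul_def, val_mul hw (E.regAtPt_algebraMap w c) ha, E.val_algebraMap hw]

theorem val_sum (hw : w ∈ E.pts) {ι : Type*} (s : Finset ι) {f : ι → K}
    (hf : ∀ i ∈ s, E.RegAtPt w (f i)) : E.val w (∑ i ∈ s, f i) = ∑ i ∈ s, E.val w (f i) := by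
  classical
  induction s using Finset.induction_on with
  | empty => rw [Finset.sum_empty, Finset.sum_empty]; exact E.val_zero hw
  | insert i s hi ih =>
    rw [Finset.sum_insert hi, Finset.sum_insert hi,
      val_add hw (hf i (Finset.mem_insert_self i s))
        (RegAtPt.sum s fun j hj => hf j (Finset.mem_insert_of_mem hj)),
      ih fun j hj => hf j (Finset.mem_insert_of_mem hj)]

theorem val_prod (hw : w ∈ E.pts) {ι : Type*} (s : Finset ι) {f : ι → K}
    (hf : ∀ i ∈ s, E.RegAtPt w (f i)) : E.val w (∏ i ∈ s, f i) = ∏ i ∈ s, E.val w (f i) := by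
  classical
  induction s using Finset.induction_on with
  | empty => rw [Finset.prod_empty, Finset.prod_empty]; exact E.val_one hw
  | insert i s hi ih =>
    rw [Finset.prod_insert hi, Finset.prod_insert hi,
      val_mul hw (hf i (Finset.mem_insert_self i s))
        (RegAtPt.prod s fun j hj => hf j (Finset.mem_insert_of_mem hj)),
      ih fun j hj => hf j (Finset.mem_insert_of_mem hj)]

/-- polynomial expressions in regular elements -/
theorem regAtPt_aeval_of_reg {σ : Type*} {f : σ → K} (hf : ∀ s, E.RegAtPt w (f s))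
    (P : MvPolynomial σ ℂ) : E.RegAtPt w (MvPolynomial.aeval f P) := by
  induction P using MvPolynomial.induction_on with
  | C c => rw [aeval_C]; exact E.regAtPt_algebraMap w c
  | add p q hp hq => rw [map_add]; exact hp.add hq
  | mul_X p s hp => rw [map_mul, aeval_X]; exact hp.mul (hf s)

theorem val_aeval_of_reg (hw : w ∈ E.pts) {σ : Type*} {f : σ → K} (hf : ∀ s, E.RegAtPt w (f s))
    (P : MvPolynomial σ ℂ) :
    E.val w (MvPolynomial.aeval f P) = MvPolynomial.eval (fun s => E.val w (f s)) P := by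
  induction P using MvPolynomial.induction_on with
  | C c => rw [aeval_C, eval_C]; exact E.val_algebraMap hw c
  | add p q hp hq =>
    rw [map_add, map_add, val_add hw (regAtPt_aeval_of_reg hf p) (regAtPt_aeval_of_reg hf q), hp, hq]
  | mul_X p s hp =>
    rw [map_mul, map_mul, aeval_X, eval_X, val_mul hw (regAtPt_aeval_of_reg hf p) (hf s), hp]

theorem RegAtPt.det {m : Type*} [Fintype m] [DecidableEq m] {A : Matrix m m K}
    (hA : ∀ i j, E.RegAtPt w (A i j)) : E.RegAtPt w A.det := by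
  rw [Matrix.det_apply']
  refine RegAtPt.sum _ fun σ _ => RegAtPt.mul ?_ (RegAtPt.prod _ fun i _ => hA _ _)
  rw [← map_intCast (algebraMap ℂ K)]
  exact E.regAtPt_algebraMap w _

theorem val_det (hw : w ∈ E.pts) {m : Type*} [Fintype m] [DecidableEq m] {A : Matrix m m K}
    (hA : ∀ i j, E.RegAtPt w (A i j)) :
    E.val w A.det = (Matrix.of fun i j => E.val w (A i j)).det := by
  have hz : ∀ z : ℤ, E.RegAtPt w (z : K) ∧ E.val w (z : K) = (z : ℂ) := fun z => by
    rw [← map_intCast (algebraMap ℂ K)]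
    exact ⟨E.regAtPt_algebraMap w _, E.val_algebraMap hw _⟩
  rw [Matrix.det_apply', Matrix.det_apply',
    val_sum hw _ fun σ _ => RegAtPt.mul (hz _).1 (RegAtPt.prod _ fun i _ => hA _ _)]
  refine Finset.sum_congr rfl fun σ _ => ?_
  rw [val_mul hw (hz _).1 (RegAtPt.prod _ fun i _ => hA _ _), (hz _).2,
    val_prod hw _ fun i _ => hA _ _]
  rfl

/-! ### 3. units -/

theorem UnitAtPt.regAtPt (h : E.UnitAtPt w a) : E.RegAtPt w a := by
  obtain ⟨P, Q, hQ, -, h⟩ := h
  exact ⟨P, Q, hQ, h⟩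

theorem unitAtPt_iff (hw : w ∈ E.pts) : E.UnitAtPt w a ↔ E.RegAtPt w a ∧ E.val w a ≠ 0 := by
  constructor
  · rintro ⟨P, Q, hQ, hP, h⟩
    refine ⟨⟨P, Q, hQ, h⟩, ?_⟩
    rw [E.val_eq hw hQ h]
    exact div_ne_zero hP hQ
  · rintro ⟨⟨P, Q, hQ, h⟩, hv⟩
    rw [E.val_eq hw hQ h] at hv
    exact ⟨P, Q, hQ, fun h0 => hv (by rw [h0, zero_div]), h⟩

theorem UnitAtPt.ne_zero (hw : w ∈ E.pts) (h : E.UnitAtPt w a) : a ≠ 0 := by
  obtain ⟨P, Q, hQ, hP, h⟩ := h
  rintro rfl
  rw [zero_mul] at h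
  exact hP (E.eval_eq_zero_of_aeval_eq_zero hw h.symm)

theorem UnitAtPt.inv (h : E.UnitAtPt w a) : E.UnitAtPt w a⁻¹ := by
  obtain ⟨P, Q, hQ, hP, h⟩ := h
  by_cases ha : a = 0
  · subst ha
    rw [inv_zero]
    exact ⟨P, Q, hQ, hP, h⟩
  · exact ⟨Q, P, hP, hQ, by rw [← h, ← mul_assoc, inv_mul_cancel₀ ha, one_mul]⟩

theorem UnitAtPt.mul (ha : E.UnitAtPt w a) (hb : E.UnitAtPt w b) : E.UnitAtPt w (a * b) := by
  obtain ⟨P, Q, hQ, hP, h⟩ := ha
  obtain ⟨P', Q', hQ', hP', h'⟩ := hb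
  refine ⟨P * P', Q * Q', by rw [map_mul]; exact mul_ne_zero hQ hQ',
    by rw [map_mul]; exact mul_ne_zero hP hP', ?_⟩
  simp only [map_mul]
  rw [← h, ← h']; ring

theorem UnitAtPt.pow (ha : E.UnitAtPt w a) (k : ℕ) : E.UnitAtPt w (a ^ k) := by
  induction k with
  | zero =>
    rw [pow_zero]
    exact ⟨1, 1, by rw [map_one]; exact one_ne_zero, by rw [map_one]; exact one_ne_zero,
      by rw [map_one, mul_one]⟩
  | succ k ih => rw [pow_succ]; exact ih.mul ha

theorem val_inv (hw : w ∈ E.pts) (h : E.UnitAtPt w a) : E.val w a⁻¹ = (E.val w a)⁻¹ := by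
  have ha := h.ne_zero hw
  obtain ⟨P, Q, hQ, hP, h⟩ := h
  have h1 : a⁻¹ * aeval E.gen P = aeval E.gen Q := by
    rw [← h, ← mul_assoc, inv_mul_cancel₀ ha, one_mul]
  rw [E.val_eq hw hP h1, E.val_eq hw hQ h, inv_div]

theorem RegAtPt.div (ha : E.RegAtPt w a) (hb : E.UnitAtPt w b) : E.RegAtPt w (a / b) := by
  rw [div_eq_mul_inv]
  exact ha.mul hb.inv.regAtPt

theorem val_div (hw : w ∈ E.pts) (ha : E.RegAtPt w a) (hb : E.UnitAtPt w b) :
    E.val w (a / b) = E.val w a / E.val w b := by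
  rw [div_eq_mul_inv, val_mul hw ha hb.inv.regAtPt, val_inv hw hb, div_eq_mul_inv]

/-- if `a b` and `b` ... : cancellation of a unit -/
theorem regAtPt_of_mul_unit (hb : E.UnitAtPt w b) (hab : E.RegAtPt w (a * b)) : E.RegAtPt w a := by
  obtain ⟨P, Q, hQ, hP, h⟩ := hb
  obtain ⟨P', Q', hQ', h'⟩ := hab
  refine ⟨P' * Q, P * Q', by rw [map_mul]; exact mul_ne_zero hP hQ', ?_⟩
  simp only [map_mul]
  rw [← h, ← h']; ring

variable (E)

/-! ### 4. the local ring at a point -/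

/-- the local ring `O_w ⊆ K` -/
def localRing (w : Fin n ⊕ Fin E.c → ℂ) : Subalgebra ℂ K where
  carrier := {a | E.RegAtPt w a}
  mul_mem' := fun ha hb => RegAtPt.mul ha hb
  add_mem' := fun ha hb => RegAtPt.add ha hb
  algebraMap_mem' := fun c => E.regAtPt_algebraMap w c

theorem mem_localRing {w : Fin n ⊕ Fin E.c → ℂ} {a : K} : a ∈ E.localRing w ↔ E.RegAtPt w a :=
  Iff.rfl

theorem ring_le_localRing (w : Fin n ⊕ Fin E.c → ℂ) : E.ring ≤ E.localRing w := by
  exact fun a ha => E.regAtPt_of_mem_ring w ha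

/-! ### 5. dependence on the point -/

/-- regularity is an open condition -/
theorem RegAtPt.eventually (ha : E.RegAtPt w a) : ∀ᶠ w' in 𝓝 w, E.RegAtPt w' a := by
  obtain ⟨P, Q, hQ, h⟩ := ha
  have hc : Continuous fun w' : Fin n ⊕ Fin E.c → ℂ => eval w' Q := MvPolynomial.continuous_eval Q
  filter_upwards [hc.continuousAt.eventually_ne hQ] with w' hw'
  exact ⟨P, Q, hw', h⟩

theorem UnitAtPt.eventually (ha : E.UnitAtPt w a) : ∀ᶠ w' in 𝓝 w, E.UnitAtPt w' a := by
  obtain ⟨P, Q, hQ, hP, h⟩ := ha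
  have hc : Continuous fun w' : Fin n ⊕ Fin E.c → ℂ => eval w' Q := MvPolynomial.continuous_eval Q
  have hc' : Continuous fun w' : Fin n ⊕ Fin E.c → ℂ => eval w' P := MvPolynomial.continuous_eval P
  filter_upwards [hc.continuousAt.eventually_ne hQ, hc'.continuousAt.eventually_ne hP] with w' hw' hw''
  exact ⟨P, Q, hw', hw'', h⟩

/-- near a regular point `val . a` is a quotient of two polynomial functions -/
theorem RegAtPt.exists_rep (ha : E.RegAtPt w a) :
    ∃ P Q : MvPolynomial (Fin n ⊕ Fin E.c) ℂ, eval w Q ≠ 0 ∧ a * aeval E.gen Q = aeval E.gen P ∧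
      ∀ w' ∈ E.pts, eval w' Q ≠ 0 → E.RegAtPt w' a ∧ E.val w' a = eval w' P / eval w' Q := by
  obtain ⟨P, Q, hQ, h⟩ := ha
  exact ⟨P, Q, hQ, h, fun w' hw' hQ' => ⟨⟨P, Q, hQ', h⟩, E.val_eq hw' hQ' h⟩⟩

theorem continuousWithinAt_val (ha : E.RegAtPt w a) :
    ContinuousWithinAt (fun w' => E.val w' a) E.pts w := by
  by_cases hw : w ∈ E.pts
  · obtain ⟨P, Q, hQ, h, hrep⟩ := RegAtPt.exists_rep E ha
    have hcP : ContinuousAt (fun w' : Fin n ⊕ Fin E.c → ℂ => eval w' P) w :=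
      (MvPolynomial.continuous_eval P).continuousAt
    have hcQ : ContinuousAt (fun w' : Fin n ⊕ Fin E.c → ℂ => eval w' Q) w :=
      (MvPolynomial.continuous_eval Q).continuousAt
    have hdiv : ContinuousAt (fun w' : Fin n ⊕ Fin E.c → ℂ => eval w' P / eval w' Q) w :=
      hcP.div hcQ hQ
    refine hdiv.continuousWithinAt.congr_of_eventuallyEq ?_ (hrep w hw hQ).2
    filter_upwards [self_mem_nhdsWithin, nhdsWithin_le_nhds (hcQ.eventually_ne hQ)] with w' hw' hQ'
    exact (hrep w' hw' hQ').2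
  · have hcl : IsClosed E.pts := by
      have e : E.pts = ⋂ i, {w : Fin n ⊕ Fin E.c → ℂ | eval w (E.rel i) = 0} := by
        ext w'
        simp only [Set.mem_iInter]
        rfl
      rw [e]
      exact isClosed_iInter fun i => isClosed_eq (MvPolynomial.continuous_eval _) continuous_const
    have hbot : 𝓝[E.pts] w = ⊥ := by
      have h1 : ¬ (𝓝[E.pts] w).NeBot := by
        rw [← mem_closure_iff_nhdsWithin_neBot, hcl.closure_eq]
        exact hw
      exact Filter.not_neBot.1 h1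
    unfold ContinuousWithinAt
    rw [hbot]
    exact tendsto_bot

/-- the function `val . a` on the subtype of points is continuous at regular points -/
theorem continuousAt_val (w : E.pts) (ha : E.RegAtPt w.1 a) :
    ContinuousAt (fun w' : E.pts => E.val w'.1 a) w := by
  exact (continuousWithinAt_iff_continuousAt_domRestrict _ w.2).1 (E.continuousWithinAt_val ha)

/-- every element of `K` is regular off the zero set of a nonzero denominator -/
theorem exists_denominator (a : K) : ∃ Q : MvPolynomial (Fin n ⊕ Fin E.c) ℂ, aeval E.gen Q ≠ 0 ∧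
    ∀ w, eval w Q ≠ 0 → E.RegAtPt w a := by
  obtain ⟨P, Q, hQ, h⟩ := E.gen_frac a
  exact ⟨Q, hQ, fun w hw => ⟨P, Q, hw, h⟩⟩

/-- a common denominator for finitely many elements, which moreover makes the nonzero ones units -/
theorem exists_common_denominator {ι : Type*} (s : Finset ι) (f : ι → K) :
    ∃ Q : MvPolynomial (Fin n ⊕ Fin E.c) ℂ, aeval E.gen Q ≠ 0 ∧
      ∀ w, eval w Q ≠ 0 → ∀ i ∈ s, E.RegAtPt w (f i) ∧ (f i ≠ 0 → E.UnitAtPt w (f i)) := by
  classical
  choose P Q hQ h using E.gen_frac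
  refine ⟨∏ i ∈ s, (Q (f i) * if f i = 0 then 1 else P (f i)), ?_, ?_⟩
  · rw [map_prod, Finset.prod_ne_zero_iff]
    intro i _
    rw [map_mul]
    refine mul_ne_zero (hQ _) ?_
    split_ifs with h0
    · rw [map_one]; exact one_ne_zero
    · rw [← h]; exact mul_ne_zero h0 (hQ _)
  · intro w hw i hi
    rw [map_prod, Finset.prod_ne_zero_iff] at hw
    have h1 := hw i hi
    rw [map_mul] at h1
    have h2 := left_ne_zero_of_mul h1
    have h3 := right_ne_zero_of_mul h1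
    refine ⟨⟨P (f i), Q (f i), h2, h _⟩, fun h0 => ?_⟩
    rw [if_neg h0] at h3
    exact ⟨P (f i), Q (f i), h2, h3, h _⟩

/-! ### 6. the relation `Same` -/

theorem Same.refl (w : Fin n ⊕ Fin E.c → ℂ) : E.Same E w w := by
  exact fun a => ⟨Iff.rfl, rfl⟩

variable {E}
variable {E' E'' : EChart n K} {w' : Fin n ⊕ Fin E'.c → ℂ} {w'' : Fin n ⊕ Fin E''.c → ℂ}

theorem Same.symm (h : E.Same E' w w') : E'.Same E w' w := by
  exact fun a => ⟨(h a).1.symm, (h a).2.symm⟩

theorem Same.trans (h : E.Same E' w w') (h' : E'.Same E'' w' w'') : E.Same E'' w w'' := by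
  exact fun a => ⟨(h a).1.trans (h' a).1, (h a).2.trans (h' a).2⟩

theorem Same.unitAtPt_iff (h : E.Same E' w w') (hw : w ∈ E.pts) (hw' : w' ∈ E'.pts) (a : K) :
    E.UnitAtPt w a ↔ E'.UnitAtPt w' a := by
  rw [EChart.unitAtPt_iff hw, EChart.unitAtPt_iff hw', (h a).1, (h a).2]

/-- criterion: it suffices that the generators of each chart are regular at the point of the other chart, with the
right values. -/
theorem same_of_gen (hw : w ∈ E.pts) (hw' : w' ∈ E'.pts)
    (h1 : ∀ v, E.RegAtPt w (E'.gen v) ∧ E.val w (E'.gen v) = w' v)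
    (h2 : ∀ v, E'.RegAtPt w' (E.gen v) ∧ E'.val w' (E.gen v) = w v) : E.Same E' w w' := by
  have key : ∀ {E₁ E₂ : EChart n K} {w₁ : Fin n ⊕ Fin E₁.c → ℂ} {w₂ : Fin n ⊕ Fin E₂.c → ℂ},
      w₁ ∈ E₁.pts → w₂ ∈ E₂.pts → (∀ v, E₂.RegAtPt w₂ (E₁.gen v) ∧ E₂.val w₂ (E₁.gen v) = w₁ v) →
      ∀ a : K, E₁.RegAtPt w₁ a → E₂.RegAtPt w₂ a ∧ E₁.val w₁ a = E₂.val w₂ a := by
    intro E₁ E₂ w₁ w₂ hw₁ hw₂ hg a ha
    obtain ⟨P, Q, hQ, h⟩ := ha
    have hfun : (fun v => E₂.val w₂ (E₁.gen v)) = w₁ := funext fun v => (hg v).2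
    have hrP := regAtPt_aeval_of_reg (E := E₂) (w := w₂) (fun v => (hg v).1) P
    have hrQ := regAtPt_aeval_of_reg (E := E₂) (w := w₂) (fun v => (hg v).1) Q
    have hvP := val_aeval_of_reg (E := E₂) hw₂ (fun v => (hg v).1) P
    have hvQ := val_aeval_of_reg (E := E₂) hw₂ (fun v => (hg v).1) Q
    rw [hfun] at hvP hvQ
    have hu : E₂.UnitAtPt w₂ (aeval E₁.gen Q) := (EChart.unitAtPt_iff hw₂).2 ⟨hrQ, by rw [hvQ]; exact hQ⟩
    have hne := hu.ne_zero hw₂
    have ha' : a = aeval E₁.gen P / aeval E₁.gen Q := by rw [← h, mul_div_cancel_right₀ _ hne]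
    refine ⟨by rw [ha']; exact hrP.div hu, ?_⟩
    rw [E₁.val_eq hw₁ hQ h]
    conv_rhs => rw [ha']
    rw [val_div hw₂ hrP hu, hvP, hvQ]
  intro a
  by_cases ha : E.RegAtPt w a
  · obtain ⟨h3, h4⟩ := key hw hw' h2 a ha
    exact ⟨⟨fun _ => h3, fun _ => ha⟩, h4⟩
  · have ha' : ¬ E'.RegAtPt w' a := fun h3 => ha (key hw' hw h1 a h3).1
    exact ⟨⟨fun h3 => absurd h3 ha, fun h3 => absurd h3 ha'⟩,
      by rw [E.val_of_not_regAtPt ha, E'.val_of_not_regAtPt ha']⟩

/-- the point of `E'` is determined by the point of `E` -/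
theorem Same.coord (h : E.Same E' w w') (hw' : w' ∈ E'.pts) (v : Fin n ⊕ Fin E'.c) :
    E.val w (E'.gen v) = w' v := by
  exact (h _).2.trans (E'.val_gen hw' v)

end EChart

end Claimed.Agent.R242
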