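/-
Row 242, package ANAD.  Alg: the algebra of an embedded chart: derivations, `K` is algebraic over `ℂ(z)`.
Architect: helper286.        Mathlib only, no paper.

LEAVES  ANAD-ALG-DER : section 1 (chain rule, a derivation killing the `z_i` is zero, `der` preserves `ring` and the local rings)
        ANAD-ALG-ALG : section 2 (algebraic independence of the `z_i`, `K / ℂ(z)` algebraic, polynomial equations)

Plan 1.  `derivation_aeval`: `MvPolynomial.induction_on` (Leibniz).   Apply it to `rel i` (`aeval gen (rel i) = 0` by `gen_ker`):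
   `∑_l jmat i l • D (x_l) = - ∑_j aeval gen (pderiv (inl j) (rel i)) • D (z_j)`.   `jmat` is invertible: `aeval gen` of `C.jac_unit` gives
   `aeval gen jinv * det jmat = 1` (`AlgHom.map_det`/`RingHom.map_det`).  Multiply by the adjugate (`Matrix.adjugate_mul`).
   Quotients: `a Q = P ⟹ D a • Q + a • D Q = D P`.
Plan 2.  `algebraicIndependent_zc`: if `aeval zc Q = 0`, `Q ≠ 0` of minimal total degree, then `0 = der j (aeval zc Q) = aeval zc (pderiv j Q)`
   so `pderiv j Q = 0` for all `j`, so `Q` is constant (char 0), so `Q = 0`.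
   `isAlgebraic_adjoin`: `K₀ = IntermediateField.adjoin ℂ (range zc)`.  `Ω[K⁄K₀] = 0` because `KaehlerDifferential.D K₀ K` (restricted to a
   `ℂ`-derivation) kills the `z_i` (`derivation_eq_zero`; `KaehlerDifferential.span_range_derivation`), so `Algebra.FormallyUnramified K₀ K`;
   `K` is essentially of finite type over `K₀` (generated as a field by the finitely many `gen v`, from `gen_frac`);
   `Algebra.FormallyUnramified.iff_isSeparable` gives `Algebra.IsSeparable K₀ K`, in particular algebraic.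
   `exists_poly`: clear denominators (`IsFractionRing (Algebra.adjoin ℂ S) (IntermediateField.adjoin ℂ S)`, `IsFractionRing.isAlgebraic_iff`,
   `Algebra.adjoin_range_eq_range_aeval`).
   `exists_mul_eq`: take `p` for `a = aeval gen Q` with `p.coeff 0 ≠ 0` (divide by powers of `X`: `K` is a domain, `a ≠ 0`):
   `a * (- ∑_{i ≥ 1} c_i(z) a^(i-1)) = c_0(z)`.
-/
import Claimed.Agent.R242.Anad.Val

set_option autoImplicit false

noncomputable section

namespace Claimed.Agent.R242

open MvPolynomial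

/-- chain rule for a derivation and a polynomial expression -/
theorem alg_derivation_aeval {K : Type} [Field K] [Algebra ℂ K] {M : Type*} [AddCommGroup M] [Module K M]
    [Module ℂ M] [IsScalarTower ℂ K M] {σ : Type*} [Fintype σ] (f : σ → K) (D : Derivation ℂ K M)
    (P : MvPolynomial σ ℂ) : D (aeval f P) = ∑ v, aeval f (pderiv v P) • D (f v) := by
  classical
  induction P using MvPolynomial.induction_on with
  | C a => simp
  | add p q hp hq => simp only [map_add, hp, hq, add_smul, Finset.sum_add_distrib]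
  | mul_X p v hp =>
    rw [map_mul, aeval_X, Derivation.leibniz, hp]
    simp only [pderiv_mul, pderiv_X, map_add, map_mul, aeval_X, add_smul, Finset.sum_add_distrib]
    rw [add_comm, Finset.smul_sum]
    congr 1
    · refine Finset.sum_congr rfl fun w _ => ?_
      rw [smul_smul, mul_comm]
    · rw [Finset.sum_eq_single v]
      · simp
      · intro w _ hw
        simp [hw.symm]
      · intro h; exact absurd (Finset.mem_univ v) h

theorem alg_der_sum_apply {K : Type} [Field K] [Algebra ℂ K] {ι : Type*} (s : Finset ι)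
    (f : ι → Derivation ℂ K K) (a : K) : (∑ j ∈ s, f j) a = ∑ j ∈ s, f j a := by
  classical
  induction s using Finset.induction_on with
  | empty => simp
  | insert i s hi ih => rw [Finset.sum_insert hi, Finset.sum_insert hi, Derivation.add_apply, ih]

/-- in characteristic zero a polynomial all of whose partial derivatives vanish is constant -/
theorem alg_eq_C_of_pderiv_eq_zero {σ : Type*} (Q : MvPolynomial σ ℂ) (h : ∀ j, pderiv j Q = 0) :
    Q = C (coeff 0 Q) := by
  classical
  ext m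
  rw [coeff_C]
  split_ifs with hm
  · rw [← hm]
  · obtain ⟨j, hj⟩ : ∃ j, m j ≠ 0 := by
      by_contra hcon
      exact hm (Finsupp.ext fun j => (not_not.1 fun hj => hcon ⟨j, hj⟩).symm)
    have h1 := coeff_pderiv (i := j) Q (m - Finsupp.single j 1)
    rw [h j, coeff_zero] at h1
    have h2 : m - Finsupp.single j 1 + Finsupp.single j 1 = m := by
      ext i
      by_cases hij : i = j
      · subst hij
        simp only [Finsupp.coe_add, Finsupp.coe_tsub, Pi.add_apply, Pi.sub_apply,
          Finsupp.single_eq_same]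
        omega
      · simp [Ne.symm hij]
    rw [h2] at h1
    rcases mul_eq_zero.1 h1.symm with h3 | h3
    · exact h3
    · exfalso
      have : ((((m - Finsupp.single j 1 : σ →₀ ℕ) j + 1 : ℕ)) : ℂ) = 0 := by exact_mod_cast h3
      exact Nat.succ_ne_zero _ (Nat.cast_eq_zero.1 this)

theorem alg_totalDegree_pderiv_le {σ : Type*} (Q : MvPolynomial σ ℂ) (j : σ) :
    (pderiv j Q).totalDegree ≤ Q.totalDegree - 1 := by
  classical
  refine Finset.sup_le fun m hm => ?_
  rw [mem_support_iff, coeff_pderiv] at hm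
  have h1 : m + Finsupp.single j 1 ∈ Q.support := by
    rw [mem_support_iff]
    exact left_ne_zero_of_mul hm
  have h2 := le_totalDegree h1
  rw [Finsupp.sum_add_index' (fun _ => rfl) (fun _ _ _ => rfl), Finsupp.sum_single_index rfl] at h2
  omega

namespace EChart

variable {n : ℕ} {K : Type} [Field K] [Algebra ℂ K] (E : EChart n K)

/-! ### 1. derivations -/

/-- the Jacobian matrix `∂ rel_i / ∂ x_l`, in `K` -/
def jmat : Matrix (Fin E.c) (Fin E.c) K :=
  Matrix.of fun i l => aeval E.gen (pderiv (Sum.inr l) (E.rel i))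

theorem aeval_rel (i : Fin E.c) : aeval E.gen (E.rel i) = 0 :=
  (E.gen_ker _).2 (Ideal.subset_span ⟨i, rfl⟩)

/-- the Jacobian matrix, in the polynomial ring -/
def algJ : Matrix (Fin E.c) (Fin E.c) (MvPolynomial (Fin n ⊕ Fin E.c) ℂ) :=
  Matrix.of fun i l => pderiv (Sum.inr l) (E.rel i)

theorem alg_jmat_eq : E.jmat = (aeval E.gen : _ →ₐ[ℂ] K).mapMatrix E.algJ := rfl

theorem jinv_mul_det_jmat : aeval E.gen E.jinv * E.jmat.det = 1 := by
  have h := (E.gen_ker _).2 E.jac_unit
  rw [map_sub, map_mul, map_one, sub_eq_zero] at h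
  rw [← h, alg_jmat_eq, ← AlgHom.map_det]
  rfl

section
variable {M : Type*} [AddCommGroup M] [Module K M] [Module ℂ M] [IsScalarTower ℂ K M]

/-- chain rule -/
theorem derivation_aeval (D : Derivation ℂ K M) (P : MvPolynomial (Fin n ⊕ Fin E.c) ℂ) :
    D (aeval E.gen P) = ∑ v, aeval E.gen (pderiv v P) • D (E.gen v) :=
  alg_derivation_aeval E.gen D P

theorem alg_sum_jmat (D : Derivation ℂ K M) (i : Fin E.c) :
    ∑ l, E.jmat i l • D (E.gen (Sum.inr l)) =
      - ∑ j, aeval E.gen (pderiv (Sum.inl j) (E.rel i)) • D (E.zc j) := by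
  have h := E.derivation_aeval D (E.rel i)
  rw [aeval_rel, map_zero, Fintype.sum_sum_type] at h
  rw [eq_neg_iff_add_eq_zero, add_comm]
  exact h.symm

theorem alg_D_inr (D : Derivation ℂ K M) (l : Fin E.c) :
    D (E.gen (Sum.inr l)) = - (aeval E.gen E.jinv • ∑ i, E.jmat.adjugate l i •
      ∑ j, aeval E.gen (pderiv (Sum.inl j) (E.rel i)) • D (E.zc j)) := by
  have h1 : ∑ i, E.jmat.adjugate l i • ∑ l', E.jmat i l' • D (E.gen (Sum.inr l')) =
      E.jmat.det • D (E.gen (Sum.inr l)) := by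
    simp only [Finset.smul_sum, smul_smul]
    rw [Finset.sum_comm]
    have : ∀ l', ∑ i, (E.jmat.adjugate l i * E.jmat i l') • D (E.gen (Sum.inr l')) =
        ((E.jmat.adjugate * E.jmat) l l') • D (E.gen (Sum.inr l')) := by
      intro l'
      rw [Matrix.mul_apply, Finset.sum_smul]
    simp only [this, Matrix.adjugate_mul, Matrix.smul_apply, Matrix.one_apply, smul_eq_mul]
    rw [Finset.sum_eq_single l]
    · simp
    · intro b _ hb
      simp [hb.symm]
    · intro h; exact absurd (Finset.mem_univ l) h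
  have h2 : D (E.gen (Sum.inr l)) = aeval E.gen E.jinv • (E.jmat.det • D (E.gen (Sum.inr l))) := by
    rw [smul_smul, jinv_mul_det_jmat, one_smul]
  rw [h2, ← h1]
  simp only [alg_sum_jmat, smul_neg, Finset.sum_neg_distrib]

/-- a derivation is determined by its values on the coordinates `z_i` -/
theorem derivation_eq_zero (D : Derivation ℂ K M) (h : ∀ i, D (E.zc i) = 0) : D = 0 := by
  have hgen : ∀ v, D (E.gen v) = 0 := by
    rintro (i | l)
    · exact h i
    · rw [alg_D_inr]
      simp [h]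
  have hpol : ∀ P : MvPolynomial (Fin n ⊕ Fin E.c) ℂ, D (aeval E.gen P) = 0 := by
    intro P
    rw [derivation_aeval]
    simp [hgen]
  ext a
  obtain ⟨P, Q, hQ, hPQ⟩ := E.gen_frac a
  have := congrArg D hPQ
  rw [Derivation.leibniz, hpol, hpol, smul_zero, zero_add] at this
  show D a = 0
  exact (smul_eq_zero.1 this).resolve_left hQ

end

/-- `d a = ∑ (∂a/∂z_j) d z_j` -/
theorem derivation_eq_sum (D : Derivation ℂ K K) (a : K) : D a = ∑ j, E.der j a * D (E.zc j) := by
  have h0 : D - ∑ j, D (E.zc j) • E.der j = 0 := by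
    apply E.derivation_eq_zero
    intro i
    rw [Derivation.sub_apply, alg_der_sum_apply, sub_eq_zero]
    simp only [Derivation.smul_apply, zc, E.der_coord, smul_eq_mul, mul_ite, mul_one, mul_zero,
      Finset.sum_ite_eq, Finset.mem_univ, if_true]
  have := congrArg (fun D' : Derivation ℂ K K => D' a) h0
  simp only [Derivation.sub_apply, alg_der_sum_apply, Derivation.smul_apply,
    Derivation.coe_zero, Pi.zero_apply, smul_eq_mul, sub_eq_zero] at this
  rw [this]
  exact Finset.sum_congr rfl fun j _ => mul_comm _ _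

theorem der_gen_inr (j : Fin n) (l : Fin E.c) :
    E.der j (E.gen (Sum.inr l)) = - (aeval E.gen E.jinv *
      (E.jmat.adjugate.mulVec fun i => aeval E.gen (pderiv (Sum.inl j) (E.rel i))) l) := by
  rw [alg_D_inr]
  simp only [zc, E.der_coord, smul_eq_mul, mul_ite, mul_one, mul_zero, Finset.sum_ite_eq',
    Finset.mem_univ, if_true, Matrix.mulVec, dotProduct]

theorem der_gen_mem_ring (j : Fin n) (v : Fin n ⊕ Fin E.c) : E.der j (E.gen v) ∈ E.ring := by
  rcases v with i | l
  · rw [E.der_coord]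
    split_ifs
    · exact one_mem _
    · exact zero_mem _
  · rw [der_gen_inr, alg_jmat_eq, ← AlgHom.map_adjugate]
    refine neg_mem (mul_mem ⟨_, rfl⟩ ?_)
    simp only [Matrix.mulVec, dotProduct]
    exact sum_mem fun i _ => mul_mem ⟨_, rfl⟩ ⟨_, rfl⟩

theorem der_mem_ring (j : Fin n) {a : K} (ha : a ∈ E.ring) : E.der j a ∈ E.ring := by
  obtain ⟨P, rfl⟩ := ha
  show E.der j (aeval E.gen P) ∈ E.ring
  rw [derivation_aeval]
  exact sum_mem fun v _ => mul_mem ⟨_, rfl⟩ (E.der_gen_mem_ring j v)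

theorem regAtPt_der (j : Fin n) {w : Fin n ⊕ Fin E.c → ℂ} {a : K} (ha : E.RegAtPt w a) :
    E.RegAtPt w (E.der j a) := by
  obtain ⟨P, Q, hQ, hPQ⟩ := ha
  obtain ⟨P', hP'⟩ := E.der_mem_ring j (a := aeval E.gen P) ⟨P, rfl⟩
  obtain ⟨Q', hQ'⟩ := E.der_mem_ring j (a := aeval E.gen Q) ⟨Q, rfl⟩
  have hP'' : aeval E.gen P' = E.der j (aeval E.gen P) := hP'
  have hQ'' : aeval E.gen Q' = E.der j (aeval E.gen Q) := hQ'
  refine ⟨P' * Q - P * Q', Q * Q, by rw [map_mul]; exact mul_ne_zero hQ hQ, ?_⟩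
  have := congrArg (E.der j) hPQ
  rw [Derivation.leibniz, smul_eq_mul, smul_eq_mul] at this
  rw [map_sub, map_mul, map_mul, map_mul, hP'', hQ'', ← this, ← hPQ]
  ring

/-- chain rule for two systems of coordinates -/
theorem der_eq_sum_der (E' : EChart n K) (j : Fin n) (a : K) :
    E'.der j a = ∑ i, E.der i a * E'.der j (E.zc i) :=
  E.derivation_eq_sum (E'.der j) a

theorem jac_self : E.jac E = 1 := by
  have : (Matrix.of fun i j => E.der j (E.gen (Sum.inl i))) = (1 : Matrix (Fin n) (Fin n) K) := by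
    ext i j
    rw [Matrix.of_apply, E.der_coord, Matrix.one_apply]
  rw [jac, this, Matrix.det_one]

theorem jac_mul_jac (E' E'' : EChart n K) : E.jac E' * E'.jac E'' = E.jac E'' := by
  rw [jac, jac, jac, ← Matrix.det_mul]
  congr 1
  ext i j
  rw [Matrix.mul_apply, Matrix.of_apply, E'.der_eq_sum_der E'' j]
  rfl

theorem jac_ne_zero (E' : EChart n K) : E.jac E' ≠ 0 := by
  intro h
  have := E.jac_mul_jac E' E
  rw [h, zero_mul, jac_self] at this
  exact zero_ne_one this

/-! ### 2. `K` is algebraic over `ℂ(z)` -/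

theorem alg_der_aeval_zc (j : Fin n) (Q : MvPolynomial (Fin n) ℂ) :
    E.der j (aeval E.zc Q) = aeval E.zc (pderiv j Q) := by
  rw [alg_derivation_aeval E.zc (E.der j) Q]
  simp only [zc, E.der_coord, smul_eq_mul, mul_ite, mul_one, mul_zero, Finset.sum_ite_eq',
    Finset.mem_univ, if_true]

theorem alg_eq_zero_of_aeval_zc (d : ℕ) : ∀ Q : MvPolynomial (Fin n) ℂ, Q.totalDegree ≤ d →
    aeval E.zc Q = 0 → Q = 0 := by
  have hconst : ∀ Q : MvPolynomial (Fin n) ℂ, (∀ j, pderiv j Q = 0) → aeval E.zc Q = 0 → Q = 0 := by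
    intro Q h h0
    rw [alg_eq_C_of_pderiv_eq_zero Q h, aeval_C] at h0
    rw [alg_eq_C_of_pderiv_eq_zero Q h, (map_eq_zero _).1 h0, C_0]
  induction d with
  | zero =>
    intro Q hQ h0
    refine hconst Q (fun j => ?_) h0
    rw [totalDegree_eq_zero_iff_eq_C.1 (Nat.le_zero.1 hQ), pderiv_C]
  | succ d ih =>
    intro Q hQ h0
    refine hconst Q (fun j => ih _ ?_ ?_) h0
    · have := alg_totalDegree_pderiv_le Q j
      omega
    · rw [← alg_der_aeval_zc, h0, map_zero]

theorem algebraicIndependent_zc : AlgebraicIndependent ℂ E.zc := by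
  rw [algebraicIndependent_iff]
  intro Q hQ
  exact E.alg_eq_zero_of_aeval_zc _ Q le_rfl hQ

theorem aeval_zc_ne_zero {c : MvPolynomial (Fin n) ℂ} (hc : c ≠ 0) : aeval E.zc c ≠ 0 :=
  fun h => hc (E.alg_eq_zero_of_aeval_zc _ c le_rfl h)

theorem aeval_zc_eq (c : MvPolynomial (Fin n) ℂ) :
    aeval E.zc c = aeval E.gen (rename Sum.inl c) := by
  rw [aeval_rename]
  rfl

theorem eval_rename_inl (c : MvPolynomial (Fin n) ℂ) (w : Fin n ⊕ Fin E.c → ℂ) :
    eval w (rename Sum.inl c) = eval (E.proj w) c := by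
  rw [eval_rename]
  rfl

theorem alg_adjoin_gen : IntermediateField.adjoin ℂ (Set.range E.gen) = ⊤ := by
  rw [eq_top_iff]
  intro a _
  obtain ⟨P, Q, hQ, hPQ⟩ := E.gen_frac a
  have hmem : ∀ P : MvPolynomial (Fin n ⊕ Fin E.c) ℂ,
      aeval E.gen P ∈ IntermediateField.adjoin ℂ (Set.range E.gen) := by
    intro P
    apply IntermediateField.algebra_adjoin_le_adjoin
    rw [Algebra.adjoin_range_eq_range_aeval]
    exact ⟨P, rfl⟩
  rw [eq_div_of_mul_eq hQ hPQ]
  exact div_mem (hmem P) (hmem Q)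

include E in
theorem alg_essFiniteType : Algebra.EssFiniteType ℂ K := by
  rw [← IntermediateField.fg_top_iff]
  classical
  refine ⟨Finset.univ.image E.gen, ?_⟩
  rw [Finset.coe_image, Finset.coe_univ, Set.image_univ]
  exact E.alg_adjoin_gen

theorem alg_formallyUnramified :
    Algebra.FormallyUnramified (IntermediateField.adjoin ℂ (Set.range E.zc)) K := by
  set K₀ := IntermediateField.adjoin ℂ (Set.range E.zc) with hK₀
  constructor
  have hD : (KaehlerDifferential.D K₀ K).restrictScalars ℂ = 0 := by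
    apply E.derivation_eq_zero
    intro i
    have hi : E.zc i ∈ K₀ := IntermediateField.subset_adjoin _ _ ⟨i, rfl⟩
    have : E.zc i = algebraMap K₀ K ⟨E.zc i, hi⟩ := rfl
    rw [this]
    exact (KaehlerDifferential.D K₀ K).map_algebraMap _
  have hD' : ∀ a, KaehlerDifferential.D K₀ K a = 0 := fun a =>
    congrArg (fun D' : Derivation ℂ K (Ω[K⁄K₀]) => D' a) hD
  have hspan := KaehlerDifferential.span_range_derivation K₀ K
  have hr : Set.range (KaehlerDifferential.D K₀ K) ⊆ {0} := by
    rintro _ ⟨a, rfl⟩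
    exact hD' a
  have htop : (⊤ : Submodule K (Ω[K⁄K₀])) = ⊥ := by
    rw [← hspan, eq_bot_iff, Submodule.span_le]
    exact fun x hx => hr hx
  exact (Submodule.subsingleton_iff K).1 (subsingleton_of_bot_eq_top htop.symm)

theorem isAlgebraic_adjoin (a : K) :
    IsAlgebraic (IntermediateField.adjoin ℂ (Set.range E.zc)) a := by
  have h1 := E.alg_essFiniteType
  have h2 : Algebra.EssFiniteType (IntermediateField.adjoin ℂ (Set.range E.zc)) K :=
    Algebra.EssFiniteType.of_comp ℂ _ K
  have h3 := E.alg_formallyUnramified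
  have h4 : Algebra.IsSeparable (IntermediateField.adjoin ℂ (Set.range E.zc)) K :=
    Algebra.FormallyUnramified.isSeparable _ K
  exact (Algebra.IsSeparable.isIntegral _ a).isAlgebraic

open scoped IntermediateField.algebraAdjoinAdjoin in
theorem alg_isAlgebraic_algAdjoin (a : K) : IsAlgebraic (Algebra.adjoin ℂ (Set.range E.zc)) a :=
  (IsFractionRing.isAlgebraic_iff (Algebra.adjoin ℂ (Set.range E.zc))
    (IntermediateField.adjoin ℂ (Set.range E.zc)) K).2 (E.isAlgebraic_adjoin a)

/-- every element of `K` is a root of a nonzero polynomial with coefficients in `ℂ[z]` -/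
theorem exists_poly (a : K) : ∃ p : Polynomial (MvPolynomial (Fin n) ℂ), p ≠ 0 ∧
    Polynomial.eval₂ (aeval E.zc : MvPolynomial (Fin n) ℂ →ₐ[ℂ] K).toRingHom a p = 0 := by
  obtain ⟨p, hp, hpa⟩ := E.alg_isAlgebraic_algAdjoin a
  have hx := E.algebraicIndependent_zc
  refine ⟨p.map (hx.aevalEquiv.symm : Algebra.adjoin ℂ (Set.range E.zc) →+* _), ?_, ?_⟩
  · rw [Ne, Polynomial.map_eq_zero_iff hx.aevalEquiv.symm.injective]
    exact hp
  · rw [Polynomial.eval₂_map]
    rw [Polynomial.aeval_def] at hpa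
    rw [← hpa]
    congr 1
    ext b
    exact hx.aeval_repr b

theorem alg_eval₂_eq (P : MvPolynomial (Fin n ⊕ Fin E.c) ℂ) (p : Polynomial (MvPolynomial (Fin n) ℂ)) :
    Polynomial.eval₂ (aeval E.zc : MvPolynomial (Fin n) ℂ →ₐ[ℂ] K).toRingHom (aeval E.gen P) p =
      aeval E.gen (Polynomial.eval₂
        (rename Sum.inl : MvPolynomial (Fin n) ℂ →ₐ[ℂ] MvPolynomial (Fin n ⊕ Fin E.c) ℂ).toRingHom P p) := by
  have := Polynomial.hom_eval₂ p
    (rename Sum.inl : MvPolynomial (Fin n) ℂ →ₐ[ℂ] MvPolynomial (Fin n ⊕ Fin E.c) ℂ).toRingHom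
    (aeval E.gen : MvPolynomial (Fin n ⊕ Fin E.c) ℂ →ₐ[ℂ] K).toRingHom P
  refine Eq.trans ?_ this.symm
  congr 1
  ext c
  · simp
  · simp [zc]

/-- the equation of `exists_poly` for `a = aeval gen P`, evaluated at a point -/
theorem eval_poly_pt {P : MvPolynomial (Fin n ⊕ Fin E.c) ℂ} {p : Polynomial (MvPolynomial (Fin n) ℂ)}
    (hp : Polynomial.eval₂ (aeval E.zc : MvPolynomial (Fin n) ℂ →ₐ[ℂ] K).toRingHom (aeval E.gen P) p = 0)
    {w : Fin n ⊕ Fin E.c → ℂ} (hw : w ∈ E.pts) :
    Polynomial.eval (eval w P) (p.map (eval (E.proj w))) = 0 := by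
  rw [alg_eval₂_eq] at hp
  have h1 := E.eval_eq_zero_of_aeval_eq_zero hw hp
  rw [Polynomial.hom_eval₂] at h1
  rw [Polynomial.eval_map, ← h1]
  congr 1
  ext c
  · simp
  · simp [Chart.proj]

omit [Algebra ℂ K] in
theorem alg_exists_coeff_zero_ne {R : Type*} [CommRing R] (f : R →+* K) {a : K} (ha : a ≠ 0) (d : ℕ) :
    ∀ p : Polynomial R, p.natDegree ≤ d → p ≠ 0 → Polynomial.eval₂ f a p = 0 →
      ∃ q : Polynomial R, q.coeff 0 ≠ 0 ∧ Polynomial.eval₂ f a q = 0 := by
  induction d with
  | zero =>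
    intro p hd hp h0
    refine ⟨p, ?_, h0⟩
    intro hc
    apply hp
    rw [Polynomial.eq_C_of_natDegree_le_zero hd, hc, Polynomial.C_0]
  | succ d ih =>
    intro p hd hp h0
    by_cases hc : p.coeff 0 = 0
    · have hdiv := Polynomial.divX_mul_X_add p
      rw [hc, Polynomial.C_0, add_zero] at hdiv
      refine ih p.divX ?_ ?_ ?_
      · rw [Polynomial.natDegree_divX_eq_natDegree_tsub_one]
        omega
      · intro h
        rw [h, zero_mul] at hdiv
        exact hp hdiv.symm
      · rw [← hdiv, Polynomial.eval₂_mul, Polynomial.eval₂_X] at h0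
        exact (mul_eq_zero.1 h0).resolve_right ha
    · exact ⟨p, hc, h0⟩

/-- every nonzero element of the ring divides a nonzero polynomial in `z` -/
theorem exists_mul_eq {Q : MvPolynomial (Fin n ⊕ Fin E.c) ℂ} (hQ : aeval E.gen Q ≠ 0) :
    ∃ (B : MvPolynomial (Fin n ⊕ Fin E.c) ℂ) (c₀ : MvPolynomial (Fin n) ℂ), c₀ ≠ 0 ∧
      aeval E.gen Q * aeval E.gen B = aeval E.zc c₀ := by
  obtain ⟨p, hp, hp0⟩ := E.exists_poly (aeval E.gen Q)
  obtain ⟨q, hq, hq0⟩ := alg_exists_coeff_zero_ne _ hQ _ p le_rfl hp hp0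
  refine ⟨- Polynomial.eval₂
    (rename Sum.inl : MvPolynomial (Fin n) ℂ →ₐ[ℂ] MvPolynomial (Fin n ⊕ Fin E.c) ℂ).toRingHom Q q.divX,
    q.coeff 0, hq, ?_⟩
  rw [map_neg, ← alg_eval₂_eq]
  rw [← Polynomial.divX_mul_X_add q, Polynomial.eval₂_add, Polynomial.eval₂_mul, Polynomial.eval₂_X,
    Polynomial.eval₂_C] at hq0
  have h1 : (aeval E.zc : MvPolynomial (Fin n) ℂ →ₐ[ℂ] K).toRingHom (q.coeff 0) =
    aeval E.zc (q.coeff 0) := rfl
  rw [h1] at hq0
  linear_combination -hq0

theorem exists_mul_eq_pt {Q : MvPolynomial (Fin n ⊕ Fin E.c) ℂ} (hQ : aeval E.gen Q ≠ 0) :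
    ∃ (B : MvPolynomial (Fin n ⊕ Fin E.c) ℂ) (c₀ : MvPolynomial (Fin n) ℂ), c₀ ≠ 0 ∧
      ∀ w ∈ E.pts, eval w Q * eval w B = eval (E.proj w) c₀ := by
  obtain ⟨B, c₀, hc, h⟩ := E.exists_mul_eq hQ
  refine ⟨B, c₀, hc, fun w hw => ?_⟩
  rw [aeval_zc_eq, ← map_mul] at h
  have := E.eval_eq_of_aeval_eq hw h
  rwa [map_mul, eval_rename_inl] at this

include E in
/-- no `n + 1` elements of `K` are algebraically independent (for package ALG, (h3b)) -/
theorem not_algebraicIndependent (f : Fin (n + 1) → K) : ¬ AlgebraicIndependent ℂ f := by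
  intro hf
  have h1 := hf.cardinalMk_le_trdeg
  have : Algebra.IsAlgebraic (Algebra.adjoin ℂ (Set.range E.zc)) K := ⟨E.alg_isAlgebraic_algAdjoin⟩
  have h2 := Algebra.IsAlgebraic.trdeg_le_cardinalMk ℂ (Set.range E.zc) (A := K)
  have h3 : Cardinal.mk (Set.range E.zc) ≤ Cardinal.mk (Fin n) := Cardinal.mk_range_le
  have h4 := (h1.trans h2).trans h3
  rw [Cardinal.mk_fin, Cardinal.mk_fin] at h4
  have : n + 1 ≤ n := by exact_mod_cast h4
  omega

end EChart

end Claimed.Agent.R242

end
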