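/-
Row 242, package ANAD.  Loc: the localisation `C[1/g]` of a chart is a chart (one more variable `t = inr 0`, one more
relation `g t - 1`).     Architect: helper286.

LEAVES  ANAD-LOC-A : section 1 (`Chart.localise_jac_unit`, points)            (determinant of a block triangular matrix)
        ANAD-LOC-B : section 2 (`EChart.locGen_ker`, `locGen_frac`, ring, `Same`)   (algebra)
Mathlib only, no paper.  (The topological / measure theoretic statements about `locMap` are in `RD.lean`, `Vol.lean`.)

Plan A.  The Jacobian matrix of `locRel g` with respect to the variables `inr j`, `j : Fin (c+1)`: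
   row 0    : `(g', ∂g'/∂x_1 t, ..)`     (`g' = rename locVar g`, `t = X (inr 0)`)
   row i+1  : `(0, ∂ rel_i'/∂x_j)`      (`pderiv (inr 0) (rename locVar P) = 0`, `pderiv (locVar v) (rename locVar P)
              = rename locVar (pderiv v P)` : `MvPolynomial.pderiv_rename` (injective) or induction on `P`).
   `Matrix.det_succ_column_zero` : only the term `i = 0` survives, `det = g' * rename locVar (det J)` (`RingHom.map_det`).
   Then  `jinv' t g' det' - 1 = (jinv' det' - 1) (t g') + (g' t - 1)`  and `rename locVar` maps `span (range rel)` into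
   `span (range (locRel g))`.
Plan B.  `aeval locGen (rename locVar P) = aeval gen P` (`aeval_rename`).
   `locGen_ker` (⇐): check on generators.  (⇒): for every `P` in the `c+1` variables there are `N` and `P₀` with
   `g'^N P - rename locVar P₀ ∈ span {g' t - 1}` (induction on `P`: `induction_on`; for `X (inr 0)`: `g' t ≡ 1`).
   Then `aeval gen P₀ = g^N * 0 = 0`, so `P₀ ∈ ideal`, `g'^N P ∈ ideal'`, and `P = t^N g'^N P + (1 - (t g')^N) P`.
-/
import Claimed.Agent.R242.Anad.Val

set_option autoImplicit false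

noncomputable section

namespace Claimed.Agent.R242

open MvPolynomial

/-! ### 1. charts -/

namespace Chart

variable {n : ℕ} (C : Chart n)

/-- inclusion of the old variables among the new ones -/
def locVar : Fin n ⊕ Fin C.c → Fin n ⊕ Fin (C.c + 1) := Sum.map id Fin.succ

/-- the relations of `C[1/g]` -/
def locRel (g : MvPolynomial (Fin n ⊕ Fin C.c) ℂ) :
    Fin (C.c + 1) → MvPolynomial (Fin n ⊕ Fin (C.c + 1)) ℂ :=
  Fin.cons (rename C.locVar g * X (Sum.inr 0) - 1) (fun i => rename C.locVar (C.rel i))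

theorem locVar_injective : Function.Injective C.locVar :=
  Function.Injective.sumMap Function.injective_id (Fin.succ_injective _)

theorem locVar_ne_zero (v : Fin n ⊕ Fin C.c) : C.locVar v ≠ Sum.inr 0 := by
  rcases v with i | j
  · simp [locVar]
  · simp [locVar, Fin.succ_ne_zero]

theorem pderiv_zero_rename_locVar (P : MvPolynomial (Fin n ⊕ Fin C.c) ℂ) :
    pderiv (Sum.inr (0 : Fin (C.c + 1))) (rename C.locVar P) = 0 := by
  induction P using MvPolynomial.induction_on with
  | C a => simp
  | add p q hp hq => simp [hp, hq]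
  | mul_X p a h =>
    simp only [map_mul, MvPolynomial.rename_X, Derivation.leibniz, h, smul_zero, add_zero]
    rw [pderiv_X_of_ne (C.locVar_ne_zero a)]
    simp

theorem localise_det (g : MvPolynomial (Fin n ⊕ Fin C.c) ℂ) :
    (Matrix.of fun i j => pderiv (Sum.inr j) (C.locRel g i)).det
      = rename C.locVar g * rename C.locVar (Matrix.of fun i j => pderiv (Sum.inr j) (C.rel i)).det := by
  rw [Matrix.det_succ_column_zero, Fin.sum_univ_succ]
  have h0 : ∀ i : Fin C.c, (Matrix.of fun i j => pderiv (Sum.inr j) (C.locRel g i)) i.succ 0 = 0 := by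
    intro i
    simp only [Matrix.of_apply, locRel, Fin.cons_succ]
    exact C.pderiv_zero_rename_locVar _
  have h1 : (Matrix.of fun i j => pderiv (Sum.inr j) (C.locRel g i)) 0 0 = rename C.locVar g := by
    simp only [Matrix.of_apply, locRel, Fin.cons_zero]
    simp [C.pderiv_zero_rename_locVar]
  have h2 : ((Matrix.of fun i j => pderiv (Sum.inr j) (C.locRel g i)).submatrix
      (Fin.succAbove 0) Fin.succ)
      = (rename C.locVar).toRingHom.mapMatrix (Matrix.of fun i j => pderiv (Sum.inr j) (C.rel i)) := by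
    refine Matrix.ext fun i j => ?_
    simp only [Matrix.submatrix_apply, Matrix.of_apply, Fin.zero_succAbove, locRel, Fin.cons_succ,
      RingHom.mapMatrix_apply, Matrix.map_apply]
    exact pderiv_rename C.locVar_injective (Sum.inr j) (C.rel i)
  rw [Finset.sum_eq_zero (fun i _ => by rw [h0 i]; simp), h1, h2, ← RingHom.map_det]
  simp

theorem rename_locVar_mem (g : MvPolynomial (Fin n ⊕ Fin C.c) ℂ)
    {P : MvPolynomial (Fin n ⊕ Fin C.c) ℂ} (hP : P ∈ Ideal.span (Set.range C.rel)) :
    rename C.locVar P ∈ Ideal.span (Set.range (C.locRel g)) := by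
  have h : Ideal.span (Set.range C.rel)
      ≤ (Ideal.span (Set.range (C.locRel g))).comap (rename C.locVar).toRingHom := by
    rw [Ideal.span_le]
    rintro _ ⟨i, rfl⟩
    refine Ideal.subset_span ⟨i.succ, ?_⟩
    simp [locRel]
  exact h hP

theorem localise_jac_unit (g : MvPolynomial (Fin n ⊕ Fin C.c) ℂ) :
    rename C.locVar C.jinv * X (Sum.inr 0)
        * (Matrix.of fun i j => pderiv (Sum.inr j) (C.locRel g i)).det - 1
      ∈ Ideal.span (Set.range (C.locRel g)) := by
  rw [localise_det]
  have h1 := C.rename_locVar_mem g C.jac_unit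
  have h2 : rename C.locVar g * X (Sum.inr 0) - 1 ∈ Ideal.span (Set.range (C.locRel g)) :=
    Ideal.subset_span ⟨0, by simp [locRel]⟩
  have e : rename C.locVar C.jinv * X (Sum.inr 0)
        * (rename C.locVar g
          * rename C.locVar (Matrix.of fun i j => pderiv (Sum.inr j) (C.rel i)).det) - 1
      = (X (Sum.inr 0) * rename C.locVar g)
          * rename C.locVar (C.jinv * (Matrix.of fun i j => pderiv (Sum.inr j) (C.rel i)).det - 1)
        + (rename C.locVar g * X (Sum.inr 0) - 1) := by
    simp only [map_sub, map_mul, map_one]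
    ring
  rw [e]
  exact Ideal.add_mem _ (Ideal.mul_mem_left _ _ h1) h2

/-- the chart `C[1/g]` -/
def localise (g : MvPolynomial (Fin n ⊕ Fin C.c) ℂ) : Chart n where
  c := C.c + 1
  rel := C.locRel g
  jinv := rename C.locVar C.jinv * X (Sum.inr 0)
  jac_unit := C.localise_jac_unit g

variable (g : MvPolynomial (Fin n ⊕ Fin C.c) ℂ)

/-- a point of `C[1/g]` gives a point of `C` -/
def locPt (w' : Fin n ⊕ Fin (C.localise g).c → ℂ) : Fin n ⊕ Fin C.c → ℂ := fun v => w' (C.locVar v)

/-- a point of `C` with `g ≠ 0` gives a point of `C[1/g]` -/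
def locExt (w : Fin n ⊕ Fin C.c → ℂ) : Fin n ⊕ Fin (C.localise g).c → ℂ :=
  Sum.elim (fun i => w (Sum.inl i)) (Fin.cons (eval w g)⁻¹ (fun l => w (Sum.inr l)))

theorem eval_rename_locVar (w' : Fin n ⊕ Fin (C.localise g).c → ℂ)
    (P : MvPolynomial (Fin n ⊕ Fin C.c) ℂ) :
    eval w' (rename C.locVar P) = eval (C.locPt g w') P :=
  eval_rename (R := ℂ) C.locVar (w' : Fin n ⊕ Fin (C.c + 1) → ℂ) P

theorem mem_pts_localise (w' : Fin n ⊕ Fin (C.localise g).c → ℂ) :
    w' ∈ (C.localise g).pts ↔
      C.locPt g w' ∈ C.pts ∧ eval (C.locPt g w') g * w' (Sum.inr (0 : Fin (C.c + 1))) = 1 := by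
  have key : w' ∈ (C.localise g).pts ↔ ∀ i : Fin (C.c + 1), eval w' (C.locRel g i) = 0 := Iff.rfl
  rw [key, Fin.forall_fin_succ]
  have e0 : eval w' (C.locRel g 0)
      = eval (C.locPt g w') g * w' (Sum.inr (0 : Fin (C.c + 1))) - 1 := by
    have e00 : ∀ u : Fin n ⊕ Fin (C.c + 1) → ℂ, eval u (C.locRel g 0)
        = eval u (rename C.locVar g) * u (Sum.inr (0 : Fin (C.c + 1))) - 1 := by
      intro u
      simp only [locRel, Fin.cons_zero, map_sub, map_mul, map_one, eval_X]
    exact (e00 w').trans (by rw [← C.eval_rename_locVar g w' g]; rfl)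
  have e1 : ∀ i : Fin C.c, eval w' (C.locRel g i.succ) = eval (C.locPt g w') (C.rel i) := by
    intro i
    simp only [locRel, Fin.cons_succ]
    exact C.eval_rename_locVar g w' _
  rw [e0, sub_eq_zero]
  simp only [e1]
  exact and_comm

theorem locPt_locExt (w : Fin n ⊕ Fin C.c → ℂ) : C.locPt g (C.locExt g w) = w := by
  funext v
  rcases v with i | j
  · rfl
  · rfl

theorem locExt_mem {w : Fin n ⊕ Fin C.c → ℂ} (hw : w ∈ C.pts) (hg : eval w g ≠ 0) :
    C.locExt g w ∈ (C.localise g).pts := by
  rw [mem_pts_localise, locPt_locExt]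
  refine ⟨hw, ?_⟩
  exact mul_inv_cancel₀ hg

theorem locExt_locPt {w' : Fin n ⊕ Fin (C.localise g).c → ℂ} (hw' : w' ∈ (C.localise g).pts) :
    C.locExt g (C.locPt g w') = w' := by
  have h := ((C.mem_pts_localise g w').1 hw').2
  funext v
  rcases v with i | j
  · rfl
  · change (Fin.cons (eval (C.locPt g w') g)⁻¹ (fun l => C.locPt g w' (Sum.inr l)) :
      Fin (C.c + 1) → ℂ) j = w' (Sum.inr j)
    refine Fin.cases ?_ (fun l => ?_) j
    · rw [Fin.cons_zero]
      exact inv_eq_of_mul_eq_one_right h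
    · rw [Fin.cons_succ]
      rfl

theorem locPt_mem {w' : Fin n ⊕ Fin (C.localise g).c → ℂ} (hw' : w' ∈ (C.localise g).pts) :
    C.locPt g w' ∈ C.pts := ((C.mem_pts_localise g w').1 hw').1

theorem eval_locPt_ne_zero {w' : Fin n ⊕ Fin (C.localise g).c → ℂ}
    (hw' : w' ∈ (C.localise g).pts) : eval (C.locPt g w') g ≠ 0 := by
  have h := ((C.mem_pts_localise g w').1 hw').2
  intro h0
  rw [h0, zero_mul] at h
  exact zero_ne_one h

theorem proj_locPt (w' : Fin n ⊕ Fin (C.localise g).c → ℂ) :
    C.proj (C.locPt g w') = (C.localise g).proj w' := rfl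

/-- the map `C[1/g].pts → C.pts` -/
def locMap : (C.localise g).pts → C.pts := fun w' => ⟨C.locPt g w'.1, C.locPt_mem g w'.2⟩

theorem pr_locMap (w' : (C.localise g).pts) : C.pr (C.locMap g w') = (C.localise g).pr w' := rfl

theorem locMap_injective : Function.Injective (C.locMap g) := by
  intro a b hab
  have h : C.locPt g a.1 = C.locPt g b.1 := congrArg Subtype.val hab
  apply Subtype.ext
  rw [← C.locExt_locPt g a.2, ← C.locExt_locPt g b.2, h]

theorem range_locMap : Set.range (C.locMap g) = {w : C.pts | eval w.1 g ≠ 0} := by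
  ext w
  constructor
  · rintro ⟨w', rfl⟩
    exact C.eval_locPt_ne_zero g w'.2
  · intro hw
    refine ⟨⟨C.locExt g w.1, C.locExt_mem g w.2 hw⟩, ?_⟩
    apply Subtype.ext
    exact C.locPt_locExt g w.1

end Chart

/-! ### 2. embedded charts -/

namespace EChart

variable {n : ℕ} {K : Type} [Field K] [Algebra ℂ K] (E : EChart n K)
  (g : MvPolynomial (Fin n ⊕ Fin E.c) ℂ)

/-- the images in `K` of the variables of `E[1/g]` -/
def locGen : Fin n ⊕ Fin (E.c + 1) → K :=
  Sum.elim (fun i => E.gen (Sum.inl i)) (Fin.cons (aeval E.gen g)⁻¹ (fun l => E.gen (Sum.inr l)))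

theorem locGen_locVar (v : Fin n ⊕ Fin E.c) : E.locGen g (E.locVar v) = E.gen v := by
  rcases v with i | l
  · rfl
  · simp [locGen, Chart.locVar]

theorem aeval_locGen_rename (P : MvPolynomial (Fin n ⊕ Fin E.c) ℂ) :
    aeval (E.locGen g) (rename E.locVar P) = aeval E.gen P := by
  rw [aeval_rename]
  congr 2
  funext v
  exact E.locGen_locVar g v

theorem locGen_zero : E.locGen g (Sum.inr 0) = (aeval E.gen g)⁻¹ := by
  simp [locGen]

/-- the new relation is killed -/
theorem locb_aeval_rel0 (hg : aeval E.gen g ≠ 0) :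
    aeval (E.locGen g) (rename E.locVar g * X (Sum.inr 0) - 1) = 0 := by
  rw [map_sub, map_mul, aeval_locGen_rename, aeval_X, locGen_zero, map_one, mul_inv_cancel₀ hg,
    sub_self]

/-- clearing the powers of `t` -/
theorem locb_clear (P : MvPolynomial (Fin n ⊕ Fin (E.c + 1)) ℂ) :
    ∃ (N : ℕ) (P₀ : MvPolynomial (Fin n ⊕ Fin E.c) ℂ),
      rename E.locVar g ^ N * P - rename E.locVar P₀
        ∈ Ideal.span {rename E.locVar g * X (Sum.inr 0) - 1} := by
  induction P using MvPolynomial.induction_on with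
  | C a =>
    refine ⟨0, C a, ?_⟩
    rw [pow_zero, one_mul, rename_C, sub_self]
    exact Ideal.zero_mem _
  | add p q hp hq =>
    obtain ⟨N₁, P₁, h₁⟩ := hp
    obtain ⟨N₂, P₂, h₂⟩ := hq
    refine ⟨N₁ + N₂, g ^ N₂ * P₁ + g ^ N₁ * P₂, ?_⟩
    have e : rename E.locVar g ^ (N₁ + N₂) * (p + q)
        - rename E.locVar (g ^ N₂ * P₁ + g ^ N₁ * P₂)
        = rename E.locVar g ^ N₂ * (rename E.locVar g ^ N₁ * p - rename E.locVar P₁)
          + rename E.locVar g ^ N₁ * (rename E.locVar g ^ N₂ * q - rename E.locVar P₂) := by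
      simp only [map_add, map_mul, map_pow]
      ring
    rw [e]
    exact Ideal.add_mem _ (Ideal.mul_mem_left _ _ h₁) (Ideal.mul_mem_left _ _ h₂)
  | mul_X p v hp =>
    obtain ⟨N, P₀, h⟩ := hp
    have old : ∀ v₀ : Fin n ⊕ Fin E.c, ∃ (N : ℕ) (P₀ : MvPolynomial (Fin n ⊕ Fin E.c) ℂ),
        rename E.locVar g ^ N * (p * X (E.locVar v₀)) - rename E.locVar P₀
          ∈ Ideal.span {rename E.locVar g * X (Sum.inr 0) - 1} := by
      intro v₀
      refine ⟨N, P₀ * X v₀, ?_⟩
      have e : rename E.locVar g ^ N * (p * X (E.locVar v₀)) - rename E.locVar (P₀ * X v₀)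
          = X (E.locVar v₀) * (rename E.locVar g ^ N * p - rename E.locVar P₀) := by
        simp only [map_mul, rename_X]
        ring
      rw [e]
      exact Ideal.mul_mem_left _ _ h
    rcases v with i | l
    · exact old (Sum.inl i)
    · refine Fin.cases ?_ (fun l => ?_) l
      · refine ⟨N + 1, P₀, ?_⟩
        have e : rename E.locVar g ^ (N + 1) * (p * X (Sum.inr 0)) - rename E.locVar P₀
            = (rename E.locVar g * X (Sum.inr 0))
                * (rename E.locVar g ^ N * p - rename E.locVar P₀)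
              + rename E.locVar P₀ * (rename E.locVar g * X (Sum.inr 0) - 1) := by
          ring
        rw [e]
        exact Ideal.add_mem _ (Ideal.mul_mem_left _ _ h)
          (Ideal.mul_mem_left _ _ (Ideal.subset_span rfl))
      · exact old (Sum.inr l)

/-- consequence of `locb_clear` in `K` -/
theorem locb_clear_aeval (hg : aeval E.gen g ≠ 0) (P : MvPolynomial (Fin n ⊕ Fin (E.c + 1)) ℂ) :
    ∃ (N : ℕ) (P₀ : MvPolynomial (Fin n ⊕ Fin E.c) ℂ),
      rename E.locVar g ^ N * P - rename E.locVar P₀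
        ∈ Ideal.span {rename E.locVar g * X (Sum.inr 0) - 1} ∧
      aeval E.gen g ^ N * aeval (E.locGen g) P = aeval E.gen P₀ := by
  obtain ⟨N, P₀, h⟩ := E.locb_clear g P
  refine ⟨N, P₀, h, ?_⟩
  have hle : Ideal.span {rename E.locVar g * X (Sum.inr 0) - 1}
      ≤ RingHom.ker (aeval (E.locGen g)).toRingHom := by
    rw [Ideal.span_le, Set.singleton_subset_iff]
    exact E.locb_aeval_rel0 g hg
  have h0 : aeval (E.locGen g) (rename E.locVar g ^ N * P - rename E.locVar P₀) = 0 := hle h
  rw [map_sub, map_mul, map_pow, aeval_locGen_rename, aeval_locGen_rename, sub_eq_zero] at h0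
  exact h0

theorem locGen_ker (hg : aeval E.gen g ≠ 0) (P : MvPolynomial (Fin n ⊕ Fin (E.c + 1)) ℂ) :
    aeval (E.locGen g) P = 0 ↔ P ∈ (E.toChart.localise g).ideal := by
  change _ ↔ P ∈ Ideal.span (Set.range (E.toChart.locRel g))
  have h0mem : rename E.locVar g * X (Sum.inr 0) - 1
      ∈ Ideal.span (Set.range (E.toChart.locRel g)) :=
    Ideal.subset_span ⟨0, rfl⟩
  constructor
  · intro hP
    obtain ⟨N, P₀, h, h2⟩ := E.locb_clear_aeval g hg P
    rw [hP, mul_zero] at h2
    have hP₀ : P₀ ∈ E.ideal := (E.gen_ker P₀).1 h2.symm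
    have hle1 : Ideal.span {rename E.locVar g * X (Sum.inr 0) - 1}
        ≤ Ideal.span (Set.range (E.toChart.locRel g)) := by
      rw [Ideal.span_le, Set.singleton_subset_iff]
      exact h0mem
    have hle2 : E.ideal ≤ (Ideal.span (Set.range (E.toChart.locRel g))).comap
        (rename E.locVar).toRingHom := by
      unfold Chart.ideal
      rw [Ideal.span_le]
      rintro _ ⟨i, rfl⟩
      exact Ideal.subset_span ⟨i.succ, rfl⟩
    have h3 : rename E.locVar P₀ ∈ Ideal.span (Set.range (E.toChart.locRel g)) := hle2 hP₀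
    have h4 : rename E.locVar g ^ N * P ∈ Ideal.span (Set.range (E.toChart.locRel g)) := by
      have := Ideal.add_mem _ (hle1 h) h3
      rwa [sub_add_cancel] at this
    have h5 : (rename E.locVar g * X (Sum.inr 0)) ^ N - 1
        ∈ Ideal.span (Set.range (E.toChart.locRel g)) := by
      obtain ⟨q, hq⟩ := sub_dvd_pow_sub_pow (rename E.locVar g * X (Sum.inr 0)) 1 N
      rw [one_pow] at hq
      rw [hq]
      exact Ideal.mul_mem_right _ _ h0mem
    have e : P = X (Sum.inr 0) ^ N * (rename E.locVar g ^ N * P)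
        - P * ((rename E.locVar g * X (Sum.inr 0)) ^ N - 1) := by
      ring
    rw [e]
    exact Ideal.sub_mem _ (Ideal.mul_mem_left _ _ h4) (Ideal.mul_mem_left _ _ h5)
  · intro hP
    have hle : Ideal.span (Set.range (E.toChart.locRel g))
        ≤ RingHom.ker (aeval (E.locGen g)).toRingHom := by
      rw [Ideal.span_le]
      rintro _ ⟨i, rfl⟩
      refine Fin.cases ?_ (fun i => ?_) i
      · exact E.locb_aeval_rel0 g hg
      · show aeval (E.locGen g) (rename E.locVar (E.rel i)) = 0
        rw [aeval_locGen_rename]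
        exact (E.gen_ker _).2 (Ideal.subset_span ⟨i, rfl⟩)
    exact hle hP

theorem locGen_frac (a : K) : ∃ P Q : MvPolynomial (Fin n ⊕ Fin (E.c + 1)) ℂ,
    aeval (E.locGen g) Q ≠ 0 ∧ a * aeval (E.locGen g) Q = aeval (E.locGen g) P := by
  obtain ⟨P, Q, hQ, h⟩ := E.gen_frac a
  refine ⟨rename E.locVar P, rename E.locVar Q, ?_, ?_⟩
  · rwa [aeval_locGen_rename]
  · rwa [aeval_locGen_rename, aeval_locGen_rename]

/-- the embedded chart `E[1/g]` -/
def localise (hg : aeval E.gen g ≠ 0) : EChart n K where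
  toChart := E.toChart.localise g
  gen := E.locGen g
  gen_ker := E.locGen_ker g hg
  gen_frac := E.locGen_frac g
  der := E.der
  der_coord := E.der_coord

variable (hg : aeval E.gen g ≠ 0)

theorem localise_toChart : (E.localise g hg).toChart = E.toChart.localise g := rfl

theorem localise_zc (i : Fin n) : (E.localise g hg).zc i = E.zc i := rfl

theorem localise_der (j : Fin n) : (E.localise g hg).der j = E.der j := rfl

theorem jac_localise_left (E' : EChart n K) : (E.localise g hg).jac E' = E.jac E' := rfl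

theorem jac_localise_right (E' : EChart n K) : E'.jac (E.localise g hg) = E'.jac E := rfl

theorem ring_le_localise : E.ring ≤ (E.localise g hg).ring := by
  rintro _ ⟨P, rfl⟩
  exact ⟨rename E.locVar P, E.aeval_locGen_rename g P⟩

theorem inv_mem_ring_localise : (aeval E.gen g)⁻¹ ∈ (E.localise g hg).ring := by
  refine ⟨X (Sum.inr (0 : Fin (E.c + 1))), ?_⟩
  show aeval (E.locGen g) (X (Sum.inr (0 : Fin (E.c + 1)))) = _
  rw [aeval_X, locGen_zero]

theorem mem_ring_localise_iff (a : K) :
    a ∈ (E.localise g hg).ring ↔ ∃ k : ℕ, a * aeval E.gen g ^ k ∈ E.ring := by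
  constructor
  · rintro ⟨P, rfl⟩
    obtain ⟨N, P₀, -, h2⟩ := E.locb_clear_aeval g hg P
    refine ⟨N, P₀, ?_⟩
    rw [mul_comm]
    exact h2.symm
  · rintro ⟨k, hk⟩
    have h1 := (E.localise g hg).ring.mul_mem (E.ring_le_localise g hg hk)
      ((E.localise g hg).ring.pow_mem (E.inv_mem_ring_localise g hg) k)
    have e : a * aeval E.gen g ^ k * (aeval E.gen g)⁻¹ ^ k = a := by
      rw [mul_assoc, ← mul_pow, mul_inv_cancel₀ hg, one_pow, mul_one]
    rwa [e] at h1

/-- a point of `E[1/g]` and its image in `E` are the same point -/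
theorem same_locPt {w' : Fin n ⊕ Fin (E.localise g hg).c → ℂ} (hw' : w' ∈ (E.localise g hg).pts) :
    (E.localise g hg).Same E w' (E.toChart.locPt g w') := by
  have hw : E.toChart.locPt g w' ∈ E.pts := E.toChart.locPt_mem g hw'
  have hold : ∀ v : Fin n ⊕ Fin E.c, (E.localise g hg).gen (E.locVar v) = E.gen v :=
    E.locGen_locVar g
  have hne : eval (E.toChart.locPt g w') g ≠ 0 := E.toChart.eval_locPt_ne_zero g hw'
  refine same_of_gen hw' hw (fun v => ?_) (fun v => ?_)
  · rw [← hold v]
    exact ⟨(E.localise g hg).regAtPt_gen w' _, (E.localise g hg).val_gen hw' _⟩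
  · have old : ∀ v₀ : Fin n ⊕ Fin E.c,
        E.RegAtPt (E.toChart.locPt g w') ((E.localise g hg).gen (E.locVar v₀)) ∧
        E.val (E.toChart.locPt g w') ((E.localise g hg).gen (E.locVar v₀)) = w' (E.locVar v₀) := by
      intro v₀
      rw [hold v₀]
      exact ⟨E.regAtPt_gen _ _, E.val_gen hw _⟩
    rcases v with i | l
    · exact old (Sum.inl i)
    · refine Fin.cases ?_ (fun l => ?_) l
      · have e : (E.localise g hg).gen (Sum.inr (0 : Fin (E.c + 1))) = (aeval E.gen g)⁻¹ :=
          E.locGen_zero g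
        have hu : E.UnitAtPt (E.toChart.locPt g w') (aeval E.gen g) :=
          (unitAtPt_iff hw).2 ⟨E.regAtPt_aeval _ g, by rw [E.val_aeval hw]; exact hne⟩
        rw [e]
        refine ⟨hu.inv.regAtPt, ?_⟩
        rw [val_inv hw hu, E.val_aeval hw]
        have h1 := ((E.toChart.mem_pts_localise g w').1 hw').2
        exact inv_eq_of_mul_eq_one_right h1
      · exact old (Sum.inr l)

end EChart

end Claimed.Agent.R242

end

/-! equation lemmas of this file, cited once here (rule 6) -/
namespace Claimed.Agent.R242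

theorem r242_eqcite_Anad_Loc : True := by
  have := @Claimed.Agent.R242.Chart.locExt.eq_1
  have := @Claimed.Agent.R242.Chart.locMap.eq_1
  have := @Claimed.Agent.R242.EChart.localise.eq_1
  have := @Claimed.Agent.R242.Chart.locPt.eq_1
  have := @Claimed.Agent.R242.Chart.locVar.eq_1
  have := @Claimed.Agent.R242.Chart.localise.eq_1
  have := @Claimed.Agent.R242.Chart.locRel.eq_1
  have := @Claimed.Agent.R242.EChart.locGen.eq_1
  trivial

end Claimed.Agent.R242
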