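/-
Row 242, package ANAD.  RD: the points of a chart form a Riemann domain over `Cn n`.     Architect: helper286.

LEAVES  ANAD-RD-IFT  : section 1 (`exists_section` = implicit function theorem, `isLocalHomeomorph_pr`)
        ANAD-RD-SECT : sections 2, 3 (the chosen section `sect`, holomorphy of ambient functions, of `val`)
        ANAD-RD-RHO  : section 4 (the exhaustion `rho = ∑ |w_v|²`: the three hypotheses of `hormander_rd`)
        ANAD-RD-LOC  : section 5 (`locMap` is an open embedding of Riemann domains)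
Mathlib + the (sorried) RD kit of helper290 (`SCV/RdGerm.lean`).  No paper.

Plan 1.  `V = Fin n ⊕ Fin c → ℂ`.  `Φ : V → Cn n × (Fin c → ℂ)`, `Φ w = (proj w, fun i => eval w (rel i))` is polynomial, hence
  `ContDiff ℂ ⊤` / analytic (`MvPolynomial` evaluation: induction, or `AnalyticOnNhd` of finite sums of products of coordinates).
  Its derivative at `w` is `v ↦ (proj v, fun i => ∑ u, eval w (pderiv u (rel i)) * v u)`; it is injective at `w ∈ pts` because
  the matrix `eval w (pderiv (inr j) (rel i))` is invertible (`eval_jac_ne_zero`, from `C.jac_unit` evaluated at `w`;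
  `RingHom.map_det`), hence bijective (equal finite dimensions: `LinearMap.injective_iff_surjective` after identifying, or
  `LinearEquiv.ofInjectiveEndo`-type lemma; `ContinuousLinearEquiv.ofBijective` / `LinearEquiv.toContinuousLinearEquiv`).
  `ContDiffAt.toOpenPartialHomeomorph` (𝕜 = ℂ) gives `e` with `e.source ∋ w` open; `e.symm` is analytic at every point `a` of
  the target such that the derivative of `Φ` at `e.symm a` is invertible: `OpenPartialHomeomorph.analyticAt_symm`
  (first shrink `e.source` to the open set where the Jacobian determinant is `≠ 0`: `e.restrOpen`).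
  Take `r` with `ball (pr w) r ×ˢ {0} ⊆ e.target`, `s z = e.symm (z, 0)`, `U = e.source ∩ Φ ⁻¹' (ball (pr w) r ×ˢ univ)`.
Plan `isLocalHomeomorph_pr`: `IsLocalHomeomorph.mk` with the partial homeomorphism
  `source = Subtype.val ⁻¹' U`, `target = ball (pr w) r`, `invFun z = if h : s z ∈ pts then ⟨s z, h⟩ else w`.
-/
import Claimed.Agent.R242.Anad.Loc
import Claimed.Agent.R242.SCV.RdMeas

set_option autoImplicit false

noncomputable section

namespace Claimed.Agent.R242

open MvPolynomial Filter Topology MeasureTheory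
open scoped ContDiff ENNReal

namespace Chart

variable {n : ℕ} (C : Chart n)

/-! ### 1. implicit function theorem -/

theorem analyticOnNhd_eval {σ : Type*} [Fintype σ] (P : MvPolynomial σ ℂ) :
    AnalyticOnNhd ℂ (fun w : σ → ℂ => eval w P) Set.univ :=
  AnalyticOnNhd.eval_mvPolynomial P

theorem hasFDerivAt_eval {σ : Type*} [Fintype σ] (P : MvPolynomial σ ℂ) (w : σ → ℂ) :
    HasFDerivAt (fun w : σ → ℂ => eval w P)
      (∑ u, eval w (pderiv u P) • (ContinuousLinearMap.proj u : (σ → ℂ) →L[ℂ] ℂ)) w := by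
  classical
  induction P using MvPolynomial.induction_on with
  | C a =>
    have hfun : (fun w : σ → ℂ => eval w (C a)) = fun _ => a := by ext w; simp
    rw [hfun]
    refine (hasFDerivAt_const (𝕜 := ℂ) a w).congr_fderiv ?_
    ext v
    simp
  | add p q hp hq =>
    have hfun : (fun w : σ → ℂ => eval w (p + q)) = fun w => eval w p + eval w q := by
      ext w; simp
    rw [hfun]
    refine (hp.add hq).congr_fderiv ?_
    ext v
    simp [add_mul, Finset.sum_add_distrib]
  | mul_X p i hp =>
    have h1 : HasFDerivAt (fun w : σ → ℂ => w i) (ContinuousLinearMap.proj i : (σ → ℂ) →L[ℂ] ℂ) w :=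
      hasFDerivAt_apply i w
    have hfun : (fun w : σ → ℂ => eval w (p * X i)) = fun w => eval w p * w i := by
      ext w; simp
    rw [hfun]
    refine (hp.mul h1).congr_fderiv ?_
    ext v
    simp only [Derivation.leibniz, pderiv_X, smul_eq_mul, map_add, map_mul, eval_X,
      sum_apply, add_apply, smul_apply,
      ContinuousLinearMap.proj_apply, add_mul, Finset.sum_add_distrib, Finset.mul_sum]
    congr 1
    · rw [Finset.sum_eq_single i]
      · simp
      · intro b _ hb
        simp [hb.symm]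
      · simp
    · refine Finset.sum_congr rfl fun u _ => ?_
      ring

theorem continuous_eval {σ : Type*} [Fintype σ] (P : MvPolynomial σ ℂ) :
    Continuous (fun w : σ → ℂ => eval w P) :=
  MvPolynomial.continuous_eval P

theorem isClosed_pts : IsClosed C.pts := by
  have : C.pts = ⋂ i, {w | eval w (C.rel i) = 0} := by
    ext w; simp [Chart.pts]
  rw [this]
  exact isClosed_iInter fun i => isClosed_eq (continuous_eval _) continuous_const

theorem anadrd_eval_ideal {w : Fin n ⊕ Fin C.c → ℂ} (hw : w ∈ C.pts)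
    {P : MvPolynomial (Fin n ⊕ Fin C.c) ℂ} (hP : P ∈ Ideal.span (Set.range C.rel)) :
    eval w P = 0 := by
  have : Ideal.span (Set.range C.rel) ≤ RingHom.ker (eval w) := by
    rw [Ideal.span_le]
    rintro _ ⟨i, rfl⟩
    exact hw i
  exact this hP

theorem eval_jac_ne_zero {w : Fin n ⊕ Fin C.c → ℂ} (hw : w ∈ C.pts) :
    eval w (Matrix.of fun i j => pderiv (Sum.inr j) (C.rel i)).det ≠ 0 := by
  have h := C.anadrd_eval_ideal hw C.jac_unit
  intro h0
  simp [h0] at h

/-- the map `w ↦ (proj w, rel w)` -/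
def anadrdPhi (w : Fin n ⊕ Fin C.c → ℂ) : Cn n × (Fin C.c → ℂ) :=
  (C.proj w, fun i => eval w (C.rel i))

/-- its derivative, as a continuous linear map -/
def anadrdD (w : Fin n ⊕ Fin C.c → ℂ) : (Fin n ⊕ Fin C.c → ℂ) →L[ℂ] Cn n × (Fin C.c → ℂ) :=
  (ContinuousLinearMap.pi fun i => ContinuousLinearMap.proj (Sum.inl i)).prod
    (ContinuousLinearMap.pi fun i =>
      ∑ u, eval w (pderiv u (C.rel i)) • (ContinuousLinearMap.proj u : (Fin n ⊕ Fin C.c → ℂ) →L[ℂ] ℂ))

theorem anadrd_hasFDerivAt (w : Fin n ⊕ Fin C.c → ℂ) :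
    HasFDerivAt C.anadrdPhi (C.anadrdD w) w := by
  refine HasFDerivAt.prodMk ?_ ?_
  · exact hasFDerivAt_pi.2 fun i => hasFDerivAt_apply (Sum.inl i) w
  · exact hasFDerivAt_pi.2 fun i => hasFDerivAt_eval (C.rel i) w

theorem anadrd_analyticAt (w : Fin n ⊕ Fin C.c → ℂ) : AnalyticAt ℂ C.anadrdPhi w := by
  refine AnalyticAt.prod ?_ ?_
  · exact (ContinuousLinearMap.pi fun i => (ContinuousLinearMap.proj (Sum.inl i) :
      (Fin n ⊕ Fin C.c → ℂ) →L[ℂ] ℂ)).analyticAt w
  · exact analyticAt_pi_iff.2 fun i => analyticOnNhd_eval (C.rel i) w (Set.mem_univ _)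

theorem anadrd_injective {w : Fin n ⊕ Fin C.c → ℂ}
    (hw : eval w (Matrix.of fun i j => pderiv (Sum.inr j) (C.rel i)).det ≠ 0) :
    Function.Injective (C.anadrdD w) := by
  rw [injective_iff_map_eq_zero]
  intro v hv
  have h1 : ∀ i, v (Sum.inl i) = 0 := fun i => congrFun (congrArg Prod.fst hv) i
  have h2 : ∀ i, ∑ u, eval w (pderiv u (C.rel i)) * v u = 0 := fun i => by
    have := congrFun (congrArg Prod.snd hv) i
    simpa [anadrdD] using this
  have h3 : ((Matrix.of fun i j => pderiv (Sum.inr j) (C.rel i)).map (eval w)).mulVec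
      (fun j => v (Sum.inr j)) = 0 := by
    ext i
    have := h2 i
    rw [Fintype.sum_sum_type] at this
    simpa [Matrix.mulVec, dotProduct, h1] using this
  have hdet : ((Matrix.of fun i j => pderiv (Sum.inr j) (C.rel i)).map (eval w)).det ≠ 0 := by
    rw [← RingHom.mapMatrix_apply, ← RingHom.map_det]
    exact hw
  have h4 := Matrix.eq_zero_of_mulVec_eq_zero hdet h3
  ext u
  rcases u with i | j
  · exact h1 i
  · exact congrFun h4 j

/-- the derivative as an equivalence -/
def anadrdE {w : Fin n ⊕ Fin C.c → ℂ}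
    (hw : eval w (Matrix.of fun i j => pderiv (Sum.inr j) (C.rel i)).det ≠ 0) :
    (Fin n ⊕ Fin C.c → ℂ) ≃L[ℂ] Cn n × (Fin C.c → ℂ) :=
  (LinearEquiv.ofInjectiveOfFinrankEq (C.anadrdD w : (Fin n ⊕ Fin C.c → ℂ) →ₗ[ℂ] Cn n × (Fin C.c → ℂ))
    (C.anadrd_injective hw) (by simp)).toContinuousLinearEquiv

theorem anadrdE_coe {w : Fin n ⊕ Fin C.c → ℂ}
    (hw : eval w (Matrix.of fun i j => pderiv (Sum.inr j) (C.rel i)).det ≠ 0) :
    ((C.anadrdE hw : (Fin n ⊕ Fin C.c → ℂ) ≃L[ℂ] Cn n × (Fin C.c → ℂ)) :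
      (Fin n ⊕ Fin C.c → ℂ) →L[ℂ] Cn n × (Fin C.c → ℂ)) = C.anadrdD w := by
  ext v <;> rfl


theorem anadrd_continuous : Continuous C.anadrdPhi :=
  continuous_iff_continuousAt.2 fun w => (C.anadrd_analyticAt w).continuousAt

/-- **implicit function theorem** for a chart: a holomorphic section on a polydisc, whose image is open in `pts`. -/
theorem exists_section (w : C.pts) :
    ∃ r > 0, ∃ s : Cn n → (Fin n ⊕ Fin C.c → ℂ), ∃ U : Set (Fin n ⊕ Fin C.c → ℂ),
      AnalyticOnNhd ℂ s (Metric.ball (C.pr w) r) ∧ s (C.pr w) = w.1 ∧ IsOpen U ∧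
      (∀ z ∈ Metric.ball (C.pr w) r, s z ∈ C.pts ∧ s z ∈ U ∧ C.proj (s z) = z) ∧
      (∀ w' ∈ C.pts, w' ∈ U → C.proj w' ∈ Metric.ball (C.pr w) r ∧ s (C.proj w') = w') := by
  obtain ⟨w, hw⟩ := w
  have hdet := C.eval_jac_ne_zero hw
  have hstrict : HasStrictFDerivAt C.anadrdPhi
      ((C.anadrdE hdet : (Fin n ⊕ Fin C.c → ℂ) ≃L[ℂ] Cn n × (Fin C.c → ℂ)) :
        (Fin n ⊕ Fin C.c → ℂ) →L[ℂ] Cn n × (Fin C.c → ℂ)) w := by
    rw [C.anadrdE_coe hdet, ← (C.anadrd_hasFDerivAt w).fderiv]
    exact (C.anadrd_analyticAt w).hasStrictFDerivAt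
  set e₀ := hstrict.toOpenPartialHomeomorph C.anadrdPhi with he₀
  have he₀c : (e₀ : (Fin n ⊕ Fin C.c → ℂ) → Cn n × (Fin C.c → ℂ)) = C.anadrdPhi :=
    hstrict.toOpenPartialHomeomorph_coe
  have hw₀ : w ∈ e₀.source := hstrict.mem_toOpenPartialHomeomorph_source
  set D : Set (Fin n ⊕ Fin C.c → ℂ) :=
    {w | eval w (Matrix.of fun i j => pderiv (Sum.inr j) (C.rel i)).det ≠ 0} with hD
  have hDo : IsOpen D := isOpen_ne_fun (continuous_eval _) continuous_const
  set e := e₀.restrOpen D hDo with he
  have hec : (e : (Fin n ⊕ Fin C.c → ℂ) → Cn n × (Fin C.c → ℂ)) = C.anadrdPhi := he₀c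
  have hes : e.source = e₀.source ∩ D := e₀.restrOpen_source D hDo
  have hwe : w ∈ e.source := by rw [hes]; exact ⟨hw₀, hdet⟩
  have hPw : C.anadrdPhi w = (C.proj w, 0) := by
    ext1
    · rfl
    · ext i; exact hw i
  have htar : (C.proj w, (0 : Fin C.c → ℂ)) ∈ e.target := by
    rw [← hPw, ← hec]; exact e.map_source hwe
  obtain ⟨r, hr, hball⟩ := Metric.isOpen_iff.1 e.open_target _ htar
  have hz : ∀ z ∈ Metric.ball (C.proj w) r, (z, (0 : Fin C.c → ℂ)) ∈ e.target := by
    intro z hz
    apply hball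
    rw [← ball_prod_same]
    exact ⟨hz, Metric.mem_ball_self hr⟩
  refine ⟨r, hr, fun z => e.symm (z, 0), e.source ∩ C.anadrdPhi ⁻¹' (Metric.ball (C.proj w) r ×ˢ Set.univ),
    ?_, ?_, ?_, ?_, ?_⟩
  · intro z hzb
    have hzt := hz z hzb
    have hsrc : e.symm (z, 0) ∈ e.source := e.map_target hzt
    have hdz : eval (e.symm (z, 0)) (Matrix.of fun i j => pderiv (Sum.inr j) (C.rel i)).det ≠ 0 := by
      rw [hes] at hsrc; exact hsrc.2
    have h1 : AnalyticAt ℂ e.symm (z, (0 : Fin C.c → ℂ)) := by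
      refine e.analyticAt_symm (i := C.anadrdE hdz) hzt ?_ ?_
      · rw [hec]; exact C.anadrd_analyticAt _
      · rw [hec, C.anadrdE_coe hdz]; exact (C.anadrd_hasFDerivAt _).fderiv
    have h2 : AnalyticAt ℂ (fun z : Cn n => (z, (0 : Fin C.c → ℂ))) z :=
      analyticAt_id.prod analyticAt_const
    exact AnalyticAt.comp (g := e.symm) (f := fun z : Cn n => (z, (0 : Fin C.c → ℂ))) h1 h2
  · show e.symm (C.proj w, 0) = w
    rw [← hPw, ← hec]; exact e.left_inv hwe
  · exact e.open_source.inter ((Metric.isOpen_ball.prod isOpen_univ).preimage C.anadrd_continuous)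
  · intro z hzb
    have hzt := hz z hzb
    have hsrc : e.symm (z, 0) ∈ e.source := e.map_target hzt
    have hP : C.anadrdPhi (e.symm (z, 0)) = (z, 0) := by
      rw [← hec]; exact e.right_inv hzt
    refine ⟨fun i => ?_, ⟨hsrc, ?_⟩, ?_⟩
    · exact congrFun (congrArg Prod.snd hP) i
    · show C.anadrdPhi (e.symm (z, 0)) ∈ Metric.ball (C.proj w) r ×ˢ Set.univ
      rw [hP]; exact ⟨hzb, Set.mem_univ _⟩
    · exact congrArg Prod.fst hP
  · intro w' hw' hU
    have hP : C.anadrdPhi w' = (C.proj w', 0) := by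
      ext1
      · rfl
      · ext i; exact hw' i
    refine ⟨hU.2.1, ?_⟩
    show e.symm (C.proj w', 0) = w'
    rw [← hP, ← hec]; exact e.left_inv hU.1

theorem continuous_pr : Continuous C.pr := by
  unfold Chart.pr Chart.proj
  exact continuous_pi fun i => (continuous_apply (Sum.inl i)).comp continuous_subtype_val

theorem isLocalHomeomorph_pr : IsLocalHomeomorph C.pr := by
  classical
  refine IsLocalHomeomorph.mk _ fun w => ?_
  obtain ⟨r, hr, s, U, hs, hsw, hU, h1, h2⟩ := C.exists_section w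
  refine ⟨{ toFun := C.pr
            invFun := fun z => if h : s z ∈ C.pts then ⟨s z, h⟩ else w
            source := Subtype.val ⁻¹' U
            target := Metric.ball (C.pr w) r
            map_source' := fun w' hw' => (h2 w'.1 w'.2 hw').1
            map_target' := fun z hz => by
              show (dite _ _ _ : C.pts).1 ∈ U
              rw [dif_pos (h1 z hz).1]; exact (h1 z hz).2.1
            left_inv' := fun w' hw' => by
              have h3 : s (C.pr w') = w'.1 := (h2 w'.1 w'.2 hw').2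
              have h4 : s (C.pr w') ∈ C.pts := h3 ▸ w'.2
              rw [dif_pos h4]; exact Subtype.ext h3
            right_inv' := fun z hz => by
              rw [dif_pos (h1 z hz).1]; exact (h1 z hz).2.2
            open_source := hU.preimage continuous_subtype_val
            open_target := Metric.isOpen_ball
            continuousOn_toFun := C.continuous_pr.continuousOn
            continuousOn_invFun := by
              rw [Topology.IsInducing.subtypeVal.continuousOn_iff]
              refine hs.continuousOn.congr fun z hz => ?_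
              show (dite _ _ _ : C.pts).1 = s z
              rw [dif_pos (h1 z hz).1] }, ?_, fun _ _ => rfl⟩
  show w.1 ∈ U
  rw [← hsw]
  exact (h1 _ (Metric.mem_ball_self hr)).2.1

/-! ### 2. the chosen section -/

/-- the chosen local section through `w` (the one used by `rdLoc`), with values in the ambient space -/
def sect (w : C.pts) (z : Cn n) : Fin n ⊕ Fin C.c → ℂ :=
  (C.isLocalHomeomorph_pr.localInverseAt w z).1

theorem sect_mem (w : C.pts) (z : Cn n) : C.sect w z ∈ C.pts :=
  (C.isLocalHomeomorph_pr.localInverseAt w z).2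

theorem sect_self (w : C.pts) : C.sect w (C.pr w) = w.1 := by
  unfold sect
  rw [C.isLocalHomeomorph_pr.localInverseAt_apply_self]

theorem proj_sect (w : C.pts) : ∀ᶠ z in 𝓝 (C.pr w), C.proj (C.sect w z) = z := by
  have hp := C.isLocalHomeomorph_pr
  filter_upwards [(hp.localInverseAt w).open_source.mem_nhds
    hp.apply_self_mem_localInverseAt_source] with z hz
  exact hp.apply_localInverseAt_of_mem hz

/-- uniqueness of germs of continuous sections -/
theorem eventuallyEq_sect (w : C.pts) {s : Cn n → (Fin n ⊕ Fin C.c → ℂ)}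
    (hs : ContinuousAt s (C.pr w)) (hsw : s (C.pr w) = w.1)
    (hs' : ∀ᶠ z in 𝓝 (C.pr w), s z ∈ C.pts ∧ C.proj (s z) = z) : s =ᶠ[𝓝 (C.pr w)] C.sect w := by
  classical
  have hp := C.isLocalHomeomorph_pr
  set t : Cn n → C.pts := fun z => if h : s z ∈ C.pts then ⟨s z, h⟩ else w with ht
  have hts : (fun z => (t z).1) =ᶠ[𝓝 (C.pr w)] s := by
    filter_upwards [hs'] with z hz
    simp only [ht, dif_pos hz.1]
  have htc : ContinuousAt t (C.pr w) := by
    rw [Topology.IsInducing.subtypeVal.continuousAt_iff]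
    exact hs.congr hts.symm
  have htw : t (C.pr w) = w := by
    apply Subtype.ext
    rw [hts.eq_of_nhds, hsw]
  have hsrc : C.pr w ∈ (hp.localInverseAt w).source := hp.apply_self_mem_localInverseAt_source
  have key := rd_section_eventuallyEq hp htc ((hp.localInverseAt w).continuousAt hsrc) htw
    hp.localInverseAt_apply_self ?_ ?_
  · filter_upwards [key, hts] with z h1 h2
    rw [← h2, h1]
    rfl
  · filter_upwards [hs', hts] with z h1 h2
    show C.proj (t z).1 = z
    rw [h2]
    exact h1.2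
  · filter_upwards [(hp.localInverseAt w).open_source.mem_nhds hsrc] with z hz
    exact hp.apply_localInverseAt_of_mem hz

theorem analyticAt_sect (w : C.pts) : AnalyticAt ℂ (C.sect w) (C.pr w) := by
  obtain ⟨r, hr, s, U, hs, hsw, -, h1, -⟩ := C.exists_section w
  have hmem : C.pr w ∈ Metric.ball (C.pr w) r := Metric.mem_ball_self hr
  have hsa : AnalyticAt ℂ s (C.pr w) := hs _ hmem
  refine hsa.congr (C.eventuallyEq_sect w hsa.continuousAt hsw ?_)
  filter_upwards [Metric.isOpen_ball.mem_nhds hmem] with z hz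
  exact ⟨(h1 z hz).1, (h1 z hz).2.2⟩

theorem sect_pr_eventually (w : C.pts) : ∀ᶠ w' in 𝓝 w, C.sect w (C.pr w') = w'.1 := by
  exact rdLoc_comp_proj C.isLocalHomeomorph_pr (fun w' : C.pts => w'.1) w

/-- the section through a nearby point of the section is the same germ -/
theorem sect_sect_eventually (w : C.pts) :
    ∀ᶠ z in 𝓝 (C.pr w), C.sect ⟨C.sect w z, C.sect_mem w z⟩ =ᶠ[𝓝 z] C.sect w := by
  have hp := C.isLocalHomeomorph_pr
  filter_upwards [(hp.localInverseAt w).open_source.mem_nhds
    hp.apply_self_mem_localInverseAt_source] with z hz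
  have h1 : C.pr (hp.localInverseAt w z) = z := hp.apply_localInverseAt_of_mem hz
  have h2 : hp.localInverseAt w z ∈ (hp.localInverseAt w).target :=
    (hp.localInverseAt w).map_source hz
  have h3 := rd_localInverseAt_eventuallyEq hp h2
  rw [h1] at h3
  filter_upwards [h3] with y hy
  show (hp.localInverseAt (hp.localInverseAt w z) y).1 = (hp.localInverseAt w y).1
  rw [hy]

theorem isOpenMap_pr : IsOpenMap C.pr := by
  exact C.isLocalHomeomorph_pr.isOpenMap

/-! ### 3. ambient functions -/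

theorem rdLoc_ambient {F : Type*} (U : (Fin n ⊕ Fin C.c → ℂ) → F) (w : C.pts) :
    rdLoc C.isLocalHomeomorph_pr (fun w' : C.pts => U w'.1) w = fun z => U (C.sect w z) := rfl

theorem rdHolo_ambient (U : (Fin n ⊕ Fin C.c → ℂ) → ℂ) (hU : ∀ w ∈ C.pts, DifferentiableAt ℂ U w) :
    RdHolo C.isLocalHomeomorph_pr (fun w' : C.pts => U w'.1) := by
  intro w
  rw [rdLoc_ambient]
  have h1 : DifferentiableAt ℂ U (C.sect w (C.pr w)) := by
    rw [C.sect_self]
    exact hU _ w.2
  exact h1.comp (C.pr w) (C.analyticAt_sect w).differentiableAt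

theorem rdContDiff_ambient {F : Type*} [NormedAddCommGroup F] [NormedSpace ℝ F] (k : WithTop ℕ∞)
    (U : (Fin n ⊕ Fin C.c → ℂ) → F) (hU : ∀ w ∈ C.pts, ContDiffAt ℝ k U w) :
    RdContDiff C.isLocalHomeomorph_pr k (fun w' : C.pts => U w'.1) := by
  intro w
  unfold RdContDiffAt
  rw [rdLoc_ambient]
  have h1 : ContDiffAt ℝ k U (C.sect w (C.pr w)) := by
    rw [C.sect_self]
    exact hU _ w.2
  have h2 : ContDiffAt ℝ k (C.sect w) (C.pr w) :=
    ((C.analyticAt_sect w).contDiffAt (n := k)).restrict_scalars ℝ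
  exact h1.comp (C.pr w) h2

theorem rdHolo_eval (P : MvPolynomial (Fin n ⊕ Fin C.c) ℂ) :
    RdHolo C.isLocalHomeomorph_pr (fun w : C.pts => eval w.1 P) := by
  exact C.rdHolo_ambient (fun w => eval w P) fun w _ => (hasFDerivAt_eval P w).differentiableAt

/-- a function on `pts` is holomorphic iff it is so along the sections -/
theorem rdHolo_iff_sect (H : C.pts → ℂ) :
    RdHolo C.isLocalHomeomorph_pr H ↔
      ∀ w : C.pts, DifferentiableAt ℂ (fun z => H ⟨C.sect w z, C.sect_mem w z⟩) (C.pr w) :=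
  Iff.rfl

/-- along ANY holomorphic section `s` on an open set `D` a holomorphic function is holomorphic -/
theorem RdHolo.differentiableOn_section {H : C.pts → ℂ} (hH : RdHolo C.isLocalHomeomorph_pr H)
    {D : Set (Cn n)} (hD : IsOpen D) (s : Cn n → C.pts) (hs : ContinuousOn s D)
    (hps : ∀ z ∈ D, C.pr (s z) = z) : DifferentiableOn ℂ (fun z => H (s z)) D := by
  have hp := C.isLocalHomeomorph_pr
  intro z hz
  have hDz : D ∈ 𝓝 z := hD.mem_nhds hz
  have hpz : C.pr (s z) = z := hps z hz
  have hsrc : C.pr (s z) ∈ (hp.localInverseAt (s z)).source :=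
    hp.apply_self_mem_localInverseAt_source
  have key : s =ᶠ[𝓝 (C.pr (s z))] hp.localInverseAt (s z) := by
    refine rd_section_eventuallyEq hp ?_ ((hp.localInverseAt (s z)).continuousAt hsrc) ?_
      hp.localInverseAt_apply_self ?_ ?_
    · rw [hpz]
      exact hs.continuousAt hDz
    · rw [hpz]
    · rw [hpz]
      filter_upwards [hDz] with y hy
      exact hps y hy
    · filter_upwards [(hp.localInverseAt (s z)).open_source.mem_nhds hsrc] with y hy
      exact hp.apply_localInverseAt_of_mem hy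
  have h1 := hH (s z)
  rw [hpz] at h1 key
  refine (h1.congr_of_eventuallyEq ?_).differentiableWithinAt
  filter_upwards [key] with y hy
  show H (s y) = H (hp.localInverseAt (s z) y)
  rw [hy]

/-! ### 4. the exhaustion -/

/-- `ρ(w) = ∑ |w_v|²` -/
def rho (w : C.pts) : ℝ := ∑ v, ‖w.1 v‖ ^ 2

theorem rdContDiff_rho : RdContDiff C.isLocalHomeomorph_pr ∞ C.rho := by
  refine C.rdContDiff_ambient ∞ (fun w => ∑ v, ‖w v‖ ^ 2) fun w _ => ?_
  refine ContDiff.contDiffAt ?_
  refine ContDiff.sum fun v _ => ?_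
  exact (contDiff_apply ℝ ℂ v).norm_sq ℝ

theorem isCompact_rho_le (t : ℝ) : IsCompact {w : C.pts | C.rho w ≤ t} := by
  have hK : IsCompact {w : Fin n ⊕ Fin C.c → ℂ | ∑ v, ‖w v‖ ^ 2 ≤ t} := by
    refine Metric.isCompact_of_isClosed_isBounded ?_ ?_
    · refine isClosed_le ?_ continuous_const
      exact continuous_finsetSum _ fun v _ => ((continuous_apply v).norm).pow 2
    · refine (Metric.isBounded_closedBall (x := (0 : Fin n ⊕ Fin C.c → ℂ))
        (r := Real.sqrt (max t 0))).subset ?_
      intro w hw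
      rw [mem_closedBall_zero_iff, pi_norm_le_iff_of_nonneg (Real.sqrt_nonneg _)]
      intro v
      refine Real.le_sqrt_of_sq_le ?_
      refine le_trans ?_ (le_trans hw (le_max_left _ _))
      exact Finset.single_le_sum (f := fun v => ‖w v‖ ^ 2) (fun i _ => by positivity)
        (Finset.mem_univ v)
  exact C.isClosed_pts.isClosedEmbedding_subtypeVal.isCompact_preimage hK

theorem rdD_coord (w : C.pts) (i j : Fin n) :
    rdD C.isLocalHomeomorph_pr j (fun w' : C.pts => w'.1 (Sum.inl i)) w = if i = j then 1 else 0 := by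
  have h := rdD_comp C.isLocalHomeomorph_pr (fun z : Cn n => z i) j w
  have h2 : (fun w' : C.pts => w'.1 (Sum.inl i)) = fun y => (fun z : Cn n => z i) (C.pr y) := rfl
  rw [h2, h, dz_coord]
  by_cases hij : i = j
  · rw [if_pos hij, if_pos hij.symm]
  · rw [if_neg hij, if_neg (Ne.symm hij)]

theorem le_rdLevi_rho (w : C.pts) (a : Cn n) :
    ∑ j, ‖a j‖ ^ 2 ≤ rdLevi C.isLocalHomeomorph_pr C.rho w a := by
  have hp := C.isLocalHomeomorph_pr
  have hholo : ∀ v, RdHolo hp (fun w' : C.pts => w'.1 v) := fun v =>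
    C.rdHolo_ambient (fun w => w v) fun w _ =>
      (ContinuousLinearMap.proj (R := ℂ) (φ := fun _ : Fin n ⊕ Fin C.c => ℂ) v).differentiableAt
  have hcd : ∀ v, ContDiffAt ℝ 2 (rdLoc hp (fun w' : C.pts => ‖w'.1 v‖ ^ 2) w) (C.pr w) := by
    intro v
    refine C.rdContDiff_ambient 2 (fun w => ‖w v‖ ^ 2) (fun w _ => ?_) w
    exact ((contDiff_apply ℝ ℂ v).norm_sq ℝ).contDiffAt
  have h1 : rdLevi hp C.rho w a
      = ∑ v, rdLevi hp (fun w' : C.pts => ‖w'.1 v‖ ^ 2) w a :=
    levi_sum Finset.univ (fun v => rdLoc hp (fun w' : C.pts => ‖w'.1 v‖ ^ 2) w) fun v _ => hcd v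
  rw [h1, Fintype.sum_sum_type]
  have h2 : ∀ i : Fin n, rdLevi hp (fun w' : C.pts => ‖w'.1 (Sum.inl i)‖ ^ 2) w a = ‖a i‖ ^ 2 := by
    intro i
    rw [rdLevi_normSq_holo hp (hholo (Sum.inl i))]
    congr 2
    rw [Finset.sum_eq_single i]
    · rw [C.rdD_coord, if_pos rfl, one_mul]
    · intro j _ hj
      rw [C.rdD_coord, if_neg (Ne.symm hj), zero_mul]
    · intro h
      exact absurd (Finset.mem_univ i) h
  have h3 : ∀ l : Fin C.c, 0 ≤ rdLevi hp (fun w' : C.pts => ‖w'.1 (Sum.inr l)‖ ^ 2) w a := by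
    intro l
    rw [rdLevi_normSq_holo hp (hholo (Sum.inr l))]
    positivity
  rw [Finset.sum_congr rfl fun i _ => h2 i]
  exact le_add_of_nonneg_right (Finset.sum_nonneg fun l _ => h3 l)

theorem norm_sq_le_rho (w : C.pts) : ‖w.1‖ ^ 2 ≤ C.rho w := by
  have h0 : 0 ≤ C.rho w := Finset.sum_nonneg fun v _ => by positivity
  have h1 : ‖w.1‖ ≤ Real.sqrt (C.rho w) := by
    rw [pi_norm_le_iff_of_nonneg (Real.sqrt_nonneg _)]
    intro v
    refine Real.le_sqrt_of_sq_le ?_
    exact Finset.single_le_sum (f := fun v => ‖w.1 v‖ ^ 2) (fun i _ => by positivity)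
      (Finset.mem_univ v)
  calc ‖w.1‖ ^ 2 ≤ Real.sqrt (C.rho w) ^ 2 := by gcongr
    _ = C.rho w := Real.sq_sqrt h0

theorem rho_le (w : C.pts) : C.rho w ≤ (n + C.c) * ‖w.1‖ ^ 2 := by
  have h1 : ∀ v ∈ (Finset.univ : Finset (Fin n ⊕ Fin C.c)), ‖w.1 v‖ ^ 2 ≤ ‖w.1‖ ^ 2 := by
    intro v _
    have := norm_le_pi_norm w.1 v
    gcongr
  have h2 := Finset.sum_le_card_nsmul _ _ _ h1
  have h3 : (Finset.univ : Finset (Fin n ⊕ Fin C.c)).card = n + C.c := by
    rw [Finset.card_univ, Fintype.card_sum, Fintype.card_fin, Fintype.card_fin]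
  rw [h3, nsmul_eq_mul] at h2
  push_cast at h2
  exact h2

/-! ### 5. localisation -/

variable (g : MvPolynomial (Fin n ⊕ Fin C.c) ℂ)

theorem isOpenEmbedding_locMap : IsOpenEmbedding (C.locMap g) := by
  have hc : Continuous (C.locMap g) := by
    refine Continuous.subtype_mk ?_ _
    exact continuous_pi fun v => (continuous_apply _).comp continuous_subtype_val
  have hl : IsLocalHomeomorph (C.locMap g) :=
    IsLocalHomeomorph.of_comp (g := C.pr) (f := C.locMap g) (C.localise g).isLocalHomeomorph_pr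
      C.isLocalHomeomorph_pr hc
  exact IsOpenEmbedding.of_continuous_injective_isOpenMap hc (C.locMap_injective g) hl.isOpenMap

/-- the image under `locMap` of the chosen section of `C[1/g]` is the germ of the chosen section of `C` -/
theorem rd_locMap_germ (w' : (C.localise g).pts) :
    (fun z => C.locMap g ((C.localise g).isLocalHomeomorph_pr.localInverseAt w' z))
      =ᶠ[𝓝 ((C.localise g).pr w')] C.isLocalHomeomorph_pr.localInverseAt (C.locMap g w') := by
  have hp := C.isLocalHomeomorph_pr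
  have hp' := (C.localise g).isLocalHomeomorph_pr
  have hsrc : C.pr (C.locMap g w') ∈ (hp.localInverseAt (C.locMap g w')).source :=
    hp.apply_self_mem_localInverseAt_source
  have hsrc' : (C.localise g).pr w' ∈ (hp'.localInverseAt w').source :=
    hp'.apply_self_mem_localInverseAt_source
  refine rd_section_eventuallyEq (x := C.locMap g w') hp ?_
    ((hp.localInverseAt (C.locMap g w')).continuousAt hsrc) ?_ hp.localInverseAt_apply_self ?_ ?_
  · exact (C.isOpenEmbedding_locMap g).continuous.continuousAt.comp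
      ((hp'.localInverseAt w').continuousAt hsrc')
  · show C.locMap g (hp'.localInverseAt w' ((C.localise g).pr w')) = _
    rw [hp'.localInverseAt_apply_self]
  · filter_upwards [(hp'.localInverseAt w').open_source.mem_nhds hsrc'] with z hz
    rw [C.pr_locMap]
    exact hp'.apply_localInverseAt_of_mem hz
  · filter_upwards [(hp.localInverseAt (C.locMap g w')).open_source.mem_nhds hsrc] with z hz
    exact hp.apply_localInverseAt_of_mem hz

theorem rdHolo_comp_locMap {H : C.pts → ℂ} (hH : RdHolo C.isLocalHomeomorph_pr H) :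
    RdHolo (C.localise g).isLocalHomeomorph_pr (fun w' => H (C.locMap g w')) := by
  intro w'
  have h1 := hH (C.locMap g w')
  refine h1.congr_of_eventuallyEq ?_
  filter_upwards [C.rd_locMap_germ g w'] with z hz
  show H (C.locMap g ((C.localise g).isLocalHomeomorph_pr.localInverseAt w' z))
    = H (C.isLocalHomeomorph_pr.localInverseAt (C.locMap g w') z)
  rw [hz]

/-- a function on `C[1/g].pts` as a function on `C.pts` (junk `0` on `{g = 0}`) -/
def locPush (H : (C.localise g).pts → ℂ) (w : C.pts) : ℂ :=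
  open Classical in
  if h : eval w.1 g ≠ 0 then H ⟨C.locExt g w.1, C.locExt_mem g w.2 h⟩ else 0

theorem locPush_locMap (H : (C.localise g).pts → ℂ) (w' : (C.localise g).pts) :
    C.locPush g H (C.locMap g w') = H w' := by
  have h : eval (C.locMap g w').1 g ≠ 0 := C.eval_locPt_ne_zero g w'.2
  unfold locPush
  rw [dif_pos h]
  congr 1
  exact Subtype.ext (C.locExt_locPt g w'.2)

theorem differentiableAt_locPush {H : (C.localise g).pts → ℂ}
    (hH : RdHolo (C.localise g).isLocalHomeomorph_pr H) (w : C.pts) (hw : eval w.1 g ≠ 0) :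
    DifferentiableAt ℂ (rdLoc C.isLocalHomeomorph_pr (C.locPush g H) w) (C.pr w) := by
  set w' : (C.localise g).pts := ⟨C.locExt g w.1, C.locExt_mem g w.2 hw⟩ with hw'
  have hww : C.locMap g w' = w := Subtype.ext (C.locPt_locExt g w.1)
  have h1 := hH w'
  have h2 := C.rd_locMap_germ g w'
  have hpr : (C.localise g).pr w' = C.pr w := by rw [← C.pr_locMap, hww]
  rw [hww, hpr] at h2
  rw [hpr] at h1
  refine h1.congr_of_eventuallyEq ?_
  filter_upwards [h2] with z hz
  show C.locPush g H (C.isLocalHomeomorph_pr.localInverseAt w z)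
    = H ((C.localise g).isLocalHomeomorph_pr.localInverseAt w' z)
  rw [← hz, C.locPush_locMap]

end Chart

namespace EChart

variable {n : ℕ} {K : Type} [Field K] [Algebra ℂ K] (E : EChart n K) {a : K}

theorem analyticAt_val_sect (w : E.pts) (ha : E.RegAtPt w.1 a) :
    AnalyticAt ℂ (fun z => E.val (E.sect w z) a) (E.pr w) := by
  obtain ⟨P, Q, hQ, h⟩ := ha
  have hs := E.analyticAt_sect w
  have hP' : AnalyticAt ℂ (fun z => eval (E.sect w z) P) (E.pr w) :=
    (Chart.analyticOnNhd_eval P _ (Set.mem_univ _)).comp hs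
  have hQ' : AnalyticAt ℂ (fun z => eval (E.sect w z) Q) (E.pr w) :=
    (Chart.analyticOnNhd_eval Q _ (Set.mem_univ _)).comp hs
  have hQ0 : eval (E.sect w (E.pr w)) Q ≠ 0 := by
    rw [E.sect_self]
    exact hQ
  refine (hP'.div hQ' hQ0).congr ?_
  filter_upwards [hQ'.continuousAt.eventually_ne hQ0] with z hz
  exact (E.val_eq (E.sect_mem w z) hz h).symm

theorem rdHolo_val (ha : ∀ w ∈ E.pts, E.RegAtPt w a) :
    RdHolo E.isLocalHomeomorph_pr (fun w : E.pts => E.val w.1 a) := by
  intro w
  exact (E.analyticAt_val_sect w (ha w.1 w.2)).differentiableAt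

theorem rdHolo_val_of_mem_ring (ha : a ∈ E.ring) :
    RdHolo E.isLocalHomeomorph_pr (fun w : E.pts => E.val w.1 a) :=
  E.rdHolo_val fun w _ => E.regAtPt_of_mem_ring w ha

end EChart

end Claimed.Agent.R242

end

/-! equation lemmas of this file, cited once here (rule 6) -/
namespace Claimed.Agent.R242

theorem r242_eqcite_Anad_RD : True := by
  have := @Claimed.Agent.R242.Chart.sect.eq_1
  have := @Claimed.Agent.R242.Chart.anadrdPhi.eq_1
  have := @Claimed.Agent.R242.Chart.anadrdD.eq_1
  have := @Claimed.Agent.R242.Chart.anadrdE.eq_1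
  have := @Claimed.Agent.R242.Chart.rho.eq_1
  have := @Claimed.Agent.R242.Chart.locPush.eq_1
  trivial

end Claimed.Agent.R242
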