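/-
Row 242, package ANAD.  Vol: measure theory on Riemann domains beyond the RD kit of helper290 (`SCV/RdMeas.lean`).
Architect: helper286.     Mathlib + `SCV/RdGerm.lean`, `SCV/RdMeas.lean` (may be cited while sorried) + `SCV/Howald.lean` (E4, proved).

LEAVES  ANAD-VOL-A : section 1 (partition, null sets, AREA FORMULA `∫_W f = ∫_z ∑_{x ∈ fibre z} f x`)
        ANAD-VOL-B : section 2 (open embeddings of Riemann domains)
        ANAD-VOL-C : section 3 (change of variables for an injective holomorphic map between Riemann domains)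

Plan A.  `rd_countable_cover` gives countably many chosen sheets `e_k = rdSheet hp x_k` covering `W`; disjointify
  `A k = (e_k).source \ ⋃_{l<k} (e_l).source` (`disjointed`).  (If `W` is empty everything is trivial.)
  `∫_W f = ∑' k, ∫_{A k} f` (`lintegral_iUnion`), `∫_{A k} f = ∫_{x ∈ e_k.source} 1_{A k} f = ∫_{z ∈ e_k.target} (1_{A k} f)(e_k.symm z)` (`lintegral_sheet`),
  and for fixed `z`:  `∑' k, 1_{target k}(z) (1_{A k} f)(e_k.symm z) = ∑' x : fibre z, f x`  (each `x` in the fibre lies in exactly one `A k`, and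
  then `x = e_k.symm z`; `tsum` over a sigma type / `ENNReal.tsum_comm`, `tsum_eq_single`).  `lintegral_tsum` needs a.e.-measurability of
  `z ↦ 1_{target k}(z) (1_{A k} f)(e_k.symm z)`: `e_k.symm` is continuous on the open set `e_k.target`.
Plan B.  `μ := Measure.comap r (rdVol p)` satisfies `IsRdVol p'`: for `A` measurable with `p'` injective on `A`, `r '' A` is measurable
  (`hr.measurableEmbedding`), `p` is injective on it and `p '' (r '' A) = p' '' A`; `rdVol_apply`.  Then `IsRdVol.eq_rdVol`, and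
  `MeasurableEmbedding.map_comap`.
Plan C.  Cover `W'` by countably many measurable disjoint pieces `A k` such that `A k ⊆ (e' k).source`, `e' k` a sheet of `p'`, and
  `θ '' (e' k).source ⊆ (e k).source`, `e k` a sheet of `p` (second countability (Lindelöf) applied to the open sets
  `(rdSheet hp' x').source ∩ θ ⁻¹' (rdSheet hp (θ x')).source`; `IsSheet.restrOpen`).  On a piece: `φ = p ∘ θ ∘ (e' k).symm` is injective on
  `S = p' '' A k`, has the derivative `L` at every point (germ lemma `rd_localInverseAt_eventuallyEq_sheet`), so by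
  `r242_lintegral_image_holo`:  `∫_{φ '' S} Φ = ∫_S |det|² Φ ∘ φ` with `Φ = f ∘ (e k).symm`; translate both sides with `lintegral_sheet`
  (indicator functions).  The sets `θ '' A k` are disjoint and measurable (`p '' (θ '' A k) = φ '' S` is measurable:
  `MeasurableSet.image_of_continuousOn_injOn`, pull back by the sheet).  Sum over `k`: `lintegral_iUnion`, `lintegral_mono_set`.
-/
import Claimed.Agent.R242.SCV.RdMeas
import Claimed.Agent.R242.SCV.Howald

set_option autoImplicit false

namespace Claimed.Agent.R242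

open MeasureTheory Filter Topology
open scoped ENNReal

variable {n : ℕ} {W : Type*} [TopologicalSpace W] [SecondCountableTopology W]
  [MeasurableSpace W] [BorelSpace W] {p : W → Cn n} (hp : IsLocalHomeomorph p)

/-! ### 1. partition, null sets, area formula -/

include hp in
/-- a countable measurable partition of `W` into pieces contained in open sets on which `p` is injective -/
theorem anad_exists_partition : ∃ A : ℕ → Set W, (∀ k, MeasurableSet (A k)) ∧
    Pairwise (Function.onFun Disjoint A) ∧ (⋃ k, A k) = Set.univ ∧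
    ∀ k, (A k).Nonempty → ∃ e : OpenPartialHomeomorph W (Cn n), IsSheet p e ∧ A k ⊆ e.source := by
  obtain ⟨s, hs, hcov⟩ := rd_countable_cover hp
  rcases s.eq_empty_or_nonempty with h0 | h0
  · subst h0
    simp only [Set.mem_empty_iff_false, Set.iUnion_of_empty, Set.iUnion_empty] at hcov
    refine ⟨fun _ => ∅, fun _ => MeasurableSet.empty, fun _ _ _ => disjoint_bot_left, ?_, ?_⟩
    · rw [← hcov]
      simp
    · intro k hk
      exact absurd hk Set.not_nonempty_empty
  · obtain ⟨f, rfl⟩ := hs.exists_eq_range h0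
    refine ⟨disjointed fun k => (rdSheet hp (f k)).source,
      MeasurableSet.disjointed fun k => (rdSheet hp (f k)).open_source.measurableSet,
      disjoint_disjointed _, ?_, fun k _ => ⟨rdSheet hp (f k), isSheet_rdSheet hp (f k), disjointed_subset _ k⟩⟩
    rw [iUnion_disjointed, ← hcov]
    simp

omit [SecondCountableTopology W] [MeasurableSpace W] [BorelSpace W] in
theorem anad_injOn_piece {A : Set W}
    (h : A.Nonempty → ∃ e : OpenPartialHomeomorph W (Cn n), IsSheet p e ∧ A ⊆ e.source) : Set.InjOn p A := by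
  rcases A.eq_empty_or_nonempty with h0 | h0
  · subst h0
    exact Set.injOn_empty p
  · obtain ⟨e, he, hA⟩ := h h0
    exact he.injOn.mono hA

include hp in
theorem anad_rdVol_preimage_null {N : Set (Cn n)} (hN : volume N = 0) : rdVol p (p ⁻¹' N) = 0 := by
  obtain ⟨A, hAm, -, hAu, hAs⟩ := anad_exists_partition hp
  have hN' : volume (toMeasurable volume N) = 0 := by rw [measure_toMeasurable, hN]
  have hm : MeasurableSet (p ⁻¹' toMeasurable volume N) := rd_measurable_proj hp (measurableSet_toMeasurable _ _)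
  refine measure_mono_null (Set.preimage_mono (subset_toMeasurable volume N)) ?_
  have e : p ⁻¹' toMeasurable volume N = ⋃ k, A k ∩ p ⁻¹' toMeasurable volume N := by
    rw [← Set.iUnion_inter, hAu, Set.univ_inter]
  rw [e]
  refine measure_iUnion_null fun k => ?_
  rw [rdVol_apply hp ((hAm k).inter hm) ((anad_injOn_piece (hAs k)).mono Set.inter_subset_left)]
  refine measure_mono_null ?_ hN'
  rintro _ ⟨x, hx, rfl⟩
  exact hx.2

include hp in
/-- the area formula on one piece -/
theorem anad_piece (f : W → ℝ≥0∞) (hf : Measurable f) {A : Set W} (hA : MeasurableSet A)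
    (h : A.Nonempty → ∃ e : OpenPartialHomeomorph W (Cn n), IsSheet p e ∧ A ⊆ e.source) :
    AEMeasurable (fun z => ∑' x : ↥(p ⁻¹' {z}), A.indicator f x.1) volume ∧
      ∫⁻ x in A, f x ∂(rdVol p) = ∫⁻ z, ∑' x : ↥(p ⁻¹' {z}), A.indicator f x.1 := by
  rcases A.eq_empty_or_nonempty with h0 | h0
  · subst h0
    simp
  obtain ⟨e, he, hAe⟩ := h h0
  have key : (fun z => ∑' x : ↥(p ⁻¹' {z}), A.indicator f x.1) =
      e.target.indicator fun z => A.indicator f (e.symm z) := by
    funext z
    by_cases hz : z ∈ e.target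
    · rw [Set.indicator_of_mem hz]
      have hx0 : e.symm z ∈ p ⁻¹' {z} := he.apply_symm hz
      rw [tsum_eq_single (⟨e.symm z, hx0⟩ : ↥(p ⁻¹' {z}))]
      intro x hx
      apply Set.indicator_of_notMem
      intro hxA
      apply hx
      apply Subtype.ext
      have h1 := he.symm_apply (hAe hxA)
      have h2 : p x.1 = z := x.2
      rw [h2] at h1
      exact h1.symm
    · rw [Set.indicator_of_notMem hz]
      refine ENNReal.tsum_eq_zero.2 fun x => ?_
      apply Set.indicator_of_notMem
      intro hxA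
      apply hz
      have h2 : p x.1 = z := x.2
      rw [← h2, ← he.image_source]
      exact Set.mem_image_of_mem p (hAe hxA)
  rw [key]
  constructor
  · rw [aemeasurable_indicator_iff e.open_target.measurableSet]
    exact (hf.indicator hA).comp_aemeasurable (e.symm.continuousOn.aemeasurable e.open_target.measurableSet)
  · rw [lintegral_indicator e.open_target.measurableSet, ← lintegral_sheet hp he,
      ← lintegral_indicator hA, ← lintegral_indicator e.open_source.measurableSet]
    congr 1
    funext x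
    by_cases hx : x ∈ A
    · rw [Set.indicator_of_mem (hAe hx)]
    · rw [Set.indicator_of_notMem hx]
      by_cases hx' : x ∈ e.source
      · rw [Set.indicator_of_mem hx', Set.indicator_of_notMem hx]
      · rw [Set.indicator_of_notMem hx']

include hp in
/-- **area formula** -/
theorem anad_lintegral_eq_fibre (f : W → ℝ≥0∞) (hf : Measurable f) :
    ∫⁻ x, f x ∂(rdVol p) = ∫⁻ z, ∑' x : ↥(p ⁻¹' {z}), f x.1 := by
  obtain ⟨A, hAm, hAd, hAu, hAs⟩ := anad_exists_partition hp
  have h1 : ∫⁻ x, f x ∂(rdVol p) = ∑' k, ∫⁻ x in A k, f x ∂(rdVol p) := by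
    rw [← lintegral_iUnion hAm hAd, hAu, Measure.restrict_univ]
  rw [h1]
  have h2 : ∀ k, ∫⁻ x in A k, f x ∂(rdVol p) = ∫⁻ z, ∑' x : ↥(p ⁻¹' {z}), (A k).indicator f x.1 :=
    fun k => (anad_piece hp f hf (hAm k) (hAs k)).2
  simp only [h2]
  rw [← lintegral_tsum fun k => (anad_piece hp f hf (hAm k) (hAs k)).1]
  congr 1
  funext z
  rw [ENNReal.tsum_comm]
  refine tsum_congr fun x => ?_
  have hx : x.1 ∈ ⋃ k, A k := by rw [hAu]; exact Set.mem_univ _
  obtain ⟨k, hk⟩ := Set.mem_iUnion.1 hx
  rw [tsum_eq_single k, Set.indicator_of_mem hk]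
  intro j hj
  apply Set.indicator_of_notMem
  intro hxj
  exact Set.disjoint_left.1 (hAd hj) hxj hk

include hp in
theorem anad_lintegral_le_of_le_fibre (F : Cn n → ℝ≥0∞) (f : W → ℝ≥0∞) (hf : Measurable f)
    (h : ∀ z, F z ≤ ∑' x : ↥(p ⁻¹' {z}), f x.1) : ∫⁻ z, F z ≤ ∫⁻ x, f x ∂(rdVol p) := by
  rw [anad_lintegral_eq_fibre hp f hf]
  exact lintegral_mono h

/-! ### 2. open embeddings -/

section emb

variable {W' : Type*} [TopologicalSpace W'] [SecondCountableTopology W'] [MeasurableSpace W']
  [BorelSpace W'] {p' : W' → Cn n} (hp' : IsLocalHomeomorph p')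

include hp hp' in
theorem anad_map_rdVol_of_isOpenEmbedding (r : W' → W) (hr : IsOpenEmbedding r)
    (h : ∀ x, p (r x) = p' x) : (rdVol p').map r = (rdVol p).restrict (Set.range r) := by
  have hme := hr.measurableEmbedding
  have hvol : IsRdVol p' (Measure.comap r (rdVol p)) := by
    intro A hA hi
    rw [hme.comap_apply, rdVol_apply hp (hme.measurableSet_image.2 hA), Set.image_image]
    · simp only [h]
    · rintro _ ⟨a, ha, rfl⟩ _ ⟨b, hb, rfl⟩ hab
      rw [h, h] at hab
      rw [hi ha hb hab]
  rw [← hvol.eq_rdVol hp', hme.map_comap]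

include hp hp' in
theorem anad_lintegral_comp_of_isOpenEmbedding (r : W' → W) (hr : IsOpenEmbedding r)
    (h : ∀ x, p (r x) = p' x) (f : W → ℝ≥0∞) :
    ∫⁻ x', f (r x') ∂(rdVol p') = ∫⁻ x in Set.range r, f x ∂(rdVol p) := by
  rw [← anad_map_rdVol_of_isOpenEmbedding hp hp' r hr h, hr.measurableEmbedding.lintegral_map]

/-! ### 3. change of variables -/

omit [SecondCountableTopology W] [BorelSpace W] [MeasurableSpace W] [TopologicalSpace W] in
/-- a countable measurable partition subordinate to a family of open neighbourhoods -/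
theorem anadC_exists_pieces {X : Type*} [TopologicalSpace X] [SecondCountableTopology X]
    [MeasurableSpace X] [OpensMeasurableSpace X] (O : X → Set X) (hO : ∀ x, IsOpen (O x))
    (hx : ∀ x, x ∈ O x) : ∃ A : ℕ → Set X, (∀ k, MeasurableSet (A k)) ∧
      Pairwise (Function.onFun Disjoint A) ∧ (⋃ k, A k) = Set.univ ∧
      ∀ k, A k = ∅ ∨ ∃ x, A k ⊆ O x := by
  obtain ⟨s, hs, hcov⟩ := TopologicalSpace.countable_cover_nhds
    (fun x => (hO x).mem_nhds (hx x))
  have : Encodable s := hs.toEncodable
  set U : ℕ → Set X := fun i => ⋃ b ∈ Encodable.decode₂ s i, O (b : X) with hU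
  have hC : ∀ i, MeasurableSet (U i) ∧ (U i = ∅ ∨ ∃ x, U i ⊆ O x) := fun i =>
    Encodable.iUnion_decode₂_cases (f := fun b : s => O (b : X))
      (C := fun S => MeasurableSet S ∧ (S = ∅ ∨ ∃ x, S ⊆ O x)) ⟨MeasurableSet.empty, Or.inl rfl⟩
      (fun b => ⟨(hO (b : X)).measurableSet, Or.inr ⟨b, subset_rfl⟩⟩)
  refine ⟨disjointed U, MeasurableSet.disjointed (fun i => (hC i).1), disjoint_disjointed U, ?_,
    fun i => ?_⟩
  · rw [iUnion_disjointed, hU, Encodable.iUnion_decode₂ (fun b : s => O (b : X)),
      ← hcov, Set.biUnion_eq_iUnion]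
  · rcases (hC i).2 with h | ⟨x, h⟩
    · exact Or.inl (Set.subset_empty_iff.1 (h ▸ disjointed_subset U i))
    · exact Or.inr ⟨x, (disjointed_subset U i).trans h⟩

include hp in
/-- integrals over a measurable subset of a sheet, for ALL functions -/
theorem anadC_setLIntegral_sheet {e : OpenPartialHomeomorph W (Cn n)} (he : IsSheet p e)
    {A : Set W} (hA : MeasurableSet A) (hAe : A ⊆ e.source) (g : W → ℝ≥0∞) :
    ∫⁻ x in A, g x ∂(rdVol p) = ∫⁻ z in p '' A, g (e.symm z) := by
  have hS : MeasurableSet (p '' A) := he.measurableSet_image hA hAe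
  have hSe : p '' A ⊆ e.target := by
    rw [← he.image_source]
    exact Set.image_mono hAe
  have h1 := lintegral_sheet hp he (A.indicator g)
  rw [setLIntegral_indicator hA, Set.inter_eq_left.2 hAe] at h1
  rw [h1]
  have h2 : Set.EqOn (fun z => A.indicator g (e.symm z))
      ((p '' A).indicator fun z => g (e.symm z)) e.target := by
    intro z hz
    by_cases hzA : e.symm z ∈ A
    · have hzS : z ∈ p '' A := ⟨e.symm z, hzA, he.apply_symm hz⟩
      simp only [Set.indicator_of_mem hzA, Set.indicator_of_mem hzS]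
    · have hzS : z ∉ p '' A := by
        rintro ⟨x, hxA, rfl⟩
        rw [he.symm_apply (hAe hxA)] at hzA
        exact hzA hxA
      simp only [Set.indicator_of_notMem hzA, Set.indicator_of_notMem hzS]
  rw [setLIntegral_congr_fun e.open_target.measurableSet h2, setLIntegral_indicator hS,
    Set.inter_eq_left.2 hSe]

include hp in
/-- the change of variables on a piece that lies in a sheet and is mapped into a sheet -/
theorem anadC_piece (θ : W' → W) (hθi : Function.Injective θ) (J : W' → ℂ)
    (hθ : ∀ x', ∃ L : Cn n →L[ℂ] Cn n,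
      HasFDerivAt (fun z => p (θ (hp'.localInverseAt x' z))) L (p' x') ∧ L.det = J x')
    (f : W → ℝ≥0∞) {e' : OpenPartialHomeomorph W' (Cn n)} (he' : IsSheet p' e')
    {e : OpenPartialHomeomorph W (Cn n)} (he : IsSheet p e) {A : Set W'} (hA : MeasurableSet A)
    (hAe' : A ⊆ e'.source) (hAe : A ⊆ θ ⁻¹' e.source) :
    MeasurableSet (θ '' A) ∧
      ∫⁻ x' in A, ‖J x'‖ₑ ^ 2 * f (θ x') ∂(rdVol p') = ∫⁻ x in θ '' A, f x ∂(rdVol p) := by
  choose L hL hdet using hθ
  set S : Set (Cn n) := p' '' A with hSdef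
  have hS : MeasurableSet S := he'.measurableSet_image hA hAe'
  set φ : Cn n → Cn n := fun z => p (θ (e'.symm z)) with hφ
  -- points of `S`
  have hsymm : ∀ x' ∈ A, e'.symm (p' x') = x' := fun x' hx' => he'.symm_apply (hAe' hx')
  have hder : ∀ y ∈ S, HasFDerivAt φ (L (e'.symm y)) y := by
    rintro y ⟨x', hx', rfl⟩
    rw [hsymm x' hx']
    refine (hL x').congr_of_eventuallyEq ?_
    filter_upwards [rd_localInverseAt_eventuallyEq_sheet hp' he' (hAe' hx')] with z hz
    simp only [hφ, hz]
  have hinj : Set.InjOn φ S := by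
    rintro _ ⟨x₁, hx₁, rfl⟩ _ ⟨x₂, hx₂, rfl⟩ h
    simp only [hφ, hsymm x₁ hx₁, hsymm x₂ hx₂] at h
    rw [hθi (he.injOn (hAe hx₁) (hAe hx₂) h)]
  have himg : φ '' S = p '' (θ '' A) := by
    rw [hSdef, Set.image_image, Set.image_image]
    exact Set.image_congr (fun x' hx' => by simp only [hφ, hsymm x' hx'])
  have hφS : MeasurableSet (φ '' S) :=
    hS.image_of_continuousOn_injOn (fun y hy => (hder y hy).continuousAt.continuousWithinAt) hinj
  have hBe : θ '' A ⊆ e.source := Set.image_subset_iff.2 hAe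
  have hB : MeasurableSet (θ '' A) := by
    have h1 : θ '' A = e.source ∩ p ⁻¹' (φ '' S) := by
      rw [himg]
      ext x
      constructor
      · intro hx
        exact ⟨hBe hx, x, hx, rfl⟩
      · rintro ⟨hxe, y, hy, hyx⟩
        rw [← he.injOn (hBe hy) hxe hyx]
        exact hy
    rw [h1]
    exact e.open_source.measurableSet.inter (rd_measurable_proj hp hφS)
  refine ⟨hB, ?_⟩
  rw [anadC_setLIntegral_sheet hp' he' hA hAe', anadC_setLIntegral_sheet hp he hB hBe, ← himg,
    r242_lintegral_image_holo S hS φ (fun y => L (e'.symm y))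
      (fun y hy => (hder y hy).hasFDerivWithinAt) hinj (fun w => f (e.symm w))]
  refine setLIntegral_congr_fun hS ?_
  rintro _ ⟨x', hx', rfl⟩
  simp only [hφ, hsymm x' hx', hdet, he.symm_apply (hAe hx')]

include hp in
/-- **change of variables** for an injective continuous map `θ : W' → W` which is holomorphic in the local coordinates, with complex
Jacobian determinant `J`.  (Equality holds with `∫_{range θ}` on the right; only this inequality is needed.) -/
theorem anad_lintegral_comp_mul_jac_le (θ : W' → W) (hθc : Continuous θ)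
    (hθi : Function.Injective θ) (J : W' → ℂ)
    (hθ : ∀ x', ∃ L : Cn n →L[ℂ] Cn n,
      HasFDerivAt (fun z => p (θ (hp'.localInverseAt x' z))) L (p' x') ∧ L.det = J x')
    (f : W → ℝ≥0∞) :
    ∫⁻ x', ‖J x'‖ₑ ^ 2 * f (θ x') ∂(rdVol p') ≤ ∫⁻ x, f x ∂(rdVol p) := by
  obtain ⟨A, hAm, hAd, hAu, hAO⟩ := anadC_exists_pieces
    (fun x' : W' => (rdSheet hp' x').source ∩ θ ⁻¹' (rdSheet hp (θ x')).source)
    (fun x' => (rdSheet hp' x').open_source.inter
      ((rdSheet hp (θ x')).open_source.preimage hθc))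
    (fun x' => ⟨mem_rdSheet_source hp' x', mem_rdSheet_source hp (θ x')⟩)
  have hpiece : ∀ k, MeasurableSet (θ '' A k) ∧
      ∫⁻ x' in A k, ‖J x'‖ₑ ^ 2 * f (θ x') ∂(rdVol p') = ∫⁻ x in θ '' A k, f x ∂(rdVol p) := by
    intro k
    rcases hAO k with h | ⟨x', h⟩
    · rw [h]; simp
    · exact anadC_piece hp hp' θ hθi J hθ f (isSheet_rdSheet hp' x') (isSheet_rdSheet hp (θ x'))
        (hAm k) (h.trans Set.inter_subset_left) (h.trans Set.inter_subset_right)
  have hd : Pairwise (Function.onFun Disjoint fun k => θ '' A k) := fun i j hij =>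
    (Set.disjoint_image_iff hθi).2 (hAd hij)
  calc ∫⁻ x', ‖J x'‖ₑ ^ 2 * f (θ x') ∂(rdVol p')
      = ∫⁻ x' in ⋃ k, A k, ‖J x'‖ₑ ^ 2 * f (θ x') ∂(rdVol p') := by
        rw [hAu, setLIntegral_univ]
    _ = ∑' k, ∫⁻ x' in A k, ‖J x'‖ₑ ^ 2 * f (θ x') ∂(rdVol p') := lintegral_iUnion hAm hAd _
    _ = ∑' k, ∫⁻ x in θ '' A k, f x ∂(rdVol p) := tsum_congr (fun k => (hpiece k).2)
    _ = ∫⁻ x in ⋃ k, θ '' A k, f x ∂(rdVol p) :=
        (lintegral_iUnion (fun k => (hpiece k).1) hd _).symm
    _ ≤ ∫⁻ x, f x ∂(rdVol p) := setLIntegral_le_lintegral _ _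

end emb

end Claimed.Agent.R242
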