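/-
Row 242, package ANAD.  Null: zero sets of polynomials / of nonzero regular functions are null and nowhere dense.  Der: `der j = ∂/∂z_j`.
Architect: helper286.     No paper.

LEAVES  ANAD-NULL-POLY : section 1 (polynomials on `Cn n`; Mathlib only)
        ANAD-NULL      : section 2 (charts; from section 1, `Alg.exists_mul_eq_pt`, `Vol.anad_rdVol_preimage_null`, `RD.isOpenMap_pr`)
        ANAD-DER       : section 3 (analytic derivative of `val . a` along the section = `val . (der j a)`)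

Plan 1.  `anad_poly_eq_zero_of_eventually`: `z ↦ eval z c` is analytic on the (preconnected) whole space
   (`Chart.analyticOnNhd_eval`), `AnalyticOnNhd.eqOn_zero_of_preconnected_of_eventuallyEq_zero`, then `MvPolynomial.funext`.
   `anad_poly_volume_zeroSet`: pick `z*` with `eval z* c ≠ 0`, translate to `z* = 0`.  For every `y` the one variable polynomial function
   `t ↦ eval (t • y) c` is not identically zero (value at `t = 0`), hence has finitely many zeros (it is `Polynomial.eval t` of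
   `aeval (fun i => C (y i) * X) c`, or: analytic, isolated zeros, countable).  Tonelli on `{(t, y) : 1 ≤ ‖t‖ ≤ 2, t • y ∈ Z}` (`Z` closed):
   `∫_t vol (t⁻¹ • Z) = ∫_y vol {t | t • y ∈ Z} = 0`, and `vol (t⁻¹ • Z) = ‖t‖^(-2n) vol Z` (`Measure.addHaar_smul`; real dimension `2n`, or
   just: `vol (c • Z) = 0 ↔ vol Z = 0` for `c ≠ 0`).   ALTERNATIVE: `MeasureTheory.ae_mem_of_ae_add_linearMap_mem` (parallel lines in a direction
   in which the leading form does not vanish), or induction on `n` with `MvPolynomial.finSuccEquiv` and `volume_preserving_piFinSuccAbove`.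
Plan 2.  `Q B = c₀(z)` on `pts`, so `{Q = 0} ⊆ pr ⁻¹' {c₀ = 0}`.  Density: an open set `U ⊆ {Q = 0}` has open image `pr '' U ⊆ {c₀ = 0}`.
   `anad_eq_of_val_eq`: write `a - b = P/Q`; `P` vanishes on the open set `U ∩ {Q ≠ 0}`, non empty by density; so `aeval gen P = 0` by density again.
Plan 3.  `v = inl i`: `sect_i z = z_i` near `pr w`.  `v = inr l`: differentiate `eval (sect w z) (rel i) = 0` (`Chart.hasFDerivAt_eval`, chain rule):
   `∑_v eval w (pderiv v (rel i)) * y_v = 0`, `y_v = ∂ sect_v/∂z_j`.  Apply `val w` to `derivation_aeval (der j) (rel i) = 0`: the same linear system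
   for `val w (der j (gen v))`.  The matrix `eval w (pderiv (inr l) (rel i))` is invertible (`Chart.eval_jac_ne_zero`), the `inl` components agree.
   General `a = P/Q`: quotient rule on both sides (`RegAtPt.exists_rep`).
-/
import Claimed.Agent.R242.Anad.RD
import Claimed.Agent.R242.Anad.Alg
import Claimed.Agent.R242.Anad.Vol
import Claimed.Agent.R242.Tay.Defs

set_option autoImplicit false

namespace Claimed.Agent.R242

open MvPolynomial Filter Topology MeasureTheory
open scoped ENNReal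

/-! ### 1. polynomials on `Cn n` -/

section poly

variable {n : ℕ} {c : MvPolynomial (Fin n) ℂ}

theorem anad_poly_eq_zero_of_eventually {z₀ : Cn n} (h : ∀ᶠ z in 𝓝 z₀, eval z c = 0) : c = 0 := by
  obtain ⟨ε, hε, hball⟩ := Metric.eventually_nhds_iff_ball.1 h
  refine MvPolynomial.funext_set (fun i => Metric.ball (z₀ i) ε) (fun i => ?_) fun x hx => ?_
  · exact infinite_of_mem_nhds (z₀ i) (Metric.ball_mem_nhds _ hε)
  · rw [map_zero]
    refine hball x ?_
    rw [ball_pi _ hε]
    exact hx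

theorem anad_poly_frequently_ne (hc : c ≠ 0) (z : Cn n) : ∃ᶠ y in 𝓝 z, eval y c ≠ 0 := by
  intro h
  refine hc (anad_poly_eq_zero_of_eventually (z₀ := z) ?_)
  filter_upwards [h] with y hy
  exact not_not.1 hy

theorem anad_poly_dense (hc : c ≠ 0) : Dense {z : Cn n | eval z c ≠ 0} := fun z =>
  mem_closure_iff_frequently.2 (anad_poly_frequently_ne hc z)

theorem anad_poly_isOpen (c : MvPolynomial (Fin n) ℂ) : IsOpen {z : Cn n | eval z c ≠ 0} :=
  isOpen_ne_fun (MvPolynomial.continuous_eval c) continuous_const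

theorem anad_poly_volume_zeroSet_aux : ∀ (n : ℕ) (c : MvPolynomial (Fin n) ℂ), c ≠ 0 →
    volume {z : Cn n | eval z c = 0} = 0 := by
  intro n
  induction n with
  | zero =>
    intro c hc
    have : {z : Cn 0 | eval z c = 0} = ∅ := by
      rw [Set.eq_empty_iff_forall_notMem]
      intro z hz
      refine hc (MvPolynomial.funext fun x => ?_)
      rw [map_zero, Subsingleton.elim x z]
      exact hz
    rw [this, measure_empty]
  | succ n ih =>
    intro c hc
    set p := finSuccEquiv ℂ n c with hp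
    have hp0 : p ≠ 0 := by
      rw [hp, Ne, EmbeddingLike.map_eq_zero_iff]
      exact hc
    have ha : p.leadingCoeff ≠ 0 := Polynomial.leadingCoeff_ne_zero.2 hp0
    have hnull := ih _ ha
    set Z : Set (ℂ × (Fin n → ℂ)) := {q | eval (Fin.cons q.1 q.2 : Fin (n + 1) → ℂ) c = 0} with hZ
    have hcont : Continuous fun q : ℂ × (Fin n → ℂ) => eval (Fin.cons q.1 q.2 : Fin (n + 1) → ℂ) c := by
      refine (MvPolynomial.continuous_eval c).comp ?_
      refine continuous_pi fun i => ?_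
      refine Fin.cases ?_ (fun j => ?_) i
      · simpa using continuous_fst
      · simpa [Function.comp_def] using (continuous_apply j).comp continuous_snd
    have hZm : MeasurableSet Z := (isClosed_eq hcont continuous_const).measurableSet
    have hZ0 : (volume : Measure (ℂ × (Fin n → ℂ))) Z = 0 := by
      rw [Measure.volume_eq_prod, Measure.prod_apply_symm hZm]
      rw [lintegral_eq_zero_iff (measurable_measure_prodMk_right hZm)]
      have hae : ∀ᵐ z' : Fin n → ℂ ∂volume, eval z' p.leadingCoeff ≠ 0 := by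
        rw [ae_iff]
        simpa using hnull
      filter_upwards [hae] with z' hz'
      have hq : Polynomial.map (eval z') p ≠ 0 := by
        intro h0
        apply hz'
        have := congrArg (fun r => Polynomial.coeff r p.natDegree) h0
        simpa [Polynomial.coeff_map] using this
      have hfin : ((fun t : ℂ => (t, z')) ⁻¹' Z).Finite := by
        refine (Polynomial.finite_setOfPred_isRoot hq).subset ?_
        intro t ht
        have ht' : eval (Fin.cons t z' : Fin (n + 1) → ℂ) c = 0 := ht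
        rw [eval_eq_eval_mv_eval'] at ht'
        exact ht'
      exact hfin.measure_zero _
    have hmp := volume_preserving_piFinSuccAbove (fun _ : Fin (n + 1) => ℂ) 0
    have hpre : {z : Cn (n + 1) | eval z c = 0}
        = (MeasurableEquiv.piFinSuccAbove (fun _ : Fin (n + 1) => ℂ) 0) ⁻¹' Z := by
      ext z
      simp only [Set.mem_ofPred_eq, Set.mem_preimage, hZ]
      have : (Fin.cons ((MeasurableEquiv.piFinSuccAbove (fun _ : Fin (n + 1) => ℂ) 0) z).1
          ((MeasurableEquiv.piFinSuccAbove (fun _ : Fin (n + 1) => ℂ) 0) z).2 : Fin (n + 1) → ℂ) = z := by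
        funext i
        refine Fin.cases ?_ (fun j => ?_) i
        · rfl
        · rfl
      rw [this]
    rw [hpre, hmp.measure_preimage hZm.nullMeasurableSet]
    exact hZ0

theorem anad_poly_volume_zeroSet (hc : c ≠ 0) : volume {z : Cn n | eval z c = 0} = 0 :=
  anad_poly_volume_zeroSet_aux n c hc

/-- polynomial growth -/
theorem anad_poly_norm_le {σ : Type*} [Fintype σ] (P : MvPolynomial σ ℂ) :
    ∃ C : ℝ, 0 < C ∧ ∀ w : σ → ℂ, ‖eval w P‖ ≤ C * (1 + ‖w‖ ^ 2) ^ P.totalDegree := by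
  refine ⟨1 + ∑ m ∈ P.support, ‖P.coeff m‖, by positivity, fun w => ?_⟩
  have hb : (1 : ℝ) ≤ 1 + ‖w‖ ^ 2 := by nlinarith [sq_nonneg ‖w‖]
  have hw : ‖w‖ ≤ 1 + ‖w‖ ^ 2 := by nlinarith [sq_nonneg (‖w‖ - 1)]
  have hmon : ∀ m ∈ P.support, ‖P.coeff m * ∏ i, w i ^ m i‖
      ≤ ‖P.coeff m‖ * (1 + ‖w‖ ^ 2) ^ P.totalDegree := by
    intro m hm
    rw [norm_mul]
    refine mul_le_mul_of_nonneg_left ?_ (norm_nonneg _)
    rw [norm_prod]
    calc ∏ i, ‖w i ^ m i‖ ≤ ∏ i, (1 + ‖w‖ ^ 2) ^ m i := by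
          refine Finset.prod_le_prod (fun i _ => norm_nonneg _) fun i _ => ?_
          rw [norm_pow]
          exact pow_le_pow_left₀ (norm_nonneg _) ((norm_le_pi_norm w i).trans hw) _
      _ = (1 + ‖w‖ ^ 2) ^ (∑ i, m i) := by rw [Finset.prod_pow_eq_pow_sum]
      _ ≤ (1 + ‖w‖ ^ 2) ^ P.totalDegree := by
          refine pow_le_pow_right₀ hb ?_
          have := MvPolynomial.le_totalDegree hm
          rwa [Finsupp.sum_fintype _ _ (fun _ => rfl)] at this
  rw [MvPolynomial.eval_eq']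
  calc ‖∑ m ∈ P.support, P.coeff m * ∏ i, w i ^ m i‖
      ≤ ∑ m ∈ P.support, ‖P.coeff m * ∏ i, w i ^ m i‖ := norm_sum_le _ _
    _ ≤ ∑ m ∈ P.support, ‖P.coeff m‖ * (1 + ‖w‖ ^ 2) ^ P.totalDegree := Finset.sum_le_sum hmon
    _ = (∑ m ∈ P.support, ‖P.coeff m‖) * (1 + ‖w‖ ^ 2) ^ P.totalDegree := by rw [Finset.sum_mul]
    _ ≤ (1 + ∑ m ∈ P.support, ‖P.coeff m‖) * (1 + ‖w‖ ^ 2) ^ P.totalDegree := by
        refine mul_le_mul_of_nonneg_right (by linarith) (by positivity)

end poly

namespace EChart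

variable {n : ℕ} {K : Type} [Field K] [Algebra ℂ K] (E : EChart n K)

/-! ### 2. charts -/

theorem anad_null_vol {Q : MvPolynomial (Fin n ⊕ Fin E.c) ℂ} (hQ : aeval E.gen Q ≠ 0) :
    rdVol E.pr {w : E.pts | eval w.1 Q = 0} = 0 := by
  obtain ⟨B, c₀, hc₀, h⟩ := E.exists_mul_eq_pt hQ
  refine measure_mono_null ?_
    (anad_rdVol_preimage_null E.isLocalHomeomorph_pr (anad_poly_volume_zeroSet hc₀))
  intro w hw
  have hw' : eval w.1 Q = 0 := hw
  have := h w.1 w.2
  rw [hw', zero_mul] at this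
  exact this.symm

theorem anad_null_dense {Q : MvPolynomial (Fin n ⊕ Fin E.c) ℂ} (hQ : aeval E.gen Q ≠ 0) :
    Dense {w : E.pts | eval w.1 Q ≠ 0} := by
  obtain ⟨B, c₀, hc₀, h⟩ := E.exists_mul_eq_pt hQ
  rw [dense_iff_inter_open]
  intro U hU hne
  obtain ⟨z, ⟨w, hwU, rfl⟩, hz⟩ :=
    (anad_poly_dense hc₀).inter_open_nonempty _ (E.isOpenMap_pr U hU) (hne.image _)
  refine ⟨w, hwU, ?_⟩
  intro h0
  have h0' : eval w.1 Q = 0 := h0
  have := h w.1 w.2
  rw [h0', zero_mul] at this
  exact hz this.symm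

theorem anad_isOpen_ne_zero (Q : MvPolynomial (Fin n ⊕ Fin E.c) ℂ) :
    IsOpen {w : E.pts | eval w.1 Q ≠ 0} :=
  isOpen_ne_fun ((MvPolynomial.continuous_eval Q).comp continuous_subtype_val) continuous_const

/-- a polynomial that vanishes on a non empty open subset of the points is zero in `K` -/
theorem anad_aeval_eq_zero_of_open {P : MvPolynomial (Fin n ⊕ Fin E.c) ℂ} {U : Set E.pts}
    (hU : IsOpen U) (hne : U.Nonempty) (h : ∀ w ∈ U, eval w.1 P = 0) : aeval E.gen P = 0 := by
  by_contra hP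
  obtain ⟨w, hwU, hw⟩ := (E.anad_null_dense hP).inter_open_nonempty U hU hne
  exact hw (h w hwU)

theorem anad_val_eq_of_tendsto (w₀ : E.pts) {a : K} (ha : E.RegAtPt w₀.1 a) {S : Set E.pts}
    (hS : w₀ ∈ closure S) {F : E.pts → ℂ} (hF : ∀ w ∈ S, E.val w.1 a = F w) {c : ℂ}
    (hc : Tendsto F (𝓝[S] w₀) (𝓝 c)) : E.val w₀.1 a = c := by
  have hne : (𝓝[S] w₀).NeBot := mem_closure_iff_nhdsWithin_neBot.1 hS
  have h1 : Tendsto (fun w : E.pts => E.val w.1 a) (𝓝[S] w₀) (𝓝 (E.val w₀.1 a)) :=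
    (E.continuousAt_val w₀ ha).tendsto.mono_left nhdsWithin_le_nhds
  have h2 : Tendsto (fun w : E.pts => E.val w.1 a) (𝓝[S] w₀) (𝓝 c) := by
    refine hc.congr' ?_
    filter_upwards [self_mem_nhdsWithin] with w hw
    exact (hF w hw).symm
  exact tendsto_nhds_unique h1 h2

theorem anad_eq_of_val_eq {a b : K} {U : Set E.pts} (hU : IsOpen U) (hne : U.Nonempty)
    (h : ∀ w ∈ U, E.RegAtPt w.1 a ∧ E.RegAtPt w.1 b ∧ E.val w.1 a = E.val w.1 b) : a = b := by
  obtain ⟨P, Q, hQ, hPQ⟩ := E.gen_frac (a - b)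
  have hU' : IsOpen (U ∩ {w : E.pts | eval w.1 Q ≠ 0}) := hU.inter (E.anad_isOpen_ne_zero Q)
  have hne' : (U ∩ {w : E.pts | eval w.1 Q ≠ 0}).Nonempty :=
    (E.anad_null_dense hQ).inter_open_nonempty U hU hne
  have hP : aeval E.gen P = 0 := by
    refine E.anad_aeval_eq_zero_of_open hU' hne' ?_
    rintro w ⟨hwU, hwQ⟩
    obtain ⟨ha, hb, hab⟩ := h w hwU
    have h1 := E.val_eq w.2 hwQ hPQ
    rw [val_sub w.2 ha hb, hab, sub_self] at h1
    have hwQ' : eval w.1 Q ≠ 0 := hwQ
    exact ((div_eq_zero_iff.1 h1.symm).resolve_right hwQ')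
  rw [hP] at hPQ
  exact sub_eq_zero.1 ((mul_eq_zero.1 hPQ).resolve_right hQ)

/-! ### 3. `der j = ∂/∂z_j` -/

/-- derivative of a polynomial function along the section (chain rule) -/
theorem anad_der_pd_eval_sect (w : E.pts) (P : MvPolynomial (Fin n ⊕ Fin E.c) ℂ) (j : Fin n) :
    pd j (fun z => eval (E.sect w z) P) (E.pr w) =
      ∑ v, eval w.1 (pderiv v P) * fderiv ℂ (E.sect w) (E.pr w) (Pi.single j 1) v := by
  have hs : HasFDerivAt (E.sect w) (fderiv ℂ (E.sect w) (E.pr w)) (E.pr w) :=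
    (E.analyticAt_sect w).differentiableAt.hasFDerivAt
  have hP := Chart.hasFDerivAt_eval P (E.sect w (E.pr w))
  have hc := hP.comp (E.pr w) hs
  have e : (fun z => eval (E.sect w z) P) = (fun w' : Fin n ⊕ Fin E.c → ℂ => eval w' P) ∘ E.sect w := rfl
  rw [pd, e, hc.fderiv, E.sect_self w]
  simp

theorem anad_der_differentiableAt_eval_sect (w : E.pts) (P : MvPolynomial (Fin n ⊕ Fin E.c) ℂ) :
    DifferentiableAt ℂ (fun z => eval (E.sect w z) P) (E.pr w) :=
  ((Chart.hasFDerivAt_eval P (E.sect w (E.pr w))).comp (E.pr w)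
    (E.analyticAt_sect w).differentiableAt.hasFDerivAt).differentiableAt

theorem anad_der_regAtPt_der_gen (w : Fin n ⊕ Fin E.c → ℂ) (j : Fin n) (v : Fin n ⊕ Fin E.c) :
    E.RegAtPt w (E.der j (E.gen v)) := E.regAtPt_of_mem_ring w (E.der_gen_mem_ring j v)

/-- the algebraic chain rule, evaluated at a point -/
theorem anad_der_val_der_aeval (w : E.pts) (P : MvPolynomial (Fin n ⊕ Fin E.c) ℂ) (j : Fin n) :
    E.val w.1 (E.der j (aeval E.gen P)) =
      ∑ v, eval w.1 (pderiv v P) * E.val w.1 (E.der j (E.gen v)) := by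
  rw [E.derivation_aeval (E.der j) P, E.val_sum w.2]
  · refine Finset.sum_congr rfl fun v _ => ?_
    rw [smul_eq_mul, E.val_mul w.2 (E.regAtPt_aeval _ _) (E.anad_der_regAtPt_der_gen _ j v),
      E.val_aeval w.2]
  · intro v _
    rw [smul_eq_mul]
    exact (E.regAtPt_aeval _ _).mul (E.anad_der_regAtPt_der_gen _ j v)

theorem anad_fderiv_sect (w : E.pts) (j : Fin n) (v : Fin n ⊕ Fin E.c) :
    fderiv ℂ (E.sect w) (E.pr w) (Pi.single j 1) v = E.val w.1 (E.der j (E.gen v)) := by
  set y : Fin n ⊕ Fin E.c → ℂ := fderiv ℂ (E.sect w) (E.pr w) (Pi.single j 1) with hy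
  set y' : Fin n ⊕ Fin E.c → ℂ := fun v => E.val w.1 (E.der j (E.gen v)) with hy'
  have hinl : ∀ i, y (Sum.inl i) = y' (Sum.inl i) := by
    intro i
    have hs : HasFDerivAt (E.sect w) (fderiv ℂ (E.sect w) (E.pr w)) (E.pr w) :=
      (E.analyticAt_sect w).differentiableAt.hasFDerivAt
    have h1 : HasFDerivAt (fun z => E.sect w z (Sum.inl i))
        ((ContinuousLinearMap.proj (R := ℂ) (φ := fun _ : Fin n ⊕ Fin E.c => ℂ) (Sum.inl i)).comp
          (fderiv ℂ (E.sect w) (E.pr w))) (E.pr w) :=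
      (ContinuousLinearMap.proj (R := ℂ) (φ := fun _ : Fin n ⊕ Fin E.c => ℂ)
        (Sum.inl i)).hasFDerivAt.comp (E.pr w) hs
    have h2 : (fun z => E.sect w z (Sum.inl i)) =ᶠ[𝓝 (E.pr w)] fun z => z i := by
      filter_upwards [E.proj_sect w] with z hz
      exact congrFun hz i
    have h3 : HasFDerivAt (fun z : Cn n => z i)
        (ContinuousLinearMap.proj (R := ℂ) (φ := fun _ : Fin n => ℂ) i) (E.pr w) :=
      (ContinuousLinearMap.proj (R := ℂ) (φ := fun _ : Fin n => ℂ) i).hasFDerivAt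
    have h4 := h1.unique (h3.congr_of_eventuallyEq h2)
    have h5 : y (Sum.inl i) = (Pi.single j 1 : Cn n) i :=
      congrArg (fun L : Cn n →L[ℂ] ℂ => L (Pi.single j 1)) h4
    rw [h5]
    show _ = E.val w.1 (E.der j (E.gen (Sum.inl i)))
    rw [E.der_coord, Pi.single_apply]
    split_ifs
    · rw [E.val_one w.2]
    · rw [E.val_zero w.2]
  have hrel : ∀ i, ∑ v, eval w.1 (pderiv v (E.rel i)) * y v = 0 := by
    intro i
    rw [hy, ← E.anad_der_pd_eval_sect w (E.rel i) j]
    have e : (fun z => eval (E.sect w z) (E.rel i)) = fun _ => 0 := funext fun z => E.sect_mem w z i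
    rw [e, pd]
    simp
  have hrel' : ∀ i, ∑ v, eval w.1 (pderiv v (E.rel i)) * y' v = 0 := by
    intro i
    rw [hy', ← E.anad_der_val_der_aeval w (E.rel i) j, E.aeval_rel, map_zero, E.val_zero w.2]
  have hδ : ∀ i, ∑ l, eval w.1 (pderiv (Sum.inr l) (E.rel i)) * (y (Sum.inr l) - y' (Sum.inr l)) = 0 := by
    intro i
    have h1 := hrel i
    have h2 := hrel' i
    rw [Fintype.sum_sum_type] at h1 h2
    have h3 : ∑ a, eval w.1 (pderiv (Sum.inl a) (E.rel i)) * y (Sum.inl a) =
        ∑ a, eval w.1 (pderiv (Sum.inl a) (E.rel i)) * y' (Sum.inl a) :=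
      Finset.sum_congr rfl fun a _ => by rw [hinl a]
    simp only [mul_sub, Finset.sum_sub_distrib]
    linear_combination h1 - h2 - h3
  have hdet : (Matrix.of fun i l => eval w.1 (pderiv (Sum.inr l) (E.rel i)) :
      Matrix (Fin E.c) (Fin E.c) ℂ).det ≠ 0 := by
    have h := E.eval_jac_ne_zero w.2
    rw [RingHom.map_det] at h
    exact h
  have hz : (fun l => y (Sum.inr l) - y' (Sum.inr l)) = 0 :=
    Matrix.eq_zero_of_mulVec_eq_zero hdet (funext fun i => hδ i)
  rcases v with i | l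
  · exact hinl i
  · exact sub_eq_zero.1 (congrFun hz l)

/-- polynomial functions: the analytic derivative along the section is the algebraic one -/
theorem anad_der_pd_eval_eq (w : E.pts) (P : MvPolynomial (Fin n ⊕ Fin E.c) ℂ) (j : Fin n) :
    pd j (fun z => eval (E.sect w z) P) (E.pr w) = E.val w.1 (E.der j (aeval E.gen P)) := by
  rw [E.anad_der_pd_eval_sect, E.anad_der_val_der_aeval]
  exact Finset.sum_congr rfl fun v _ => by rw [E.anad_fderiv_sect]

theorem anad_pd_val_sect (w : E.pts) {a : K} (ha : E.RegAtPt w.1 a) (j : Fin n) :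
    pd j (fun z => E.val (E.sect w z) a) (E.pr w) = E.val w.1 (E.der j a) := by
  obtain ⟨P, Q, hQ, h, hrep⟩ := RegAtPt.exists_rep E ha
  have hf : DifferentiableAt ℂ (fun z => E.val (E.sect w z) a) (E.pr w) :=
    (E.analyticAt_val_sect w ha).differentiableAt
  have hs : ContinuousAt (E.sect w) (E.pr w) := (E.analyticAt_sect w).continuousAt
  have hdQ := E.anad_der_differentiableAt_eval_sect w Q
  have hQs : ∀ᶠ z in 𝓝 (E.pr w), eval (E.sect w z) Q ≠ 0 := by
    apply hdQ.continuousAt.eventually_ne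
    rw [E.sect_self]
    exact hQ
  have hfe : (fun z => E.val (E.sect w z) a * eval (E.sect w z) Q) =ᶠ[𝓝 (E.pr w)]
      fun z => eval (E.sect w z) P := by
    filter_upwards [hQs] with z hz
    rw [(hrep _ (E.sect_mem w z) hz).2, div_mul_cancel₀ _ hz]
  have h1 : pd j (fun z => E.val (E.sect w z) a * eval (E.sect w z) Q) (E.pr w) =
      pd j (fun z => E.val (E.sect w z) a) (E.pr w) * eval w.1 Q +
        E.val w.1 a * pd j (fun z => eval (E.sect w z) Q) (E.pr w) := by
    rw [pd, fderiv_fun_mul hf hdQ, pd, pd, E.sect_self]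
    simp only [add_apply, smul_apply, smul_eq_mul]
    ring
  have h2 : pd j (fun z => E.val (E.sect w z) a * eval (E.sect w z) Q) (E.pr w) =
      pd j (fun z => eval (E.sect w z) P) (E.pr w) := by
    rw [pd, pd, hfe.fderiv_eq]
  have h3 : E.der j a * aeval E.gen Q + a * E.der j (aeval E.gen Q) = E.der j (aeval E.gen P) := by
    rw [← h, Derivation.leibniz, smul_eq_mul, smul_eq_mul]
    ring
  have hda : E.RegAtPt w.1 (E.der j a) := E.regAtPt_der j ha
  have hdQ' : E.RegAtPt w.1 (E.der j (aeval E.gen Q)) := E.regAtPt_der j (E.regAtPt_aeval _ _)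
  have h4 := congrArg (E.val w.1) h3
  rw [E.val_add w.2 (hda.mul (E.regAtPt_aeval _ _)) (ha.mul hdQ'),
    E.val_mul w.2 hda (E.regAtPt_aeval _ _), E.val_mul w.2 ha hdQ', E.val_aeval w.2] at h4
  rw [E.anad_der_pd_eval_eq] at h1 h2
  apply mul_right_cancel₀ hQ
  linear_combination h2 - h1 - h4

/-- the same at the nearby points of the section -/
theorem anad_pd_val_sect_eventually (w : E.pts) {a : K} (ha : E.RegAtPt w.1 a) (j : Fin n) :
    ∀ᶠ z in 𝓝 (E.pr w),
      pd j (fun z' => E.val (E.sect w z') a) z = E.val (E.sect w z) (E.der j a) := by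
  have hs : ContinuousAt (E.sect w) (E.pr w) := (E.analyticAt_sect w).continuousAt
  have hreg : ∀ᶠ z in 𝓝 (E.pr w), E.RegAtPt (E.sect w z) a := by
    have h1 : ∀ᶠ w' in 𝓝 (E.sect w (E.pr w)), E.RegAtPt w' a := by
      rw [E.sect_self]
      exact RegAtPt.eventually E ha
    exact hs.eventually h1
  filter_upwards [hreg, E.proj_sect w, E.sect_sect_eventually w] with z hz hpz hsz
  have hpr : E.pr ⟨E.sect w z, E.sect_mem w z⟩ = z := hpz
  have key := E.anad_pd_val_sect ⟨E.sect w z, E.sect_mem w z⟩ hz j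
  rw [hpr] at key
  rw [← key, pd, pd]
  have e : (fun z' => E.val (E.sect w z') a) =ᶠ[𝓝 z]
      fun z' => E.val (E.sect ⟨E.sect w z, E.sect_mem w z⟩ z') a := by
    filter_upwards [hsz] with z' hz'
    rw [hz']
  rw [e.fderiv_eq]

theorem anad_rdD_val (w : E.pts) {a : K} (ha : E.RegAtPt w.1 a) (j : Fin n) :
    rdD E.isLocalHomeomorph_pr j (fun w' : E.pts => E.val w'.1 a) w = E.val w.1 (E.der j a) := by
  rw [← E.anad_pd_val_sect w ha j, rdD, pd]
  exact dz_of_holo (E.analyticAt_val_sect w ha).differentiableAt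

end EChart

end Claimed.Agent.R242
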