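/-
Row 242, package ANAD.  Cmp: comparison of two embedded charts of the same field `K`.     Architect: helper286.     No paper.

LEAVES  ANAD-CMP-A : section 1 (the map of points `trans` induced by `E₁.ring ≤ E₂.ring`; continuity, derivative, Jacobian)
        ANAD-CMP-B : section 2 (`exists_compare`: after localising `E₂`, `E₁.ring ≤ E₂[1/G].ring` and `trans` identifies points)
        ANAD-CMP-C : section 3 (`anad_cmp`: change of variables; glue from 1, 2, `Vol.anad_lintegral_comp_mul_jac_le`, `RD`/`Vol` for `locMap`)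

Plan A.  `eval_trans` = `val_aeval_of_reg`.  `trans_mem`: `eval (trans w) (E₁.rel i) = E₂.val w (aeval E₁.gen (rel i)) = E₂.val w 0 = 0`.
   `regAtPt_of_trans`: `a Q(gen₁) = P(gen₁)`, `Q(trans w) = E₂.val w (Q(gen₁)) ≠ 0`, so `Q(gen₁)` is a unit at `w`.
   continuity: `continuousAt_val`.   derivative: the `i`-th component of `z ↦ pr₁ (transMap (localInverseAt w z))` is
   `z ↦ E₂.val (E₂.sect w z) (E₁.zc i)`: analytic (`analyticAt_val_sect`), partial derivatives `E₂.val w (E₂.der j (E₁.zc i))` (`anad_pd_val_sect`);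
   `L := fderiv`; `L.det = det (matrix)` (`LinearMap.det_toLin'`/`LinearMap.toMatrix'`), `val_det`.
Plan B.  (1) `E₁.gen v * Q_v(gen₂) = P_v(gen₂)`, `G₁ = ∏ Q_v`.  (2) `E₂.gen u * Q'_u(gen₁) = P'_u(gen₁)`; `q_u = Q'_u(gen₁) ≠ 0` lies in `E₂[1/G₁].ring`:
   `q_u G₁(gen₂)^k = R_u(gen₂)` (`mem_ring_localise_iff`).  `G = G₀ G₁ ∏ R_u`.  At a point `w` of `E'' = E₂[1/G]`, `u₁ = trans w`:
   `Q'_u(u₁) = E''.val w q_u ≠ 0`, so `E₂.gen u` is `E₁`-regular at `u₁`, with value `(locPt w) u`; the last generator `1/G(gen₂)` is the inverse of a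
   polynomial in the `E₂.gen u`, with value `G(locPt w) ≠ 0`.  Conclude with `same_of_gen`.
Plan C.  `E'' = E'[1/G]` from `exists_compare E E' G₀`.  `θ = transMap : E''.pts → E.pts` is injective (`Same.coord`).
   `∫_{G ≠ 0} f' dV' = ∫_{E''.pts} f' ∘ locMap` (`anad_lintegral_comp_of_isOpenEmbedding`, `isOpenEmbedding_locMap`, `range_locMap`)
   `≤ ∫ |E''.val w (jac)|² f (θ w) ≤ ∫ f`.   (`Same E E' (θ w) (locPt w)` by `Same.symm`, `Same.trans`, `same_locPt`.)
-/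
import Claimed.Agent.R242.Anad.Null

set_option autoImplicit false

noncomputable section

namespace Claimed.Agent.R242

open MvPolynomial Filter Topology MeasureTheory
open scoped ENNReal

namespace EChart

variable {n : ℕ} {K : Type} [Field K] [Algebra ℂ K] (E₁ E₂ : EChart n K)

/-! ### 1. the map of points -/

/-- the point of `E₁` determined by a point of `E₂` (meaningful when the `E₁.gen v` are regular at `w`) -/
def trans (w : Fin n ⊕ Fin E₂.c → ℂ) : Fin n ⊕ Fin E₁.c → ℂ := fun v => E₂.val w (E₁.gen v)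

variable {E₁ E₂} {w : Fin n ⊕ Fin E₂.c → ℂ}

theorem eval_trans (hw : w ∈ E₂.pts) (h : ∀ v, E₂.RegAtPt w (E₁.gen v))
    (P : MvPolynomial (Fin n ⊕ Fin E₁.c) ℂ) :
    eval (E₁.trans E₂ w) P = E₂.val w (aeval E₁.gen P) :=
  (val_aeval_of_reg hw h P).symm

theorem trans_mem (hw : w ∈ E₂.pts) (h : ∀ v, E₂.RegAtPt w (E₁.gen v)) :
    E₁.trans E₂ w ∈ E₁.pts := by
  intro i
  rw [eval_trans hw h, E₁.aeval_rel, E₂.val_zero hw]

theorem regAtPt_of_trans (hw : w ∈ E₂.pts) (h : ∀ v, E₂.RegAtPt w (E₁.gen v)) {a : K}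
    (ha : E₁.RegAtPt (E₁.trans E₂ w) a) :
    E₂.RegAtPt w a ∧ E₂.val w a = E₁.val (E₁.trans E₂ w) a := by
  obtain ⟨P, Q, hQ, hPQ⟩ := ha
  have hrP := regAtPt_aeval_of_reg h P
  have hrQ := regAtPt_aeval_of_reg h Q
  have hu : E₂.UnitAtPt w (aeval E₁.gen Q) :=
    (unitAtPt_iff hw).2 ⟨hrQ, by rw [← eval_trans hw h]; exact hQ⟩
  have hne := hu.ne_zero hw
  have ha' : a = aeval E₁.gen P / aeval E₁.gen Q := by rw [← hPQ, mul_div_cancel_right₀ _ hne]
  refine ⟨by rw [ha']; exact hrP.div hu, ?_⟩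
  rw [E₁.val_eq (trans_mem hw h) hQ hPQ]
  conv_lhs => rw [ha']
  rw [val_div hw hrP hu, ← eval_trans hw h, ← eval_trans hw h]

theorem regAtPt_gen_of_ring_le (h : E₁.ring ≤ E₂.ring) (w : Fin n ⊕ Fin E₂.c → ℂ)
    (v : Fin n ⊕ Fin E₁.c) : E₂.RegAtPt w (E₁.gen v) :=
  E₂.regAtPt_of_mem_ring w (h (E₁.gen_mem_ring v))

variable (E₁ E₂)

/-- the map of points induced by an inclusion of coordinate rings -/
def transMap (h : E₁.ring ≤ E₂.ring) : E₂.pts → E₁.pts :=
  fun w => ⟨E₁.trans E₂ w.1, trans_mem w.2 (regAtPt_gen_of_ring_le h w.1)⟩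

theorem continuous_transMap (h : E₁.ring ≤ E₂.ring) : Continuous (E₁.transMap E₂ h) := by
  refine Continuous.subtype_mk ?_ _
  refine continuous_pi fun v => ?_
  exact continuous_iff_continuousAt.2 fun w =>
    E₂.continuousAt_val w (regAtPt_gen_of_ring_le h w.1 v)

theorem jac_mem_ring (h : E₁.ring ≤ E₂.ring) : E₁.jac E₂ ∈ E₂.ring := by
  unfold jac
  rw [Matrix.det_apply']
  refine sum_mem fun σ _ => mul_mem (intCast_mem _ _) (prod_mem fun i _ => ?_)
  exact E₂.der_mem_ring _ (h (E₁.gen_mem_ring _))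

theorem hasFDerivAt_transMap (h : E₁.ring ≤ E₂.ring) (w : E₂.pts) :
    ∃ L : Cn n →L[ℂ] Cn n,
      HasFDerivAt (fun z => E₁.pr (E₁.transMap E₂ h (E₂.isLocalHomeomorph_pr.localInverseAt w z))) L
        (E₂.pr w) ∧ L.det = E₂.val w.1 (E₁.jac E₂) := by
  have hreg : ∀ i, E₂.RegAtPt w.1 (E₁.zc i) := fun i => regAtPt_gen_of_ring_le h w.1 _
  have hd : ∀ i, DifferentiableAt ℂ (fun z => E₂.val (E₂.sect w z) (E₁.zc i)) (E₂.pr w) :=
    fun i => (E₂.analyticAt_val_sect w (hreg i)).differentiableAt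
  have hF : HasFDerivAt (fun z i => E₂.val (E₂.sect w z) (E₁.zc i))
      (ContinuousLinearMap.pi fun i => fderiv ℂ (fun z => E₂.val (E₂.sect w z) (E₁.zc i)) (E₂.pr w))
      (E₂.pr w) := hasFDerivAt_pi.2 fun i => (hd i).hasFDerivAt
  refine ⟨_, hF, ?_⟩
  unfold jac
  rw [val_det w.2 (A := Matrix.of fun i j => E₂.der j (E₁.gen (Sum.inl i)))
    (fun i j => E₂.regAtPt_der j (hreg i)), ContinuousLinearMap.det,
    ← LinearMap.det_toMatrix']
  congr 1
  ext i j
  rw [LinearMap.toMatrix'_apply, Matrix.of_apply, Matrix.of_apply]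
  exact E₂.anad_pd_val_sect w (hreg i) j

/-- change of variables for `transMap` -/
theorem lintegral_transMap_le (h : E₁.ring ≤ E₂.ring) (hinj : Function.Injective (E₁.transMap E₂ h))
    (f : E₁.pts → ℝ≥0∞) :
    ∫⁻ w, ‖E₂.val w.1 (E₁.jac E₂)‖ₑ ^ 2 * f (E₁.transMap E₂ h w) ∂(rdVol E₂.pr)
      ≤ ∫⁻ u, f u ∂(rdVol E₁.pr) :=
  anad_lintegral_comp_mul_jac_le E₁.isLocalHomeomorph_pr E₂.isLocalHomeomorph_pr
    (E₁.transMap E₂ h) (E₁.continuous_transMap E₂ h) hinj _ (E₁.hasFDerivAt_transMap E₂ h) f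

/-! ### 2. comparison after localisation -/

variable {E₁ E₂} in
/-- criterion for `trans` to identify a point: the generators of `E₁` are regular at `w`, and the generators of `E₂`
are fractions in the generators of `E₁` whose denominators are units at `w`. -/
theorem anadcmpb_same {w : Fin n ⊕ Fin E₂.c → ℂ} (hw : w ∈ E₂.pts)
    (h1 : ∀ v, E₂.RegAtPt w (E₁.gen v))
    (h2 : ∀ u, ∃ P Q : MvPolynomial (Fin n ⊕ Fin E₁.c) ℂ,
      E₂.gen u * aeval E₁.gen Q = aeval E₁.gen P ∧ E₂.UnitAtPt w (aeval E₁.gen Q)) :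
    E₂.Same E₁ w (E₁.trans E₂ w) := by
  have hmem : E₁.trans E₂ w ∈ E₁.pts := trans_mem hw h1
  refine same_of_gen hw hmem (fun v => ⟨h1 v, rfl⟩) (fun u => ?_)
  obtain ⟨P, Q, hPQ, hQ⟩ := h2 u
  have hQv : eval (E₁.trans E₂ w) Q ≠ 0 := by
    rw [eval_trans hw h1]
    exact ((unitAtPt_iff hw).1 hQ).2
  refine ⟨⟨P, Q, hQv, hPQ⟩, ?_⟩
  rw [E₁.val_eq hmem hQv hPQ, eval_trans hw h1, eval_trans hw h1, ← hPQ,
    val_mul hw (E₂.regAtPt_gen w u) hQ.regAtPt, E₂.val_gen hw u]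
  exact mul_div_cancel_right₀ _ ((unitAtPt_iff hw).1 hQ).2

theorem exists_compare (G₀ : MvPolynomial (Fin n ⊕ Fin E₂.c) ℂ) (hG₀ : aeval E₂.gen G₀ ≠ 0) :
    ∃ (G : MvPolynomial (Fin n ⊕ Fin E₂.c) ℂ) (hG : aeval E₂.gen G ≠ 0),
      (∀ w, eval w G ≠ 0 → eval w G₀ ≠ 0) ∧ E₁.ring ≤ (E₂.localise G hG).ring ∧
      ∀ w ∈ (E₂.localise G hG).pts,
        (E₂.localise G hG).Same E₁ w (E₁.trans (E₂.localise G hG) w) := by
  classical
  -- the generators of `E₁` as fractions in the generators of `E₂`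
  choose P Q hQ hPQ using fun v => E₂.gen_frac (E₁.gen v)
  -- the generators of `E₂` as fractions in the generators of `E₁`
  choose P' Q' hQ' hPQ' using fun u => E₁.gen_frac (E₂.gen u)
  -- a denominator that makes the `Q' u (gen₁)` units
  obtain ⟨R, hR, hRu⟩ := E₂.exists_common_denominator Finset.univ (fun u => aeval E₁.gen (Q' u))
  have hG : aeval E₂.gen (G₀ * (∏ v, Q v) * R) ≠ 0 := by
    rw [map_mul, map_mul, map_prod]
    exact mul_ne_zero (mul_ne_zero hG₀ (Finset.prod_ne_zero_iff.2 fun v _ => hQ v)) hR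
  have hsplit : ∀ w, eval w (G₀ * (∏ v, Q v) * R) ≠ 0 →
      eval w G₀ ≠ 0 ∧ (∀ v, eval w (Q v) ≠ 0) ∧ eval w R ≠ 0 := by
    intro w hw
    rw [map_mul, map_mul, map_prod] at hw
    refine ⟨left_ne_zero_of_mul (left_ne_zero_of_mul hw), fun v => ?_, right_ne_zero_of_mul hw⟩
    exact Finset.prod_ne_zero_iff.1 (right_ne_zero_of_mul (left_ne_zero_of_mul hw)) v
      (Finset.mem_univ v)
  refine ⟨G₀ * (∏ v, Q v) * R, hG, fun w hw => (hsplit w hw).1, ?_, ?_⟩
  · -- inclusion of the rings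
    have hgen : ∀ v, E₁.gen v ∈ (E₂.localise _ hG).ring := by
      intro v
      rw [mem_ring_localise_iff]
      refine ⟨1, G₀ * P v * (∏ v' ∈ Finset.univ.erase v, Q v') * R, ?_⟩
      rw [pow_one, ← Finset.mul_prod_erase Finset.univ Q (Finset.mem_univ v)]
      show aeval E₂.gen _ = _
      simp only [map_mul]
      rw [← hPQ v]
      ring
    rintro _ ⟨p, rfl⟩
    show aeval E₁.gen p ∈ _
    induction p using MvPolynomial.induction_on with
    | C a => rw [aeval_C]; exact Subalgebra.algebraMap_mem _ a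
    | add p q hp hq => rw [map_add]; exact Subalgebra.add_mem _ hp hq
    | mul_X p v hp => rw [map_mul, aeval_X]; exact Subalgebra.mul_mem _ hp (hgen v)
  · intro w hw
    have hs := E₂.same_locPt _ hG hw
    have hw₂ : E₂.toChart.locPt _ w ∈ E₂.pts := E₂.toChart.locPt_mem _ hw
    have hne := E₂.toChart.eval_locPt_ne_zero _ hw
    obtain ⟨-, hne1, hne2⟩ := hsplit _ hne
    have htr : E₁.trans (E₂.localise _ hG) w = E₁.trans E₂ (E₂.toChart.locPt _ w) :=
      funext fun v => (hs (E₁.gen v)).2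
    rw [htr]
    refine hs.trans (anadcmpb_same hw₂ (fun v => ⟨P v, Q v, hne1 v, hPQ v⟩) fun u => ?_)
    exact ⟨P' u, Q' u, hPQ' u, (hRu _ hne2 u (Finset.mem_univ u)).2 (hQ' u)⟩

/-- if `trans` identifies points then `transMap` is injective -/
theorem transMap_injective (h : E₁.ring ≤ E₂.ring)
    (hs : ∀ w ∈ E₂.pts, E₂.Same E₁ w (E₁.trans E₂ w)) : Function.Injective (E₁.transMap E₂ h) := by
  intro w w' hww
  have h1 : E₁.trans E₂ w.1 = E₁.trans E₂ w'.1 := congrArg Subtype.val hww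
  apply Subtype.ext
  funext v
  rw [← E₂.val_gen w.2 v, ← E₂.val_gen w'.2 v, (hs w.1 w.2 _).2, (hs w'.1 w'.2 _).2, h1]

/-! ### 3. change of variables between two charts -/

theorem anad_cmp (E E' : EChart n K) (f : E.pts → ℝ≥0∞) (f' : E'.pts → ℝ≥0∞)
    (h : ∀ (w : E.pts) (w' : E'.pts), E.Same E' w.1 w'.1 →
      f' w' ≤ ENNReal.ofReal (‖E'.val w'.1 (E.jac E')‖ ^ 2) * f w)
    (G₀ : MvPolynomial (Fin n ⊕ Fin E'.c) ℂ) (hG₀ : aeval E'.gen G₀ ≠ 0) :
    ∃ G : MvPolynomial (Fin n ⊕ Fin E'.c) ℂ, aeval E'.gen G ≠ 0 ∧ (∀ w', eval w' G ≠ 0 → eval w' G₀ ≠ 0) ∧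
      ∫⁻ w' in {w' : E'.pts | eval w'.1 G ≠ 0}, f' w' ∂(rdVol E'.pr) ≤ ∫⁻ w, f w ∂(rdVol E.pr) := by
  obtain ⟨G, hG, hGG₀, hring, hsame⟩ := exists_compare E E' G₀ hG₀
  refine ⟨G, hG, hGG₀, ?_⟩
  have hinj := transMap_injective E (E'.localise G hG) hring hsame
  refine le_trans ?_ (lintegral_transMap_le E (E'.localise G hG) hring hinj f)
  rw [← E'.toChart.range_locMap G]
  refine (anad_lintegral_comp_of_isOpenEmbedding E'.isLocalHomeomorph_pr
    (E'.localise G hG).isLocalHomeomorph_pr (E'.toChart.locMap G)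
    (E'.toChart.isOpenEmbedding_locMap G) (fun x => rfl) f').symm.trans_le ?_
  refine lintegral_mono fun w => ?_
  have hs' := E'.same_locPt G hG w.2
  have hs : E.Same E' (E.trans (E'.localise G hG) w.1) (E'.toChart.locPt G w.1) :=
    (hsame w.1 w.2).symm.trans hs'
  have h1 := h (E.transMap (E'.localise G hG) hring w) (E'.toChart.locMap G w) hs
  have h2 : E'.val (E'.toChart.locPt G w.1) (E.jac E')
      = (E'.localise G hG).val w.1 (E.jac (E'.localise G hG)) := ((hs' _).2).symm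
  have h3 : (E'.toChart.locMap G w).1 = E'.toChart.locPt G w.1 := rfl
  rw [h3, h2, ENNReal.ofReal_pow (norm_nonneg _), ofReal_norm] at h1
  exact h1

end EChart

end Claimed.Agent.R242

end
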