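/-
Row 242, package ANAD.  Rat: RATIONALITY of holomorphic functions of polynomial `L²` growth on the points of a chart (weak form:
`H Q = P` with polynomials `P`, `Q`, `Q ≠ 0` in `K`).     Architect: helper286.     No paper.

NO primitive element, NO degree count, NO connectedness.  `W = E.pts`, `pr : W → Cn n`.

 (R1) `exists_proper`   : there are `g ∈ ℂ[z]`, `g ≠ 0`, and `D` with: fibres of `pr` over `Ω₀ = {g ≠ 0}` are finite with `≤ D` points, and
                          `|g(pr w)| ‖w‖ ≤ C (1 + ‖pr w‖²)^M` on `W`.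
        [each `gen v` is a root of `p_v ≠ 0` over `ℂ[z]` (`Alg.exists_poly`, `eval_poly_pt`); `g = ∏ leadingCoeff p_v`; where `g(z) ≠ 0` the polynomial
         `p_v.map (eval z)` has the same degree, is `≠ 0`, and `w v` is one of its roots: `D = ∏ natDegree p_v` (fibre ↪ ∏ roots);
         `Polynomial.IsRoot.norm_lt_cauchyBound`, or directly `|c_d| |x| ≤ |c_d| + ∑_{i<d} |c_i|`  (if `|x| ≥ 1`: divide the equation by `x^(d-1)`);
         coefficients grow polynomially: `anad_poly_norm_le`.]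
 (R2) `Proper.evenly`   : every `z₀ ∈ Ω₀` has an evenly covered ball: finitely many continuous sections which enumerate all fibres.
        [fibre `{w_1..w_r}` finite; disjoint open sheets `U_i ∋ w_i` (T2 + `isLocalHomeomorph_pr`), sections `s_i` on a common ball.  If no smaller ball
         worked there would be `w_k ∉ ⋃ U_i` with `pr w_k → z₀`; by `bound` (and `g(pr w_k) → g(z₀) ≠ 0`) the `w_k` are bounded in the closed set `pts`:
         a subsequence converges to a point of the fibre, which lies in some open `U_i`: contradiction.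
         ALTERNATIVE: Mathlib `IsClosedMap.isEvenlyCovered_of_openPartialHomeomorph` for the restriction of `pr` over `Ω₀`.]
 (R3) `tr H z = ∑_{w ∈ fibre z} H w`; holomorphic on `Ω₀` (`Chart.RdHolo.differentiableOn_section`).
 (R4) `|tr H z|² ≤ D ∑_{fibre} |H|²` (Cauchy-Schwarz) + area formula (`Vol.anad_lintegral_le_of_le_fibre`).
 (R5) `Proper.tr_rational`: `H` holomorphic with `∫ |H|²/(1+‖w‖²)^N < ∞`  ⟹  `g^M tr H` is a polynomial on `Ω₀`.
        [`|g(z)|² (1 + ‖w‖²) ≤ C' (1+‖z‖²)^M'`, so `F = g^N tr H` satisfies `∫_{Ω₀} |F|²/(1+‖z‖²)^(M' N) ≤ D C'^N ∫_W |H|²/(1+‖w‖²)^N`;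
         `rext_zeroSet` (`U = univ`, `h = eval · g`, `anad_poly_frequently_ne`), then `liou_L2` (`{g = 0}` is null: `anad_poly_volume_zeroSet`).]
 (R6) `rat_weak`.  Fix `z₀ ∈ Ω₀`, evenly covered ball `B`, fibre `w_i = s_i z₀`, polynomials `e_i` with `e_i(w_j) = δ_ij` (`anad_exists_separating`).
        By (R5) (common exponent `M`): `g^M tr(e_i e_j) = T_ij`, `g^M tr(H e_j) = t_j` on `Ω₀`, `T_ij, t_j ∈ ℂ[z]`.
        `Q := det T`, `P := ∑_j (adj T · t)_j e_j`  (polynomials in `(z, x)`), `F := H Q - P`.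
        On `B`: with `V(z)_{k i} = e_i(s_k z)`:  `g^M`-multiples of `Vᵀ V` and `Vᵀ h`, `h_k = H(s_k z)`; `anad_cramer` gives `F(s_k z) = 0`.
        For every polynomial `b`: `F b` is again of class `PolyL2`, `g^M' tr(F b)` is a polynomial vanishing on `B`, hence `0`
        (`anad_poly_eq_zero_of_eventually`); so `tr(F b) = 0` on `Ω₀` for all `b`, so `F = 0` over `Ω₀` (`Proper.eq_zero_of_tr_eq_zero`), so `F = 0` on `W`
        (density `anad_null_dense`, continuity).   `Q(z₀) = g(z₀)^(M r) det(V(z₀))² = g(z₀)^(M r) ≠ 0`, so `Q ≠ 0` in `K` (`aeval_zc_ne_zero`).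

LEAVES  ANAD-RAT-A (R1)   ANAD-RAT-B (R2)   ANAD-RAT-C (R3, R4: section 3)   ANAD-RAT-D (section 4: the class `PolyL2`)
        ANAD-RAT-E (R5)   ANAD-RAT-F (section 6: separation, Cramer)   ANAD-RAT-G (R6: `rat_weak`)
-/
import Claimed.Agent.R242.Anad.Null
import Claimed.Agent.R242.SCV.Liou

set_option autoImplicit false

noncomputable section

namespace Claimed.Agent.R242

open MvPolynomial Filter Topology MeasureTheory Metric
open scoped ENNReal

/-- a local homeomorphism with a finite fibre over `z₀` and compact preimage of a closed ball is evenly covered near `z₀` -/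
theorem anad_evenly_aux {X : Type*} [TopologicalSpace X] [T2Space X] {n : ℕ} {p : X → Cn n}
    (hp : IsLocalHomeomorph p) {z₀ : Cn n} (hfin : (p ⁻¹' {z₀}).Finite)
    {δ : ℝ} (hδ : 0 < δ) (hK : IsCompact (p ⁻¹' closedBall z₀ δ)) :
    ∃ ε > 0, ε ≤ δ ∧ ∃ (r : ℕ) (s : Fin r → Cn n → X),
      (∀ i, ContinuousOn (s i) (ball z₀ ε)) ∧
      (∀ i, ∀ z ∈ ball z₀ ε, p (s i z) = z) ∧
      (∀ z ∈ ball z₀ ε, Function.Injective fun i => s i z) ∧
      (∀ z ∈ ball z₀ ε, ∀ w, p w = z → ∃ i, s i z = w) := by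
  classical
  obtain ⟨V, hV, hdisj⟩ := hfin.t2_separation
  have hpc : Continuous p := hp.continuous
  choose e he using hp
  set e' : X → OpenPartialHomeomorph X (Cn n) := fun x => (e x).restrOpen (V x) (hV x).2 with he'
  have hsrc : ∀ x, (e' x).source = (e x).source ∩ V x := fun x => rfl
  have hcoe : ∀ x y, e' x y = p y := fun x y => (congrFun (he x).2 y).symm
  have hself : ∀ x, x ∈ (e' x).source := fun x => ⟨(he x).1, (hV x).1⟩
  set r := hfin.toFinset.card with hr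
  set pt : Fin r → X := fun i => (hfin.toFinset.equivFin.symm i).1 with hpt
  have hpt_mem : ∀ i, p (pt i) = z₀ := by
    intro i
    have := (hfin.toFinset.equivFin.symm i).2
    rw [Set.Finite.mem_toFinset] at this
    exact this
  have hpt_inj : Function.Injective pt := fun i j hij =>
    hfin.toFinset.equivFin.symm.injective (Subtype.ext hij)
  have hpt_surj : ∀ w, p w = z₀ → ∃ i, pt i = w := by
    intro w hw
    refine ⟨hfin.toFinset.equivFin ⟨w, hfin.mem_toFinset.2 hw⟩, ?_⟩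
    simp [hpt]
  set U : Set X := ⋃ i, (e' (pt i)).source with hU
  have hUo : IsOpen U := isOpen_iUnion fun i => (e' (pt i)).open_source
  have hA : IsCompact (p ⁻¹' closedBall z₀ δ \ U) := hK.diff hUo
  have hAimg : IsClosed (p '' (p ⁻¹' closedBall z₀ δ \ U)) := (hA.image hpc).isClosed
  have hz₀ : z₀ ∉ p '' (p ⁻¹' closedBall z₀ δ \ U) := by
    rintro ⟨w, ⟨-, hwU⟩, hw⟩
    obtain ⟨i, rfl⟩ := hpt_surj w hw
    exact hwU (Set.mem_iUnion.2 ⟨i, hself _⟩)
  have htar : ∀ i, z₀ ∈ (e' (pt i)).target := by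
    intro i
    have := (e' (pt i)).map_source (hself (pt i))
    rwa [hcoe, hpt_mem] at this
  have hN : (p '' (p ⁻¹' closedBall z₀ δ \ U))ᶜ ∩ ⋂ i, (e' (pt i)).target ∈ 𝓝 z₀ :=
    Filter.inter_mem (hAimg.isOpen_compl.mem_nhds hz₀)
      (Filter.iInter_mem.2 fun i => (e' (pt i)).open_target.mem_nhds (htar i))
  obtain ⟨ε₀, hε₀, hball⟩ := Metric.mem_nhds_iff.1 hN
  have hsub : ball z₀ (min ε₀ δ) ⊆ ball z₀ ε₀ := ball_subset_ball (min_le_left _ _)
  have hsubδ : ball z₀ (min ε₀ δ) ⊆ closedBall z₀ δ :=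
    (ball_subset_ball (min_le_right _ _)).trans ball_subset_closedBall
  have hzt : ∀ i, ∀ z ∈ ball z₀ (min ε₀ δ), z ∈ (e' (pt i)).target := fun i z hz =>
    Set.mem_iInter.1 (hball (hsub hz)).2 i
  refine ⟨min ε₀ δ, lt_min hε₀ hδ, min_le_right _ _, r, fun i => (e' (pt i)).symm, ?_, ?_, ?_, ?_⟩
  · intro i
    exact (e' (pt i)).continuousOn_symm.mono fun z hz => hzt i z hz
  · intro i z hz
    rw [← hcoe (pt i)]
    exact (e' (pt i)).right_inv (hzt i z hz)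
  · intro z hz i j hij
    by_contra hne
    have h1 : (e' (pt i)).symm z ∈ V (pt i) := ((e' (pt i)).map_target (hzt i z hz)).2
    have h2 : (e' (pt j)).symm z ∈ V (pt j) := ((e' (pt j)).map_target (hzt j z hz)).2
    have hd := hdisj (hpt_mem i) (hpt_mem j) (fun h => hne (hpt_inj h))
    have hij' : (e' (pt i)).symm z = (e' (pt j)).symm z := hij
    rw [hij'] at h1
    exact Set.disjoint_left.1 hd h1 h2
  · intro z hz w hw
    have hwU : w ∈ U := by
      by_contra hwU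
      exact (hball (hsub hz)).1 ⟨w, ⟨by rw [Set.mem_preimage, hw]; exact hsubδ hz, hwU⟩, hw⟩
    obtain ⟨i, hi⟩ := Set.mem_iUnion.1 hwU
    refine ⟨i, ?_⟩
    have := (e' (pt i)).left_inv hi
    rwa [hcoe, hw] at this

/-- Cauchy type bound for a root: `|c_d| |x| ≤ ∑_{i ≤ d} |c_i|` -/
theorem anad_root_bound (q : Polynomial ℂ) (d : ℕ) (hd : q.natDegree ≤ d) {x : ℂ}
    (hx : q.eval x = 0) : ‖q.coeff d‖ * ‖x‖ ≤ ∑ i ∈ Finset.range (d + 1), ‖q.coeff i‖ := by
  have hsingle : ‖q.coeff d‖ ≤ ∑ i ∈ Finset.range (d + 1), ‖q.coeff i‖ :=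
    Finset.single_le_sum (f := fun i => ‖q.coeff i‖) (fun i _ => norm_nonneg _)
      (Finset.mem_range.2 (Nat.lt_succ_self d))
  rcases le_or_gt ‖x‖ 1 with h1 | h1
  · calc ‖q.coeff d‖ * ‖x‖ ≤ ‖q.coeff d‖ * 1 := mul_le_mul_of_nonneg_left h1 (norm_nonneg _)
      _ = ‖q.coeff d‖ := mul_one _
      _ ≤ _ := hsingle
  · rw [Polynomial.eval_eq_sum_range' (Nat.lt_succ_of_le hd), Finset.sum_range_succ] at hx
    have hx' : q.coeff d * x ^ d = - ∑ i ∈ Finset.range d, q.coeff i * x ^ i := by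
      linear_combination hx
    rcases Nat.eq_zero_or_pos d with rfl | hdpos
    · simp only [Finset.range_zero, Finset.sum_empty, neg_zero, pow_zero, mul_one] at hx'
      rw [hx', norm_zero, zero_mul]
      exact Finset.sum_nonneg fun i _ => norm_nonneg _
    · obtain ⟨k, rfl⟩ : ∃ k, d = k + 1 := ⟨d - 1, by omega⟩
      have hxk : 0 < ‖x‖ ^ k := by positivity
      have h2 : ‖q.coeff (k + 1)‖ * ‖x‖ * ‖x‖ ^ k
          ≤ (∑ i ∈ Finset.range (k + 1), ‖q.coeff i‖) * ‖x‖ ^ k := by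
        calc ‖q.coeff (k + 1)‖ * ‖x‖ * ‖x‖ ^ k = ‖q.coeff (k + 1) * x ^ (k + 1)‖ := by
              rw [norm_mul, norm_pow, pow_succ]
              ring
          _ = ‖∑ i ∈ Finset.range (k + 1), q.coeff i * x ^ i‖ := by rw [hx', norm_neg]
          _ ≤ ∑ i ∈ Finset.range (k + 1), ‖q.coeff i * x ^ i‖ := norm_sum_le _ _
          _ ≤ ∑ i ∈ Finset.range (k + 1), ‖q.coeff i‖ * ‖x‖ ^ k := by
              refine Finset.sum_le_sum fun i hi => ?_
              rw [norm_mul, norm_pow]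
              refine mul_le_mul_of_nonneg_left ?_ (norm_nonneg _)
              exact pow_le_pow_right₀ h1.le (Nat.lt_succ_iff.1 (Finset.mem_range.1 hi))
          _ = _ := by rw [Finset.sum_mul]
      have h3 := le_of_mul_le_mul_right h2 hxk
      refine h3.trans ?_
      rw [Finset.sum_range_succ _ (k + 1)]
      linarith [norm_nonneg (q.coeff (k + 1))]

/-- common polynomial growth of a finite family -/
theorem anad_poly_sum_norm_le {σ ι : Type*} [Fintype σ] (s : Finset ι) (P : ι → MvPolynomial σ ℂ) :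
    ∃ (C : ℝ) (M : ℕ), 0 ≤ C ∧ ∀ w : σ → ℂ, ∑ i ∈ s, ‖eval w (P i)‖ ≤ C * (1 + ‖w‖ ^ 2) ^ M := by
  choose C hC hb using fun i => anad_poly_norm_le (P i)
  refine ⟨∑ i ∈ s, C i, ∑ i ∈ s, (P i).totalDegree, Finset.sum_nonneg fun i _ => (hC i).le,
    fun w => ?_⟩
  have h1 : (1 : ℝ) ≤ 1 + ‖w‖ ^ 2 := by nlinarith [sq_nonneg ‖w‖]
  rw [Finset.sum_mul]
  refine Finset.sum_le_sum fun i hi => (hb i w).trans ?_
  refine mul_le_mul_of_nonneg_left ?_ (hC i).le
  exact pow_le_pow_right₀ h1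
    (Finset.single_le_sum (f := fun i => (P i).totalDegree) (fun _ _ => Nat.zero_le _) hi)

namespace EChart

variable {n : ℕ} {K : Type} [Field K] [Algebra ℂ K] (E : EChart n K)

/-! ### 1. (R1) properness over `{g ≠ 0}` -/

/-- `pr` is proper with finite fibres (at most `D` points) over `{g ≠ 0}` -/
structure Proper (g : MvPolynomial (Fin n) ℂ) (D : ℕ) : Prop where
  ne : g ≠ 0
  fin : ∀ z, eval z g ≠ 0 → (E.pr ⁻¹' {z}).Finite ∧ (E.pr ⁻¹' {z}).ncard ≤ D
  bound : ∃ (C : ℝ) (M : ℕ), ∀ w : E.pts,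
    ‖eval (E.pr w) g‖ * ‖w.1‖ ≤ C * (1 + ‖E.pr w‖ ^ 2) ^ M

theorem exists_proper : ∃ (g : MvPolynomial (Fin n) ℂ) (D : ℕ), E.Proper g D := by
  classical
  choose p hp0 hp using fun v => E.exists_poly (E.gen v)
  have hroot : ∀ (w : E.pts) (v : Fin n ⊕ Fin E.c),
      Polynomial.eval (w.1 v) ((p v).map (eval (E.pr w))) = 0 := by
    intro w v
    have h1 : Polynomial.eval₂ (aeval E.zc : MvPolynomial (Fin n) ℂ →ₐ[ℂ] K).toRingHom
        (aeval E.gen (X v : MvPolynomial (Fin n ⊕ Fin E.c) ℂ)) (p v) = 0 := by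
      rw [aeval_X]
      exact hp v
    have := E.eval_poly_pt h1 w.2
    rwa [eval_X] at this
  have hlc : ∀ v, (p v).leadingCoeff ≠ 0 := fun v => Polynomial.leadingCoeff_ne_zero.2 (hp0 v)
  refine ⟨∏ v, (p v).leadingCoeff, ∏ v, (p v).natDegree, ?_, ?_, ?_⟩
  · exact Finset.prod_ne_zero_iff.2 fun v _ => hlc v
  · intro z hz
    rw [map_prod] at hz
    have hz' : ∀ v, eval z (p v).leadingCoeff ≠ 0 := fun v =>
      Finset.prod_ne_zero_iff.1 hz v (Finset.mem_univ v)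
    have hq : ∀ v, (p v).map (eval z) ≠ 0 := by
      intro v h0
      apply hz' v
      have := congrArg (fun r => Polynomial.coeff r (p v).natDegree) h0
      simpa [Polynomial.coeff_map] using this
    set S : Finset (Fin n ⊕ Fin E.c → ℂ) :=
      Fintype.piFinset fun v => ((p v).map (eval z)).roots.toFinset with hS
    have hsub : Subtype.val '' (E.pr ⁻¹' {z}) ⊆ (S : Set (Fin n ⊕ Fin E.c → ℂ)) := by
      rintro _ ⟨w, hw, rfl⟩
      have hw' : E.pr w = z := hw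
      rw [Finset.mem_coe, hS, Fintype.mem_piFinset]
      intro v
      rw [Multiset.mem_toFinset, Polynomial.mem_roots (hq v), Polynomial.IsRoot.def, ← hw']
      exact hroot w v
    have hfinimg : (Subtype.val '' (E.pr ⁻¹' {z})).Finite := S.finite_toSet.subset hsub
    refine ⟨Set.Finite.of_finite_image hfinimg Subtype.val_injective.injOn, ?_⟩
    rw [← Set.ncard_image_of_injective _ Subtype.val_injective]
    refine (Set.ncard_le_ncard hsub S.finite_toSet).trans ?_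
    rw [Set.ncard_coe_finset, hS, Fintype.card_piFinset]
    refine Finset.prod_le_prod' fun v _ => ?_
    exact (Multiset.toFinset_card_le _).trans
      ((Polynomial.card_roots' _).trans Polynomial.natDegree_map_le)
  · set G : (Fin n ⊕ Fin E.c) → MvPolynomial (Fin n) ℂ := fun v =>
      ∏ u ∈ Finset.univ.erase v, (p u).leadingCoeff with hG
    have hgG : ∀ v, ∏ u, (p u).leadingCoeff = (p v).leadingCoeff * G v := fun v =>
      (Finset.mul_prod_erase Finset.univ (fun u => (p u).leadingCoeff) (Finset.mem_univ v)).symm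
    choose C M hC hb using fun v =>
      anad_poly_sum_norm_le (Finset.range ((p v).natDegree + 1)) fun i => G v * (p v).coeff i
    refine ⟨∑ v, C v, ∑ v, M v, fun w => ?_⟩
    have h1 : (1 : ℝ) ≤ 1 + ‖E.pr w‖ ^ 2 := by nlinarith [sq_nonneg ‖E.pr w‖]
    have hR : 0 ≤ (∑ v, C v) * (1 + ‖E.pr w‖ ^ 2) ^ (∑ v, M v) :=
      mul_nonneg (Finset.sum_nonneg fun v _ => hC v) (by positivity)
    rw [← norm_smul, pi_norm_le_iff_of_nonneg hR]
    intro v
    rw [Pi.smul_apply, smul_eq_mul, hgG v, map_mul, norm_mul, norm_mul]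
    have hrb := anad_root_bound ((p v).map (eval (E.pr w))) (p v).natDegree
      Polynomial.natDegree_map_le (hroot w v)
    simp only [Polynomial.coeff_map] at hrb
    have hrb' : ‖eval (E.pr w) (p v).leadingCoeff‖ * ‖w.1 v‖
        ≤ ∑ i ∈ Finset.range ((p v).natDegree + 1), ‖eval (E.pr w) ((p v).coeff i)‖ := hrb
    calc ‖eval (E.pr w) (p v).leadingCoeff‖ * ‖eval (E.pr w) (G v)‖ * ‖w.1 v‖
        = ‖eval (E.pr w) (G v)‖ * (‖eval (E.pr w) (p v).leadingCoeff‖ * ‖w.1 v‖) := by ring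
      _ ≤ ‖eval (E.pr w) (G v)‖ *
          ∑ i ∈ Finset.range ((p v).natDegree + 1), ‖eval (E.pr w) ((p v).coeff i)‖ :=
          mul_le_mul_of_nonneg_left hrb' (norm_nonneg _)
      _ = ∑ i ∈ Finset.range ((p v).natDegree + 1), ‖eval (E.pr w) (G v * (p v).coeff i)‖ := by
          rw [Finset.mul_sum]
          refine Finset.sum_congr rfl fun i _ => ?_
          rw [map_mul, norm_mul]
      _ ≤ C v * (1 + ‖E.pr w‖ ^ 2) ^ M v := hb v (E.pr w)
      _ ≤ (∑ v, C v) * (1 + ‖E.pr w‖ ^ 2) ^ (∑ v, M v) := by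
          refine mul_le_mul ?_ ?_ (by positivity) (Finset.sum_nonneg fun v _ => hC v)
          · exact Finset.single_le_sum (f := C) (fun v _ => hC v) (Finset.mem_univ v)
          · exact pow_le_pow_right₀ h1
              (Finset.single_le_sum (f := M) (fun _ _ => Nat.zero_le _) (Finset.mem_univ v))

variable {E} {g : MvPolynomial (Fin n) ℂ} {D : ℕ}

/-! ### 2. (R2) evenly covered balls -/

theorem Proper.evenly (h : E.Proper g D) {z₀ : Cn n} (hz₀ : eval z₀ g ≠ 0) :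
    ∃ ε > 0, ∃ (r : ℕ) (s : Fin r → Cn n → E.pts),
      (∀ z ∈ ball z₀ ε, eval z g ≠ 0) ∧
      (∀ i, ContinuousOn (s i) (ball z₀ ε)) ∧
      (∀ i, ∀ z ∈ ball z₀ ε, E.pr (s i z) = z) ∧
      (∀ z ∈ ball z₀ ε, Function.Injective fun i => s i z) ∧
      (∀ z ∈ ball z₀ ε, ∀ w, E.pr w = z → ∃ i, s i z = w) := by
  obtain ⟨C, M, hb⟩ := h.bound
  have hm : 0 < ‖eval z₀ g‖ / 2 := by
    have := norm_pos_iff.2 hz₀
    linarith
  have hcont : Continuous fun z : Cn n => ‖eval z g‖ := (MvPolynomial.continuous_eval g).norm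
  have hev : ∀ᶠ z in 𝓝 z₀, ‖eval z₀ g‖ / 2 < ‖eval z g‖ :=
    hcont.continuousAt.eventually (lt_mem_nhds (by linarith))
  obtain ⟨δ', hδ', hδb⟩ := Metric.eventually_nhds_iff_ball.1 hev
  have hδ : 0 < δ' / 2 := by linarith
  have hcb : ∀ z ∈ closedBall z₀ (δ' / 2), ‖eval z₀ g‖ / 2 < ‖eval z g‖ := fun z hz =>
    hδb z (closedBall_subset_ball (by linarith) hz)
  -- compactness
  set R : ℝ := |C| * (1 + (‖z₀‖ + δ' / 2) ^ 2) ^ M / (‖eval z₀ g‖ / 2) with hR
  have hKsub : E.pr ⁻¹' closedBall z₀ (δ' / 2) ⊆ Subtype.val ⁻¹' closedBall (0 : Fin n ⊕ Fin E.c → ℂ) R := by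
    intro w hw
    have hw' : E.pr w ∈ closedBall z₀ (δ' / 2) := hw
    have h1 := hb w
    have h2 := hcb _ hw'
    have h3 : ‖E.pr w‖ ≤ ‖z₀‖ + δ' / 2 := by
      have := mem_closedBall_iff_norm.1 hw'
      calc ‖E.pr w‖ = ‖z₀ + (E.pr w - z₀)‖ := by rw [add_sub_cancel]
        _ ≤ ‖z₀‖ + ‖E.pr w - z₀‖ := norm_add_le _ _
        _ ≤ ‖z₀‖ + δ' / 2 := by linarith
    have h4 : C * (1 + ‖E.pr w‖ ^ 2) ^ M ≤ |C| * (1 + (‖z₀‖ + δ' / 2) ^ 2) ^ M := by
      refine mul_le_mul (le_abs_self C) ?_ (by positivity) (abs_nonneg C)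
      refine pow_le_pow_left₀ (by positivity) ?_ M
      have := pow_le_pow_left₀ (norm_nonneg (E.pr w)) h3 2
      linarith
    rw [Set.mem_preimage, mem_closedBall_zero_iff, hR, le_div_iff₀ hm]
    calc ‖w.1‖ * (‖eval z₀ g‖ / 2) ≤ ‖w.1‖ * ‖eval (E.pr w) g‖ :=
          mul_le_mul_of_nonneg_left h2.le (norm_nonneg _)
      _ = ‖eval (E.pr w) g‖ * ‖w.1‖ := mul_comm _ _
      _ ≤ _ := h1.trans h4
  have hK : IsCompact (E.pr ⁻¹' closedBall z₀ (δ' / 2)) :=
    IsCompact.of_isClosed_subset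
      (E.isClosed_pts.isClosedEmbedding_subtypeVal.isCompact_preimage (isCompact_closedBall 0 R))
      (isClosed_closedBall.preimage E.continuous_pr) hKsub
  obtain ⟨ε, hε, hεδ, r, s, h1, h2, h3, h4⟩ :=
    anad_evenly_aux E.isLocalHomeomorph_pr (h.fin z₀ hz₀).1 hδ hK
  refine ⟨ε, hε, r, s, ?_, h1, h2, h3, h4⟩
  intro z hz h0
  have := hcb z ((ball_subset_ball hεδ).trans ball_subset_closedBall hz)
  rw [h0, norm_zero] at this
  linarith

/-! ### 3. (R3), (R4) traces -/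

variable (E) in
/-- the trace: sum over the fibre of `pr` -/
def tr (H : E.pts → ℂ) (z : Cn n) : ℂ := ∑ᶠ w ∈ E.pr ⁻¹' {z}, H w

theorem tr_eq_sum (H : E.pts → ℂ) {z : Cn n} {r : ℕ} (s : Fin r → E.pts)
    (hs : ∀ i, E.pr (s i) = z) (hinj : Function.Injective s) (hsurj : ∀ w, E.pr w = z → ∃ i, s i = w) :
    E.tr H z = ∑ i, H (s i) := by
  classical
  have hset : E.pr ⁻¹' {z} = ↑(Finset.univ.image s) := by
    ext w
    simp only [Set.mem_preimage, Set.mem_singleton_iff, Finset.coe_image, Finset.coe_univ,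
      Set.image_univ, Set.mem_range]
    constructor
    · intro hw
      exact hsurj w hw
    · rintro ⟨i, rfl⟩
      exact hs i
  unfold tr
  rw [hset, finsum_mem_coe_finset, Finset.sum_image (fun i _ j _ hij => hinj hij)]

theorem tr_sub (h : E.Proper g D) {z : Cn n} (hz : eval z g ≠ 0) (H₁ H₂ : E.pts → ℂ) :
    E.tr (fun w => H₁ w - H₂ w) z = E.tr H₁ z - E.tr H₂ z := by
  exact finsum_mem_sub_distrib H₁ H₂ (h.fin z hz).1

theorem Proper.differentiableOn_tr (h : E.Proper g D) {H : E.pts → ℂ}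
    (hH : RdHolo E.isLocalHomeomorph_pr H) : DifferentiableOn ℂ (E.tr H) {z | eval z g ≠ 0} := by
  intro z₀ hz₀
  obtain ⟨ε, hε, r, s, -, hc, hp, hinj, hsurj⟩ := h.evenly hz₀
  have h1 : DifferentiableOn ℂ (fun z => ∑ i, H (s i z)) (ball z₀ ε) :=
    DifferentiableOn.fun_sum fun i _ =>
      Chart.RdHolo.differentiableOn_section E.toChart hH isOpen_ball (s i) (hc i) (hp i)
  have h2 : DifferentiableAt ℂ (fun z => ∑ i, H (s i z)) z₀ :=
    h1.differentiableAt (isOpen_ball.mem_nhds (mem_ball_self hε))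
  refine (h2.congr_of_eventuallyEq ?_).differentiableWithinAt
  filter_upwards [isOpen_ball.mem_nhds (mem_ball_self hε)] with z hz
  exact tr_eq_sum H (fun i => s i z) (fun i => hp i z hz) (hinj z hz) (hsurj z hz)

theorem Proper.norm_tr_sq_le (h : E.Proper g D) (H : E.pts → ℂ) {z : Cn n} (hz : eval z g ≠ 0) :
    ENNReal.ofReal (‖E.tr H z‖ ^ 2)
      ≤ D * ∑' w : ↥(E.pr ⁻¹' {z}), ENNReal.ofReal (‖H w.1‖ ^ 2) := by
  classical
  obtain ⟨hfin, hcard⟩ := h.fin z hz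
  set F := hfin.toFinset with hF
  have h1 : E.tr H z = ∑ w ∈ F, H w := finsum_mem_eq_finite_toFinset_sum _ hfin
  have h2 : ∀ S : Set E.pts, S = ↑F →
      ∑' w : ↥S, ENNReal.ofReal (‖H w.1‖ ^ 2) = ∑ w ∈ F, ENNReal.ofReal (‖H w‖ ^ 2) := by
    rintro _ rfl
    exact Finset.tsum_subtype' F fun w => ENNReal.ofReal (‖H w‖ ^ 2)
  rw [h2 _ hfin.coe_toFinset.symm, h1, ← ENNReal.ofReal_sum_of_nonneg fun w _ => by positivity]
  have h3 : (F.card : ℝ) ≤ D := by
    rw [hF, ← Set.ncard_eq_toFinset_card _ hfin]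
    exact_mod_cast hcard
  have h4 : ‖∑ w ∈ F, H w‖ ^ 2 ≤ D * ∑ w ∈ F, ‖H w‖ ^ 2 := by
    calc ‖∑ w ∈ F, H w‖ ^ 2 ≤ (∑ w ∈ F, ‖H w‖) ^ 2 := by
          gcongr
          exact norm_sum_le _ _
      _ ≤ F.card * ∑ w ∈ F, ‖H w‖ ^ 2 := sq_sum_le_card_mul_sum_sq
      _ ≤ D * ∑ w ∈ F, ‖H w‖ ^ 2 := by gcongr
  calc ENNReal.ofReal (‖∑ w ∈ F, H w‖ ^ 2)
      ≤ ENNReal.ofReal (D * ∑ w ∈ F, ‖H w‖ ^ 2) := ENNReal.ofReal_le_ofReal h4
    _ = D * ENNReal.ofReal (∑ w ∈ F, ‖H w‖ ^ 2) := by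
        rw [ENNReal.ofReal_mul (Nat.cast_nonneg D), ENNReal.ofReal_natCast]

theorem Proper.lintegral_tr_le (h : E.Proper g D) {H : E.pts → ℂ} (hH : Measurable H)
    (ω : E.pts → ℝ≥0∞) (hω : Measurable ω) (ω₀ : Cn n → ℝ≥0∞) (hω₀ : ∀ w, ω₀ (E.pr w) ≤ ω w) :
    ∫⁻ z in {z | eval z g ≠ 0}, ENNReal.ofReal (‖E.tr H z‖ ^ 2) * ω₀ z
      ≤ D * ∫⁻ w, ENNReal.ofReal (‖H w‖ ^ 2) * ω w ∂(rdVol E.pr) := by
  have hm : Measurable fun w : E.pts => ENNReal.ofReal (‖H w‖ ^ 2) * ω w :=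
    ((hH.norm.pow_const 2).ennreal_ofReal).mul hω
  rw [← lintegral_const_mul _ hm, ← lintegral_indicator (anad_poly_isOpen g).measurableSet]
  refine anad_lintegral_le_of_le_fibre E.isLocalHomeomorph_pr _ _ (hm.const_mul _) fun z => ?_
  by_cases hz : eval z g ≠ 0
  · rw [Set.indicator_of_mem (show z ∈ {z | eval z g ≠ 0} from hz)]
    calc ENNReal.ofReal (‖E.tr H z‖ ^ 2) * ω₀ z
        ≤ (D * ∑' w : ↥(E.pr ⁻¹' {z}), ENNReal.ofReal (‖H w.1‖ ^ 2)) * ω₀ z := by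
          gcongr
          exact h.norm_tr_sq_le H hz
      _ = ∑' w : ↥(E.pr ⁻¹' {z}), D * (ENNReal.ofReal (‖H w.1‖ ^ 2) * ω₀ z) := by
          rw [mul_assoc, ← ENNReal.tsum_mul_right, ENNReal.tsum_mul_left]
      _ ≤ ∑' w : ↥(E.pr ⁻¹' {z}), D * (ENNReal.ofReal (‖H w.1‖ ^ 2) * ω w.1) := by
          refine ENNReal.tsum_le_tsum fun w => ?_
          have hw : E.pr w.1 = z := w.2
          have := hω₀ w.1
          rw [hw] at this
          gcongr
  · rw [Set.indicator_of_notMem (show z ∉ {z | eval z g ≠ 0} from hz)]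
    exact zero_le

/-! ### 4. the class of holomorphic functions of polynomial `L²` growth -/

variable (E) in
/-- holomorphic and `L²` for some polynomial weight -/
def PolyL2 (H : E.pts → ℂ) : Prop :=
  RdHolo E.isLocalHomeomorph_pr H ∧
    ∃ N : ℕ, ∫⁻ w, ENNReal.ofReal (‖H w‖ ^ 2 / (1 + ‖w.1‖ ^ 2) ^ N) ∂(rdVol E.pr) < ⊤

theorem ratD_lintegral_weight_Cn (n : ℕ) :
    ∃ N : ℕ, ∫⁻ z : Cn n, ENNReal.ofReal (1 / (1 + ‖z‖ ^ 2) ^ N) < ⊤ := by
  refine ⟨Module.finrank ℝ (Cn n) + 1, ?_⟩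
  have h := integrable_rpow_neg_one_add_norm_sq (E := Cn n) (μ := volume)
    (r := 2 * ((Module.finrank ℝ (Cn n) + 1 : ℕ) : ℝ)) (by push_cast; linarith [Nat.cast_nonneg (α := ℝ) (Module.finrank ℝ (Cn n))])
  have h2 := h.lintegral_lt_top
  refine lt_of_le_of_lt (le_of_eq ?_) h2
  congr 1
  funext z
  congr 1
  rw [show -(2 * ((Module.finrank ℝ (Cn n) + 1 : ℕ) : ℝ)) / 2
    = -((Module.finrank ℝ (Cn n) + 1 : ℕ) : ℝ) by ring, Real.rpow_neg (by positivity),
    Real.rpow_natCast, one_div]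

theorem ratD_lt_top_of_le {α : Type*} [MeasurableSpace α] {μ : Measure α} {f f₁ : α → ℝ} {c : ℝ}
    (hc : 0 ≤ c) (h : ∀ x, f x ≤ c * f₁ x) (h₁ : ∫⁻ x, ENNReal.ofReal (f₁ x) ∂μ < ⊤) :
    ∫⁻ x, ENNReal.ofReal (f x) ∂μ < ⊤ := by
  calc ∫⁻ x, ENNReal.ofReal (f x) ∂μ
      ≤ ∫⁻ x, ENNReal.ofReal c * ENNReal.ofReal (f₁ x) ∂μ := by
        refine lintegral_mono fun x => ?_
        rw [← ENNReal.ofReal_mul hc]
        exact ENNReal.ofReal_le_ofReal (h x)
    _ = ENNReal.ofReal c * ∫⁻ x, ENNReal.ofReal (f₁ x) ∂μ :=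
        lintegral_const_mul' _ _ ENNReal.ofReal_ne_top
    _ < ⊤ := ENNReal.mul_lt_top ENNReal.ofReal_lt_top h₁

theorem ratD_lt_top_of_le_add {α : Type*} [MeasurableSpace α] {μ : Measure α} {f f₁ f₂ : α → ℝ}
    (h : ∀ x, f x ≤ f₁ x + f₂ x) (hm : Measurable f₁) (h₁ : ∫⁻ x, ENNReal.ofReal (f₁ x) ∂μ < ⊤)
    (h₂ : ∫⁻ x, ENNReal.ofReal (f₂ x) ∂μ < ⊤) : ∫⁻ x, ENNReal.ofReal (f x) ∂μ < ⊤ := by
  calc ∫⁻ x, ENNReal.ofReal (f x) ∂μ
      ≤ ∫⁻ x, (ENNReal.ofReal (f₁ x) + ENNReal.ofReal (f₂ x)) ∂μ := by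
        refine lintegral_mono fun x => ?_
        exact (ENNReal.ofReal_le_ofReal (h x)).trans ENNReal.ofReal_add_le
    _ = ∫⁻ x, ENNReal.ofReal (f₁ x) ∂μ + ∫⁻ x, ENNReal.ofReal (f₂ x) ∂μ :=
        lintegral_add_left hm.ennreal_ofReal _
    _ < ⊤ := ENNReal.add_lt_top.2 ⟨h₁, h₂⟩

theorem ratD_norm_pr_le (w : E.pts) : ‖E.pr w‖ ≤ ‖w.1‖ := by
  rw [pi_norm_le_iff_of_nonneg (norm_nonneg _)]
  intro i
  exact norm_le_pi_norm w.1 (Sum.inl i)

theorem Proper.ratD_tsum_fibre_le (h : E.Proper g D) {z : Cn n} (hz : eval z g ≠ 0)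
    (f : E.pts → ℝ≥0∞) (b : ℝ≥0∞) (hf : ∀ w, E.pr w = z → f w ≤ b) :
    ∑' w : ↥(E.pr ⁻¹' {z}), f w.1 ≤ D * b := by
  classical
  obtain ⟨hfin, hcard⟩ := h.fin z hz
  set F := hfin.toFinset with hF
  have h2 : ∀ S : Set E.pts, S = ↑F → ∑' w : ↥S, f w.1 = ∑ w ∈ F, f w := by
    rintro _ rfl
    exact Finset.tsum_subtype' F f
  rw [h2 _ hfin.coe_toFinset.symm]
  have h3 : F.card ≤ D := by
    rw [hF, ← Set.ncard_eq_toFinset_card _ hfin]
    exact hcard
  calc ∑ w ∈ F, f w ≤ F.card • b :=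
        Finset.sum_le_card_nsmul _ _ _ fun w hw => hf w (by simpa [hF] using hw)
    _ = F.card * b := nsmul_eq_mul _ _
    _ ≤ D * b := by gcongr

variable (E) in
/-- polynomial volume growth -/
theorem lintegral_weight_lt_top :
    ∃ N : ℕ, ∫⁻ w, ENNReal.ofReal (1 / (1 + ‖w.1‖ ^ 2) ^ N) ∂(rdVol E.pr) < ⊤ := by
  obtain ⟨g, D, h⟩ := E.exists_proper
  obtain ⟨N, hN⟩ := ratD_lintegral_weight_Cn n
  refine ⟨N, ?_⟩
  have hm : Measurable fun w : E.pts => ENNReal.ofReal (1 / (1 + ‖w.1‖ ^ 2) ^ N) := by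
    fun_prop
  rw [anad_lintegral_eq_fibre E.isLocalHomeomorph_pr _ hm]
  have hae : ∀ᵐ z : Cn n, eval z g ≠ 0 := by
    rw [ae_iff]
    simpa using anad_poly_volume_zeroSet h.ne
  calc ∫⁻ z, ∑' x : ↥(E.pr ⁻¹' {z}), ENNReal.ofReal (1 / (1 + ‖x.1.1‖ ^ 2) ^ N)
      ≤ ∫⁻ z : Cn n, D * ENNReal.ofReal (1 / (1 + ‖z‖ ^ 2) ^ N) := by
        refine lintegral_mono_ae ?_
        filter_upwards [hae] with z hz
        refine h.ratD_tsum_fibre_le hz (fun w => ENNReal.ofReal (1 / (1 + ‖w.1‖ ^ 2) ^ N)) _ ?_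
        intro w hw
        refine ENNReal.ofReal_le_ofReal ?_
        have h1 := ratD_norm_pr_le w
        rw [hw] at h1
        gcongr
    _ = D * ∫⁻ z : Cn n, ENNReal.ofReal (1 / (1 + ‖z‖ ^ 2) ^ N) :=
        lintegral_const_mul' _ _ (ENNReal.natCast_ne_top D)
    _ < ⊤ := ENNReal.mul_lt_top (ENNReal.natCast_lt_top D) hN

variable (E) in
theorem polyL2_eval (P : MvPolynomial (Fin n ⊕ Fin E.c) ℂ) :
    E.PolyL2 fun w => eval w.1 P := by
  obtain ⟨N₀, hN₀⟩ := E.lintegral_weight_lt_top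
  obtain ⟨C, hC, hb⟩ := anad_poly_norm_le P
  refine ⟨E.rdHolo_eval P, 2 * P.totalDegree + N₀, ?_⟩
  refine ratD_lt_top_of_le (c := C ^ 2) (by positivity) (fun w => ?_) hN₀
  have hB : 0 < 1 + ‖w.1‖ ^ 2 := by positivity
  rw [div_le_iff₀ (by positivity)]
  have e : C ^ 2 * (1 / (1 + ‖w.1‖ ^ 2) ^ N₀) * (1 + ‖w.1‖ ^ 2) ^ (2 * P.totalDegree + N₀)
      = (C * (1 + ‖w.1‖ ^ 2) ^ P.totalDegree) ^ 2 := by
    rw [pow_add, pow_mul']
    field_simp
  rw [e]
  have := hb w.1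
  gcongr

theorem PolyL2.mul_eval {H : E.pts → ℂ} (hH : E.PolyL2 H) (P : MvPolynomial (Fin n ⊕ Fin E.c) ℂ) :
    E.PolyL2 fun w => H w * eval w.1 P := by
  obtain ⟨hh, N, hN⟩ := hH
  obtain ⟨C, hC, hb⟩ := anad_poly_norm_le P
  refine ⟨fun w => (hh w).mul (E.rdHolo_eval P w), N + 2 * P.totalDegree, ?_⟩
  refine ratD_lt_top_of_le (c := C ^ 2) (by positivity) (fun w => ?_) hN
  have hB : 0 < 1 + ‖w.1‖ ^ 2 := by positivity
  rw [div_le_iff₀ (by positivity)]
  have e : C ^ 2 * (‖H w‖ ^ 2 / (1 + ‖w.1‖ ^ 2) ^ N) * (1 + ‖w.1‖ ^ 2) ^ (N + 2 * P.totalDegree)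
      = ‖H w‖ ^ 2 * (C * (1 + ‖w.1‖ ^ 2) ^ P.totalDegree) ^ 2 := by
    rw [pow_add, pow_mul']
    field_simp
  rw [e, norm_mul, mul_pow]
  have := hb w.1
  gcongr

theorem PolyL2.sub {H₁ H₂ : E.pts → ℂ} (h₁ : E.PolyL2 H₁) (h₂ : E.PolyL2 H₂) :
    E.PolyL2 fun w => H₁ w - H₂ w := by
  have hc₁ : Continuous H₁ :=
    RdContDiff.continuous E.isLocalHomeomorph_pr (RdHolo.contDiff E.isLocalHomeomorph_pr h₁.1)
  obtain ⟨hh₁, N₁, hN₁⟩ := h₁
  obtain ⟨hh₂, N₂, hN₂⟩ := h₂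
  refine ⟨fun w => (hh₁ w).sub (hh₂ w), N₁ + N₂, ?_⟩
  have hm : Measurable fun w : E.pts => 2 * (‖H₁ w‖ ^ 2 / (1 + ‖w.1‖ ^ 2) ^ N₁) := by
    have := hc₁.measurable
    fun_prop
  refine ratD_lt_top_of_le_add (f₁ := fun w : E.pts => 2 * (‖H₁ w‖ ^ 2 / (1 + ‖w.1‖ ^ 2) ^ N₁))
    (f₂ := fun w : E.pts => 2 * (‖H₂ w‖ ^ 2 / (1 + ‖w.1‖ ^ 2) ^ N₂)) (fun w => ?_) hm
    (ratD_lt_top_of_le (c := 2) (by norm_num) (fun w => le_rfl) hN₁)
    (ratD_lt_top_of_le (c := 2) (by norm_num) (fun w => le_rfl) hN₂)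
  have hB : 1 ≤ 1 + ‖w.1‖ ^ 2 := by nlinarith [sq_nonneg ‖w.1‖]
  have hB0 : 0 < 1 + ‖w.1‖ ^ 2 := by positivity
  have h1 : ‖H₁ w - H₂ w‖ ^ 2 ≤ 2 * ‖H₁ w‖ ^ 2 + 2 * ‖H₂ w‖ ^ 2 := by
    have := norm_sub_le (H₁ w) (H₂ w)
    nlinarith [sq_nonneg (‖H₁ w‖ - ‖H₂ w‖), norm_nonneg (H₁ w - H₂ w), norm_nonneg (H₁ w),
      norm_nonneg (H₂ w)]
  have h2 : ‖H₁ w‖ ^ 2 / (1 + ‖w.1‖ ^ 2) ^ (N₁ + N₂) ≤ ‖H₁ w‖ ^ 2 / (1 + ‖w.1‖ ^ 2) ^ N₁ := by
    gcongr
    exact Nat.le_add_right _ _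
  have h3 : ‖H₂ w‖ ^ 2 / (1 + ‖w.1‖ ^ 2) ^ (N₁ + N₂) ≤ ‖H₂ w‖ ^ 2 / (1 + ‖w.1‖ ^ 2) ^ N₂ := by
    gcongr
    exact Nat.le_add_left _ _
  calc ‖H₁ w - H₂ w‖ ^ 2 / (1 + ‖w.1‖ ^ 2) ^ (N₁ + N₂)
      ≤ (2 * ‖H₁ w‖ ^ 2 + 2 * ‖H₂ w‖ ^ 2) / (1 + ‖w.1‖ ^ 2) ^ (N₁ + N₂) := by gcongr
    _ = 2 * (‖H₁ w‖ ^ 2 / (1 + ‖w.1‖ ^ 2) ^ (N₁ + N₂))
        + 2 * (‖H₂ w‖ ^ 2 / (1 + ‖w.1‖ ^ 2) ^ (N₁ + N₂)) := by ring
    _ ≤ _ := by linarith

theorem PolyL2.continuous {H : E.pts → ℂ} (hH : E.PolyL2 H) : Continuous H := by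
  exact RdContDiff.continuous E.isLocalHomeomorph_pr (RdHolo.contDiff E.isLocalHomeomorph_pr hH.1)

/-! ### 5. (R5) traces are rational -/

theorem Proper.tr_rational (h : E.Proper g D) {H : E.pts → ℂ} (hH : E.PolyL2 H) :
    ∃ (M : ℕ) (T : MvPolynomial (Fin n) ℂ), ∀ z, eval z g ≠ 0 → eval z g ^ M * E.tr H z = eval z T := by
  have hHc : Continuous H := hH.continuous
  obtain ⟨hh, N, hN⟩ := hH
  obtain ⟨C, M, hb⟩ := h.bound
  obtain ⟨Cg, hCg, hg⟩ := anad_poly_norm_le g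
  set d := g.totalDegree with hd
  set M' := 2 * (d + M) with hM'
  set C' := Cg ^ 2 + C ^ 2 with hC'
  have hC'0 : 0 ≤ C' := by positivity
  set Ω : Set (Cn n) := {z | eval z g ≠ 0} with hΩ
  have hΩm : MeasurableSet Ω := (anad_poly_isOpen g).measurableSet
  -- comparison of the weights
  have hcmp : ∀ w : E.pts,
      ‖eval (E.pr w) g‖ ^ 2 * (1 + ‖w.1‖ ^ 2) ≤ C' * (1 + ‖E.pr w‖ ^ 2) ^ M' := by
    intro w
    have hB : 1 ≤ 1 + ‖E.pr w‖ ^ 2 := by nlinarith [sq_nonneg ‖E.pr w‖]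
    have h1 : ‖eval (E.pr w) g‖ ^ 2 ≤ Cg ^ 2 * (1 + ‖E.pr w‖ ^ 2) ^ M' := by
      calc ‖eval (E.pr w) g‖ ^ 2 ≤ (Cg * (1 + ‖E.pr w‖ ^ 2) ^ d) ^ 2 := by
            have := hg (E.pr w)
            gcongr
        _ = Cg ^ 2 * (1 + ‖E.pr w‖ ^ 2) ^ (2 * d) := by rw [mul_pow, ← pow_mul, mul_comm d 2]
        _ ≤ Cg ^ 2 * (1 + ‖E.pr w‖ ^ 2) ^ M' := by
            gcongr
            omega
    have h2 : (‖eval (E.pr w) g‖ * ‖w.1‖) ^ 2 ≤ C ^ 2 * (1 + ‖E.pr w‖ ^ 2) ^ M' := by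
      calc (‖eval (E.pr w) g‖ * ‖w.1‖) ^ 2 ≤ (C * (1 + ‖E.pr w‖ ^ 2) ^ M) ^ 2 :=
            pow_le_pow_left₀ (by positivity) (hb w) 2
        _ = C ^ 2 * (1 + ‖E.pr w‖ ^ 2) ^ (2 * M) := by rw [mul_pow, ← pow_mul, mul_comm M 2]
        _ ≤ C ^ 2 * (1 + ‖E.pr w‖ ^ 2) ^ M' := by
            gcongr
            omega
    calc ‖eval (E.pr w) g‖ ^ 2 * (1 + ‖w.1‖ ^ 2)
        = ‖eval (E.pr w) g‖ ^ 2 + (‖eval (E.pr w) g‖ * ‖w.1‖) ^ 2 := by ring
      _ ≤ Cg ^ 2 * (1 + ‖E.pr w‖ ^ 2) ^ M' + C ^ 2 * (1 + ‖E.pr w‖ ^ 2) ^ M' := add_le_add h1 h2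
      _ = C' * (1 + ‖E.pr w‖ ^ 2) ^ M' := by rw [hC']; ring
  set ω₀ : Cn n → ℝ≥0∞ := fun z =>
    ENNReal.ofReal ((‖eval z g‖ ^ 2) ^ N / ((1 + ‖z‖ ^ 2) ^ M') ^ N) with hω₀d
  set ω : E.pts → ℝ≥0∞ := fun w => ENNReal.ofReal (C' ^ N / (1 + ‖w.1‖ ^ 2) ^ N) with hωd
  have hωm : Measurable ω := by fun_prop
  have hω₀ : ∀ w, ω₀ (E.pr w) ≤ ω w := by
    intro w
    refine ENNReal.ofReal_le_ofReal ?_
    rw [div_le_div_iff₀ (by positivity) (by positivity), ← mul_pow, ← mul_pow]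
    exact pow_le_pow_left₀ (by positivity) (hcmp w) N
  have hI := h.lintegral_tr_le hHc.measurable ω hωm ω₀ hω₀
  have hfin : ∫⁻ w, ENNReal.ofReal (‖H w‖ ^ 2) * ω w ∂(rdVol E.pr) < ⊤ := by
    have e : ∀ w : E.pts, ENNReal.ofReal (‖H w‖ ^ 2) * ω w
        = ENNReal.ofReal (C' ^ N * (‖H w‖ ^ 2 / (1 + ‖w.1‖ ^ 2) ^ N)) := by
      intro w
      rw [hωd, ← ENNReal.ofReal_mul (by positivity)]
      congr 1
      ring
    simp only [e]
    exact ratD_lt_top_of_le (c := C' ^ N) (by positivity) (fun w => le_rfl) hN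
  set F : Cn n → ℂ := fun z => eval z g ^ N * E.tr H z with hF
  set φ : Cn n → ℝ := fun z => ‖F z‖ ^ 2 / (1 + ‖z‖ ^ 2) ^ (M' * N) with hφ
  have hIF : ∫⁻ z in Ω, ENNReal.ofReal (φ z) < ⊤ := by
    refine lt_of_le_of_lt (le_of_eq ?_)
      (lt_of_le_of_lt hI (ENNReal.mul_lt_top (ENNReal.natCast_lt_top D) hfin))
    congr 1
    funext z
    rw [hω₀d, ← ENNReal.ofReal_mul (by positivity)]
    congr 1
    rw [hφ, hF]
    simp only [norm_mul, norm_pow, mul_pow]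
    rw [← pow_mul, ← pow_mul, ← pow_mul, mul_comm N 2]
    ring
  have hgd : Differentiable ℂ fun z : Cn n => eval z g := fun z =>
    (Chart.hasFDerivAt_eval g z).differentiableAt
  have hset : (Set.univ \ {z : Cn n | eval z g = 0}) = Ω := by
    ext z
    simp [hΩ]
  have hFd : DifferentiableOn ℂ F (Set.univ \ {z : Cn n | eval z g = 0}) := by
    rw [hset]
    exact ((hgd.pow N).differentiableOn).mul (h.differentiableOn_tr hh)
  obtain ⟨F', hF'd, hF'e⟩ := rext_zeroSet isOpen_univ (h := fun z : Cn n => eval z g) (f := F)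
    hgd.differentiableOn (fun x _ => anad_poly_frequently_ne h.ne x) hFd (by
      intro x _ _
      refine ⟨1, one_pos, ?_⟩
      set K : ℝ := (1 + (‖x‖ + 1) ^ 2) ^ (M' * N) with hK
      have hSm : MeasurableSet (ball x 1 \ {z : Cn n | eval z g = 0}) :=
        measurableSet_ball.diff
          (isClosed_eq (Chart.continuous_eval g) continuous_const).measurableSet
      calc ∫⁻ y in ball x 1 \ {z : Cn n | eval z g = 0}, ENNReal.ofReal (‖F y‖ ^ 2)
          ≤ ∫⁻ y in ball x 1 \ {z : Cn n | eval z g = 0},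
              ENNReal.ofReal K * ENNReal.ofReal (φ y) := by
            refine setLIntegral_mono' hSm fun y hy => ?_
            rw [← ENNReal.ofReal_mul (by positivity)]
            refine ENNReal.ofReal_le_ofReal ?_
            have hy1 : ‖y‖ ≤ ‖x‖ + 1 := by
              have h1 : ‖y - x‖ < 1 := by
                have := hy.1
                rwa [mem_ball, dist_eq_norm] at this
              have h2 : ‖y‖ ≤ ‖x‖ + ‖y - x‖ := by
                have := norm_add_le x (y - x)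
                rwa [add_sub_cancel] at this
              linarith
            have hy2 : (1 + ‖y‖ ^ 2) ^ (M' * N) ≤ K := by
              rw [hK]
              gcongr
            rw [hφ]
            show ‖F y‖ ^ 2 ≤ K * (‖F y‖ ^ 2 / (1 + ‖y‖ ^ 2) ^ (M' * N))
            rw [mul_div_assoc', le_div_iff₀ (by positivity), mul_comm K]
            gcongr
        _ ≤ ∫⁻ y in Ω, ENNReal.ofReal K * ENNReal.ofReal (φ y) := by
            refine lintegral_mono_set ?_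
            intro y hy
            exact hy.2
        _ = ENNReal.ofReal K * ∫⁻ y in Ω, ENNReal.ofReal (φ y) :=
            lintegral_const_mul' _ _ ENNReal.ofReal_ne_top
        _ < ⊤ := ENNReal.mul_lt_top ENNReal.ofReal_lt_top hIF)
  have hae : ∀ᵐ z : Cn n, z ∈ Ω := by
    rw [ae_iff]
    simpa [hΩ] using anad_poly_volume_zeroSet h.ne
  have hF'i : ∫⁻ z, ENNReal.ofReal (‖F' z‖ ^ 2 / (1 + ‖z‖ ^ 2) ^ (M' * N)) < ⊤ := by
    rw [← Measure.restrict_eq_self_of_ae_mem hae]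
    refine lt_of_le_of_lt (le_of_eq ?_) hIF
    refine setLIntegral_congr_fun hΩm fun z hz => ?_
    show ENNReal.ofReal (‖F' z‖ ^ 2 / (1 + ‖z‖ ^ 2) ^ (M' * N)) = ENNReal.ofReal (φ z)
    rw [hF'e z (Set.mem_univ z) hz]
  obtain ⟨T, -, hT⟩ := liou_L2 (differentiableOn_univ.1 hF'd) hF'i
  exact ⟨N, T, fun z hz => by rw [← hT z, hF'e z (Set.mem_univ z) hz]⟩

/-- a common exponent for finitely many functions -/
theorem Proper.tr_rational_fin (h : E.Proper g D) {ι : Type*} [Finite ι] {H : ι → E.pts → ℂ}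
    (hH : ∀ i, E.PolyL2 (H i)) :
    ∃ (M : ℕ) (T : ι → MvPolynomial (Fin n) ℂ),
      ∀ i z, eval z g ≠ 0 → eval z g ^ M * E.tr (H i) z = eval z (T i) := by
  classical
  cases nonempty_fintype ι
  choose M T hMT using fun i => h.tr_rational (hH i)
  refine ⟨∑ i, M i, fun i => g ^ (∑ j, M j - M i) * T i, fun i z hz => ?_⟩
  have hle : M i ≤ ∑ j, M j :=
    Finset.single_le_sum (f := M) (fun _ _ => Nat.zero_le _) (Finset.mem_univ i)
  rw [map_mul, map_pow, ← hMT i z hz, ← mul_assoc, ← pow_add, Nat.sub_add_cancel hle]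

end EChart

/-! ### 6. separation of points, Cramer -/

theorem anad_exists_separating {σ : Type*} [Fintype σ] {r : ℕ} (w : Fin r → σ → ℂ)
    (hw : Function.Injective w) :
    ∃ e : Fin r → MvPolynomial σ ℂ, ∀ i j, eval (w j) (e i) = if i = j then 1 else 0 := by
  classical
  have hs : ∀ i j : Fin r, ∃ p : MvPolynomial σ ℂ, i ≠ j → eval (w i) p = 1 ∧ eval (w j) p = 0 := by
    intro i j
    by_cases hij : i = j
    · exact ⟨0, fun h => absurd hij h⟩
    · have : w i ≠ w j := fun h => hij (hw h)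
      obtain ⟨s, hs⟩ := Function.ne_iff.1 this
      refine ⟨C ((w i s - w j s)⁻¹) * (X s - C (w j s)), fun _ => ⟨?_, ?_⟩⟩
      · simp only [map_mul, eval_C, map_sub, eval_X]
        exact inv_mul_cancel₀ (sub_ne_zero.2 hs)
      · simp
  choose p hp using hs
  refine ⟨fun i => ∏ j ∈ Finset.univ.erase i, p i j, fun i j => ?_⟩
  rw [map_prod]
  split_ifs with hij
  · subst hij
    exact Finset.prod_eq_one fun j hj => (hp i j (Finset.ne_of_mem_erase hj).symm).1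
  · exact Finset.prod_eq_zero (Finset.mem_erase.2 ⟨fun h => hij h.symm, Finset.mem_univ j⟩)
      (hp i j hij).2

theorem anad_cramer {r : ℕ} (V : Matrix (Fin r) (Fin r) ℂ) (h : Fin r → ℂ) :
    (V.transpose * V).det • h
      = V.mulVec ((V.transpose * V).adjugate.mulVec (V.transpose.mulVec h)) := by
  rw [Matrix.mulVec_mulVec, Matrix.mulVec_mulVec, Matrix.adjugate_mul_distrib]
  have h1 : V * (V.adjugate * V.transpose.adjugate) * V.transpose
      = (V.transpose * V).det • (1 : Matrix (Fin r) (Fin r) ℂ) := by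
    rw [← Matrix.mul_assoc, Matrix.mul_assoc, Matrix.adjugate_mul, Matrix.mul_adjugate,
      Matrix.det_mul]
    simp [smul_smul]
  rw [h1, Matrix.smul_mulVec, Matrix.one_mulVec]

namespace EChart

variable {n : ℕ} {K : Type} [Field K] [Algebra ℂ K] {E : EChart n K}
  {g : MvPolynomial (Fin n) ℂ} {D : ℕ}

theorem Proper.eq_zero_of_tr_eq_zero (h : E.Proper g D) {z : Cn n} (hz : eval z g ≠ 0)
    (F : E.pts → ℂ)
    (hF : ∀ b : MvPolynomial (Fin n ⊕ Fin E.c) ℂ, E.tr (fun w => F w * eval w.1 b) z = 0) :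
    ∀ w, E.pr w = z → F w = 0 := by
  classical
  have hfin := (h.fin z hz).1
  obtain ⟨r, s, hs⟩ : ∃ (r : ℕ) (s : Fin r → E.pts), Function.Injective s ∧
      Set.range s = E.pr ⁻¹' {z} := by
    have := hfin.fintype
    let e := (Fintype.equivFin ↥(E.pr ⁻¹' {z})).symm
    refine ⟨_, fun i => (e i).1, fun a b hab => e.injective (Subtype.ext hab), ?_⟩
    ext w
    constructor
    · rintro ⟨i, rfl⟩
      exact (e i).2
    · intro hw
      exact ⟨e.symm ⟨w, hw⟩, by simp⟩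
  obtain ⟨hinj, hrange⟩ := hs
  have hpr : ∀ i, E.pr (s i) = z := fun i => by
    have : s i ∈ E.pr ⁻¹' {z} := hrange ▸ Set.mem_range_self i
    exact this
  have hsurj : ∀ w, E.pr w = z → ∃ i, s i = w := fun w hw => by
    have : w ∈ Set.range s := by rw [hrange]; exact hw
    exact this
  obtain ⟨e, he⟩ := anad_exists_separating (fun i => (s i).1)
    (fun a b hab => hinj (Subtype.ext hab))
  intro w hw
  obtain ⟨i, rfl⟩ := hsurj w hw
  have h1 := hF (e i)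
  rw [tr_eq_sum _ s hpr hinj hsurj] at h1
  simp only [he] at h1
  simpa using h1

/-! ### 7. (R6) rationality, weak form -/

/-- the points over `{g ≠ 0}` are dense -/
theorem Proper.anadratg_dense (h : E.Proper g D) : Dense {w : E.pts | eval (E.pr w) g ≠ 0} := by
  have h1 : aeval E.gen (rename Sum.inl g) ≠ 0 := by
    rw [← E.aeval_zc_eq]
    exact E.aeval_zc_ne_zero h.ne
  have h2 := E.anad_null_dense h1
  have e : {w : E.pts | eval w.1 (rename Sum.inl g) ≠ 0} = {w : E.pts | eval (E.pr w) g ≠ 0} := by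
    ext w
    show eval w.1 (rename Sum.inl g) ≠ 0 ↔ eval (E.pr w) g ≠ 0
    rw [E.eval_rename_inl]
    rfl
  rwa [e] at h2

/-- a function of class `PolyL2` that vanishes over a ball of `{g ≠ 0}` vanishes identically -/
theorem Proper.eq_zero_of_eq_zero_over_ball (h : E.Proper g D) {F : E.pts → ℂ} (hF : E.PolyL2 F)
    {z₀ : Cn n} {ε : ℝ} (hε : 0 < ε) (hB : ∀ z ∈ ball z₀ ε, eval z g ≠ 0)
    (h0 : ∀ w, E.pr w ∈ ball z₀ ε → F w = 0) : ∀ w, F w = 0 := by
  -- all traces vanish over `{g ≠ 0}`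
  have htr : ∀ (b : MvPolynomial (Fin n ⊕ Fin E.c) ℂ) (z : Cn n), eval z g ≠ 0 →
      E.tr (fun w => F w * eval w.1 b) z = 0 := by
    intro b z hz
    obtain ⟨M, T, hT⟩ := h.tr_rational (hF.mul_eval b)
    have hT0 : T = 0 := by
      refine anad_poly_eq_zero_of_eventually (z₀ := z₀) ?_
      filter_upwards [ball_mem_nhds z₀ hε] with y hy
      rw [← hT y (hB y hy)]
      have : E.tr (fun w => F w * eval w.1 b) y = 0 := by
        unfold tr
        refine finsum_mem_of_eqOn_zero fun w hw => ?_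
        have hw' : E.pr w = y := hw
        show F w * eval w.1 b = 0
        rw [h0 w (by rw [hw']; exact hy), zero_mul]
      rw [this, mul_zero]
    have h1 := hT z hz
    rw [hT0, map_zero] at h1
    exact (mul_eq_zero.1 h1).resolve_left (pow_ne_zero _ hz)
  have hz0 : ∀ w : E.pts, eval (E.pr w) g ≠ 0 → F w = 0 := fun w hw =>
    h.eq_zero_of_tr_eq_zero hw F (fun b => htr b _ hw) w rfl
  have hfun : F = fun _ => 0 :=
    Continuous.ext_on h.anadratg_dense hF.continuous continuous_const fun w hw => hz0 w hw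
  intro w
  rw [hfun]

end EChart

/-- Cramer's rule in the form `det (W V) h = V adj(W V) W h` -/
theorem anadratg_cramer {r : ℕ} (W V : Matrix (Fin r) (Fin r) ℂ) (h : Fin r → ℂ) :
    (W * V).det • h = V.mulVec ((W * V).adjugate.mulVec (W.mulVec h)) := by
  rw [Matrix.mulVec_mulVec, Matrix.mulVec_mulVec, Matrix.adjugate_mul_distrib]
  have e : V * (V.adjugate * W.adjugate * W) = (W * V).det • (1 : Matrix (Fin r) (Fin r) ℂ) := by
    rw [Matrix.mul_assoc, Matrix.adjugate_mul, Matrix.mul_smul, Matrix.mul_one, Matrix.mul_smul,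
      Matrix.mul_adjugate, smul_smul, Matrix.det_mul]
  rw [Matrix.mul_assoc, e, Matrix.smul_mulVec, Matrix.one_mulVec]

namespace EChart

variable {n : ℕ} {K : Type} [Field K] [Algebra ℂ K] {E : EChart n K}
  {g : MvPolynomial (Fin n) ℂ} {D : ℕ}

/-- the linear algebra over one point `z` whose fibre is enumerated by `s` -/
theorem anadratg_local (H : E.pts → ℂ) {z : Cn n} {r : ℕ} (s : Fin r → E.pts)
    (hs : ∀ i, E.pr (s i) = z) (hinj : Function.Injective s) (hsurj : ∀ w, E.pr w = z → ∃ i, s i = w)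
    (e : Fin r → MvPolynomial (Fin n ⊕ Fin E.c) ℂ) (γ : ℂ)
    (Tm : Matrix (Fin r) (Fin r) (MvPolynomial (Fin n) ℂ)) (t : Fin r → MvPolynomial (Fin n) ℂ)
    (hT : ∀ i j, γ * E.tr (fun w => eval w.1 (e i * e j)) z = eval z (Tm i j))
    (ht : ∀ j, γ * E.tr (fun w => H w * eval w.1 (e j)) z = eval z (t j)) :
    (Tm.map (eval z) = (γ • (Matrix.of fun k i => eval (s k).1 (e i)).transpose)
        * (Matrix.of fun k i => eval (s k).1 (e i))) ∧
    ∀ k, H (s k) * eval z Tm.det = ∑ j, eval z (Tm.adjugate.mulVec t j) * eval (s k).1 (e j) := by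
  set V : Matrix (Fin r) (Fin r) ℂ := Matrix.of fun k i => eval (s k).1 (e i) with hV
  have hA : Tm.map (eval z) = (γ • V.transpose) * V := by
    ext i j
    rw [Matrix.map_apply, ← hT i j, tr_eq_sum _ s hs hinj hsurj, Matrix.mul_apply, Finset.mul_sum]
    refine Finset.sum_congr rfl fun k _ => ?_
    simp only [hV, Matrix.smul_apply, Matrix.transpose_apply, Matrix.of_apply, map_mul, smul_eq_mul]
    ring
  have hb : (eval z) ∘ t = (γ • V.transpose).mulVec fun k => H (s k) := by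
    funext j
    rw [Function.comp_apply, ← ht j, tr_eq_sum _ s hs hinj hsurj, Matrix.mulVec, dotProduct,
      Finset.mul_sum]
    refine Finset.sum_congr rfl fun k _ => ?_
    simp only [hV, Matrix.smul_apply, Matrix.transpose_apply, Matrix.of_apply, smul_eq_mul]
    ring
  refine ⟨hA, fun k => ?_⟩
  have hc := congrFun (anadratg_cramer (γ • V.transpose) V fun k => H (s k)) k
  rw [← hA, ← hb] at hc
  have hdet : eval z Tm.det = (Tm.map (eval z)).det := by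
    rw [RingHom.map_det, RingHom.mapMatrix_apply]
  have hadj : ∀ j, eval z (Tm.adjugate.mulVec t j)
      = ((Tm.map (eval z)).adjugate.mulVec ((eval z) ∘ t)) j := by
    intro j
    rw [RingHom.map_mulVec, ← RingHom.mapMatrix_apply, RingHom.map_adjugate,
      RingHom.mapMatrix_apply]
  rw [hdet, mul_comm]
  simp only [hadj]
  rw [Pi.smul_apply, smul_eq_mul] at hc
  rw [hc, Matrix.mulVec, dotProduct]
  refine Finset.sum_congr rfl fun j _ => ?_
  rw [mul_comm]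
  rfl

theorem rat_weak {H : E.pts → ℂ} (hH : E.PolyL2 H) :
    ∃ P Q : MvPolynomial (Fin n ⊕ Fin E.c) ℂ, aeval E.gen Q ≠ 0 ∧
      ∀ w : E.pts, H w * eval w.1 Q = eval w.1 P := by
  classical
  obtain ⟨g, D, h⟩ := E.exists_proper
  obtain ⟨z₀, hz₀⟩ : ∃ z₀ : Cn n, eval z₀ g ≠ 0 := (anad_poly_dense h.ne).nonempty
  obtain ⟨ε, hε, r, s, hB, -, hpr, hinj, hsurj⟩ := h.evenly hz₀
  have hz₀B : z₀ ∈ ball z₀ ε := mem_ball_self hε
  -- separating polynomials
  obtain ⟨e, he⟩ := anad_exists_separating (fun i => (s i z₀).1)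
    (fun i j hij => hinj z₀ hz₀B (Subtype.ext hij))
  -- the traces are rational, with a common exponent
  obtain ⟨M, T, hT⟩ := h.tr_rational_fin
    (H := fun x : (Fin r × Fin r) ⊕ Fin r =>
      Sum.elim (fun p : Fin r × Fin r => fun w : E.pts => eval w.1 (e p.1 * e p.2))
        (fun j => fun w : E.pts => H w * eval w.1 (e j)) x)
    (by
      rintro (p | j)
      · exact E.polyL2_eval _
      · exact hH.mul_eval _)
  set Tm : Matrix (Fin r) (Fin r) (MvPolynomial (Fin n) ℂ) :=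
    Matrix.of fun i j => T (Sum.inl (i, j)) with hTm
  set t : Fin r → MvPolynomial (Fin n) ℂ := fun j => T (Sum.inr j) with ht
  have hloc := fun (z : Cn n) (hz : z ∈ ball z₀ ε) =>
    anadratg_local H (fun i => s i z) (fun i => hpr i z hz) (hinj z hz) (hsurj z hz) e
      (eval z g ^ M) Tm t (fun i j => hT (Sum.inl (i, j)) z (hB z hz))
      (fun j => hT (Sum.inr j) z (hB z hz))
  refine ⟨∑ j, rename Sum.inl (Tm.adjugate.mulVec t j) * e j, rename Sum.inl Tm.det, ?_, ?_⟩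
  · -- the denominator is not zero
    rw [← E.aeval_zc_eq]
    refine E.aeval_zc_ne_zero fun h0 => ?_
    have h1 := (hloc z₀ hz₀B).1
    have hV : (Matrix.of fun k i => eval (s k z₀).1 (e i)) = (1 : Matrix (Fin r) (Fin r) ℂ) := by
      ext k i
      rw [Matrix.of_apply, he i k, Matrix.one_apply]
      simp only [eq_comm]
    rw [hV, Matrix.transpose_one, Matrix.mul_one] at h1
    have h2 : eval z₀ Tm.det = (Tm.map (eval z₀)).det := by
      rw [RingHom.map_det, RingHom.mapMatrix_apply]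
    rw [h0, map_zero, h1, Matrix.det_smul, Matrix.det_one, mul_one] at h2
    exact pow_ne_zero _ (pow_ne_zero _ hz₀) h2.symm
  · -- the identity
    have hF : E.PolyL2 fun w => H w * eval w.1 (rename Sum.inl Tm.det)
        - eval w.1 (∑ j, rename Sum.inl (Tm.adjugate.mulVec t j) * e j) :=
      (hH.mul_eval _).sub (E.polyL2_eval _)
    have h0 := h.eq_zero_of_eq_zero_over_ball hF hε hB ?_
    · intro w
      exact sub_eq_zero.1 (h0 w)
    · intro w hw
      obtain ⟨k, hk⟩ := hsurj _ hw w rfl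
      have h1 := (hloc _ hw).2 k
      rw [hk] at h1
      rw [sub_eq_zero, E.eval_rename_inl, map_sum]
      refine h1.trans (Finset.sum_congr rfl fun j _ => ?_)
      rw [map_mul, E.eval_rename_inl]
      rfl

end EChart

end Claimed.Agent.R242

end
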