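/-
Row 242, package ANAD.  Reg: REGULARITY: an element of `K` which is `L²` near a point `w₀` of a chart (off a proper subvariety) is regular
at `w₀`.     Architect: helper286.     No paper.

`O = E.localRing w₀ ⊆ K`, `ev : O → ℂ` evaluation at `w₀`, `𝔪 = ker ev`, `ζ_i = z_i - z_i(w₀) ∈ 𝔪`, `c~ (z) = val (sect w₀ z) c` the germ at
`z₀ = pr w₀` of the holomorphic function of `c ∈ O`.

 (G8) `O` is a noetherian local ring  [local: `ev c ≠ 0 → c` unit (`UnitAtPt.inv`), `IsLocalRing.of_isUnit_or_isUnit_one_sub_self`;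
      noetherian: `O` is the localisation of `E.ring` (a quotient of a polynomial ring: `isNoetherianRing_of_surjective`) at the submonoid
      `{a | ev a ≠ 0}`: `IsLocalization.isNoetherianRing`; algebra structure via `Subalgebra.inclusion (E.ring_le_localRing _)`].
 (G8') `anad_krull_dvd`: Krull (`Ideal.iInf_pow_smul_eq_bot_of_isLocalRing` for the module `R ⧸ span {q}`).
 (G4) `𝔪 = (ζ_1, .., ζ_n)`.  Hadamard: a polynomial `P` with `P(w₀) = 0` is `∑_v (X_v - w₀ v) G_v`, and then `G_v(w₀) = (∂_v P)(w₀)`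
      (`anad_hadamard`; existence by `MvPolynomial.induction_on`, or via the substitution `X_v ↦ X_v + w₀ v`).  Applied to `rel i`:
      `∑_l G_{i,inr l}(gen) ξ_l = - ∑_j G_{i,inl j}(gen) ζ_j`, `ξ_l = x_l - x_l(w₀)`; the matrix `A = (G_{i,inr l}(gen))` has entries in `O` and
      `ev (det A) = det (∂ rel_i/∂x_l)(w₀) ≠ 0` (`Chart.eval_jac_ne_zero`), so `det A` is a unit of `O`; multiply by the adjugate.
      A general `c ∈ 𝔪` is `P(gen)/Q(gen)`, `Q(w₀) ≠ 0`, `P(w₀) = 0`; Hadamard for `P`.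
 (G3) `exists_taylor`: induction on `k`:  `c = ev c + ∑ ζ_i c_i`, `c_i = T_i(ζ) + r_i`, `r_i ∈ 𝔪^k`;  `T = C (ev c) + ∑ X_i T_i`.
 (G6) `isBigO_of_mem_pow`: `c ∈ 𝔪 ⟹ c~ = O(‖z - z₀‖)` (analytic, vanishes at `z₀`: `HasFDerivAt.isBigO_sub`); products, sums
      (`Submodule.pow_induction_on_left'`/`Ideal.pow_succ` + `Submodule.mul_induction_on`); elements of `O` are bounded near `z₀`.
      NOTE `(c d)~ = c~ d~` only NEAR `z₀` (`RegAtPt.eventually` + continuity of `sect`).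
 (G5) `anad_poly_eq_zero_of_isBigO`: restrict to complex lines `t ↦ z₀ + t v`.
 (G2) `mem_pow_of_isBigO`: `c = T(ζ) + r`; `T(z - z₀) = c~ - r~ = O(‖z-z₀‖^k)`, so `T = 0`.
 (G7) `anad_exists_taylor_poly`: `HasFPowerSeriesAt.isBigO_sub_partialSum_pow` + `r242_diagPoly`, `r242_eval_diagPoly` (SCV/Liou.lean).
 (G1) `regAtPt_div_of_analytic`: for each `k`: `F = F_k(z - z₀) + O(‖z-z₀‖^k)`; `a - q F_k(ζ) ∈ 𝔪^k` by (G2); Krull: `q ∣ a` in `O`.
 (G0) `anad_reg`: `b Q(gen) = P(gen)`.  Choose the sheet through `w₀` and `ρ > 0` with `sect w₀` analytic on `B = ball z₀ ρ`, a section, with values in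
      `{‖w - w₀‖ < r}` and image open (use `Chart.exists_section`).  `f = P∘s / Q∘s` is holomorphic on `B \ {h = 0}`, `h = (Q G)∘s`; `h` vanishes
      identically near no point of `B` (`anad_null_dense` for `Q G`); `∫_{B \ {h=0}} |f|² ≤ hint` (`lintegral_sheet`, `val_eq`);
      `rext_zeroSet` gives `F` holomorphic on `B` (analytic: `r242_analyticOnNhd_of_differentiableOn`), `P∘s = F Q∘s` on `B` (`r242_eqOn_of_eqOn_off`).

LEAVES  ANAD-REG-A (section 1: G8, G8')    ANAD-REG-B (section 2: G4, Hadamard)    ANAD-REG-C (section 3: G3, G5, G6, G2)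
        ANAD-REG-D (section 4: G7, G1)    ANAD-REG-E (section 5: G0)
-/
import Claimed.Agent.R242.Anad.Null
import Claimed.Agent.R242.SCV.Liou

set_option autoImplicit false

noncomputable section

namespace Claimed.Agent.R242

open MvPolynomial Filter Topology MeasureTheory Metric Asymptotics
open scoped ENNReal

/-! ### 1. the local ring -/

/-- Krull: principal ideals of a noetherian local ring are closed in the `I`-adic topology -/
theorem anad_krull_dvd {R : Type*} [CommRing R] [IsNoetherianRing R] [IsLocalRing R] (I : Ideal R)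
    (hI : I ≠ ⊤) (q a : R) (h : ∀ k : ℕ, ∃ y : R, a - q * y ∈ I ^ k) : q ∣ a := by
  have hbot := Ideal.iInf_pow_smul_eq_bot_of_isLocalRing (M := R ⧸ Ideal.span {q}) I hI
  have hmem : (Ideal.Quotient.mk (Ideal.span {q}) a) ∈
      (⨅ i : ℕ, I ^ i • ⊤ : Submodule R (R ⧸ Ideal.span {q})) := by
    rw [Submodule.mem_iInf]
    intro k
    obtain ⟨y, hy⟩ := h k
    have e : Ideal.Quotient.mk (Ideal.span {q}) a
        = (a - q * y) • (1 : R ⧸ Ideal.span {q}) := by
      rw [Algebra.smul_def, mul_one]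
      change _ = Ideal.Quotient.mk (Ideal.span {q}) (a - q * y)
      rw [Ideal.Quotient.eq]
      have : a - (a - q * y) = q * y := by ring
      rw [this]
      exact Ideal.mul_mem_right _ _ (Ideal.mem_span_singleton_self q)
    rw [e]
    exact Submodule.smul_mem_smul hy Submodule.mem_top
  rw [hbot, Submodule.mem_bot, Ideal.Quotient.eq_zero_iff_mem, Ideal.mem_span_singleton] at hmem
  exact hmem

namespace EChart

variable {n : ℕ} {K : Type} [Field K] [Algebra ℂ K] (E : EChart n K) (w₀ : E.pts)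

/-- evaluation at the point, on the local ring -/
def evHom : ↥(E.localRing w₀.1) →ₐ[ℂ] ℂ where
  toFun c := E.val w₀.1 c.1
  map_one' := E.val_one w₀.2
  map_mul' c d := val_mul w₀.2 c.2 d.2
  map_zero' := E.val_zero w₀.2
  map_add' c d := val_add w₀.2 c.2 d.2
  commutes' c := E.val_algebraMap w₀.2 c

/-- the maximal ideal of the local ring -/
def maxId : Ideal ↥(E.localRing w₀.1) := RingHom.ker (E.evHom w₀)

theorem mem_maxId (c : ↥(E.localRing w₀.1)) : c ∈ E.maxId w₀ ↔ E.val w₀.1 c.1 = 0 := Iff.rfl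

theorem maxId_ne_top : E.maxId w₀ ≠ ⊤ := by
  exact RingHom.ker_ne_top _

theorem isUnit_of_val_ne_zero (c : ↥(E.localRing w₀.1)) (hc : E.val w₀.1 c.1 ≠ 0) : IsUnit c := by
  have hu : E.UnitAtPt w₀.1 c.1 := (unitAtPt_iff w₀.2).2 ⟨c.2, hc⟩
  have h0 : c.1 ≠ 0 := hu.ne_zero w₀.2
  refine IsUnit.of_mul_eq_one (⟨c.1⁻¹, hu.inv.regAtPt⟩ : ↥(E.localRing w₀.1)) ?_
  apply Subtype.ext
  change c.1 * c.1⁻¹ = 1
  exact mul_inv_cancel₀ h0

instance isLocalRing_localRing : IsLocalRing ↥(E.localRing w₀.1) := by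
  refine IsLocalRing.of_isUnit_or_isUnit_one_sub_self fun c => ?_
  by_cases hc : E.val w₀.1 c.1 = 0
  · right
    apply E.isUnit_of_val_ne_zero w₀
    have : E.val w₀.1 (1 - c : ↥(E.localRing w₀.1)).1 = 1 - E.val w₀.1 c.1 := by
      have := map_sub (E.evHom w₀) 1 c
      rw [map_one] at this
      exact this
    rw [this, hc]; simp
  · left
    exact E.isUnit_of_val_ne_zero w₀ c hc

instance isNoetherianRing_ring : IsNoetherianRing ↥E.ring := by
  exact isNoetherianRing_of_surjective (MvPolynomial (Fin n ⊕ Fin E.c) ℂ) ↥E.ring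
    (aeval (R := ℂ) E.gen).rangeRestrict.toRingHom (AlgHom.rangeRestrict_surjective _)

instance isNoetherianRing_localRing : IsNoetherianRing ↥(E.localRing w₀.1) := by
  letI : Algebra ↥E.ring ↥(E.localRing w₀.1) :=
    (Subalgebra.inclusion (E.ring_le_localRing w₀.1)).toRingHom.toAlgebra
  have hmap : ∀ a : ↥E.ring, (algebraMap ↥E.ring ↥(E.localRing w₀.1) a).1 = a.1 := fun a => rfl
  let M : Submonoid ↥E.ring :=
    { carrier := {a | E.val w₀.1 a.1 ≠ 0}
      one_mem' := by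
        change E.val w₀.1 1 ≠ 0
        rw [E.val_one w₀.2]; exact one_ne_zero
      mul_mem' := by
        intro a b ha hb
        change E.val w₀.1 (a.1 * b.1) ≠ 0
        rw [val_mul w₀.2 (E.regAtPt_of_mem_ring _ a.2) (E.regAtPt_of_mem_ring _ b.2)]
        exact mul_ne_zero ha hb }
  haveI : IsLocalization M ↥(E.localRing w₀.1) :=
    { map_units := fun a => E.isUnit_of_val_ne_zero w₀ _ a.2
      surj := by
        intro z
        obtain ⟨P, Q, hQ, hPQ⟩ := z.2
        refine ⟨(⟨aeval E.gen P, ⟨P, rfl⟩⟩, ⟨⟨aeval E.gen Q, ⟨Q, rfl⟩⟩, ?_⟩), ?_⟩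
        · change E.val w₀.1 (aeval E.gen Q) ≠ 0
          rw [E.val_aeval w₀.2]; exact hQ
        · apply Subtype.ext
          exact hPQ
      exists_of_eq := by
        intro x y hxy
        refine ⟨1, ?_⟩
        have : x = y := Subtype.ext (by rw [← hmap x, ← hmap y, hxy])
        rw [this] }
  exact IsLocalization.isNoetherianRing M _ inferInstance

/-! ### 2. the maximal ideal is generated by the coordinates -/

end EChart

/-- existence part of Hadamard's lemma -/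
theorem anadregb_hadamard_ex {σ : Type*} [Fintype σ] (w : σ → ℂ) (P : MvPolynomial σ ℂ) :
    ∃ G : σ → MvPolynomial σ ℂ, P - C (eval w P) = ∑ v, (X v - C (w v)) * G v := by
  classical
  induction P using MvPolynomial.induction_on with
  | C a => exact ⟨0, by simp⟩
  | add p q hp hq =>
    obtain ⟨G₁, h₁⟩ := hp
    obtain ⟨G₂, h₂⟩ := hq
    refine ⟨G₁ + G₂, ?_⟩
    simp only [Pi.add_apply, mul_add, Finset.sum_add_distrib, ← h₁, ← h₂, map_add]
    ring
  | mul_X p s hp =>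
    obtain ⟨G, h⟩ := hp
    refine ⟨fun v => G v * X s + if v = s then C (eval w p) else 0, ?_⟩
    simp only [mul_add, Finset.sum_add_distrib, mul_ite, mul_zero, Finset.sum_ite_eq', Finset.mem_univ,
      if_true, ← mul_assoc, ← Finset.sum_mul, ← h, map_mul, eval_X]
    ring

/-- Hadamard's lemma for polynomials -/
theorem anad_hadamard {σ : Type*} [Fintype σ] (P : MvPolynomial σ ℂ) (w : σ → ℂ) (hP : eval w P = 0) :
    ∃ G : σ → MvPolynomial σ ℂ, P = ∑ v, (X v - C (w v)) * G v ∧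
      ∀ v, eval w (G v) = eval w (pderiv v P) := by
  classical
  obtain ⟨G, hG⟩ := anadregb_hadamard_ex w P
  rw [hP, map_zero, sub_zero] at hG
  refine ⟨G, hG, fun v => ?_⟩
  conv_rhs => rw [hG]
  rw [map_sum, map_sum, Finset.sum_eq_single v]
  · simp
  · intro u _ huv
    simp [pderiv_X_of_ne huv]
  · intro h
    exact absurd (Finset.mem_univ v) h

namespace EChart

variable {n : ℕ} {K : Type} [Field K] [Algebra ℂ K] (E : EChart n K) (w₀ : E.pts)

/-- `ζ_i = z_i - z_i(w₀)` -/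
def zeta (i : Fin n) : ↥(E.localRing w₀.1) :=
  ⟨E.zc i - algebraMap ℂ K (E.pr w₀ i),
    (E.regAtPt_gen w₀.1 (Sum.inl i)).sub (E.regAtPt_algebraMap w₀.1 _)⟩

theorem zeta_mem_maxId (i : Fin n) : E.zeta w₀ i ∈ E.maxId w₀ := by
  rw [mem_maxId]
  show E.val w₀.1 (E.zc i - algebraMap ℂ K (E.pr w₀ i)) = 0
  rw [val_sub w₀.2 (a := E.zc i) (E.regAtPt_gen w₀.1 (Sum.inl i)) (E.regAtPt_algebraMap w₀.1 _),
    E.val_zc w₀.2, E.val_algebraMap w₀.2]
  exact sub_self _

/-- the generators, as elements of the local ring -/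
def anadregbGen (v : Fin n ⊕ Fin E.c) : ↥(E.localRing w₀.1) := ⟨E.gen v, E.regAtPt_gen w₀.1 v⟩

theorem anadregb_coe_aeval (P : MvPolynomial (Fin n ⊕ Fin E.c) ℂ) :
    (aeval (E.anadregbGen w₀) P : ↥(E.localRing w₀.1)).1 = aeval E.gen P :=
  comp_aeval_apply (f := E.anadregbGen w₀) (E.localRing w₀.1).val P

theorem anadregb_ev_aeval (P : MvPolynomial (Fin n ⊕ Fin E.c) ℂ) :
    E.evHom w₀ (aeval (E.anadregbGen w₀) P) = eval w₀.1 P := by
  show E.val w₀.1 (aeval (E.anadregbGen w₀) P : ↥(E.localRing w₀.1)).1 = _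
  rw [anadregb_coe_aeval, E.val_aeval w₀.2]

/-- `ξ_v = gen v - gen v (w₀)` -/
def anadregbXi (v : Fin n ⊕ Fin E.c) : ↥(E.localRing w₀.1) :=
  ⟨E.gen v - algebraMap ℂ K (w₀.1 v), (E.regAtPt_gen w₀.1 v).sub (E.regAtPt_algebraMap w₀.1 _)⟩

theorem anadregb_xi_eq (v : Fin n ⊕ Fin E.c) :
    E.anadregbXi w₀ v = aeval (E.anadregbGen w₀) (X v - C (w₀.1 v)) := by
  apply Subtype.ext
  rw [anadregb_coe_aeval]
  simp [anadregbXi]

theorem anadregb_aeval_hadamard {P : MvPolynomial (Fin n ⊕ Fin E.c) ℂ}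
    {G : Fin n ⊕ Fin E.c → MvPolynomial (Fin n ⊕ Fin E.c) ℂ}
    (hG : P = ∑ v, (X v - C (w₀.1 v)) * G v) :
    aeval (E.anadregbGen w₀) P = ∑ v, E.anadregbXi w₀ v * aeval (E.anadregbGen w₀) (G v) := by
  conv_lhs => rw [hG]
  rw [map_sum]
  exact Finset.sum_congr rfl fun v _ => by rw [map_mul, anadregb_xi_eq]

theorem anadregb_xi_inl_mem (j : Fin n) :
    E.anadregbXi w₀ (Sum.inl j) ∈ Ideal.span (Set.range (E.zeta w₀)) :=
  Ideal.subset_span ⟨j, rfl⟩

theorem anadregb_xi_inr_mem (l : Fin E.c) :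
    E.anadregbXi w₀ (Sum.inr l) ∈ Ideal.span (Set.range (E.zeta w₀)) := by
  classical
  have hex : ∀ i, ∃ G : Fin n ⊕ Fin E.c → MvPolynomial (Fin n ⊕ Fin E.c) ℂ,
      E.rel i = ∑ v, (X v - C (w₀.1 v)) * G v ∧
      ∀ v, eval w₀.1 (G v) = eval w₀.1 (pderiv v (E.rel i)) := fun i =>
    anad_hadamard (E.rel i) w₀.1 (w₀.2 i)
  choose G hG hGd using hex
  obtain ⟨A, hA⟩ : ∃ A : Matrix (Fin E.c) (Fin E.c) ↥(E.localRing w₀.1),
      A = Matrix.of fun i l => aeval (E.anadregbGen w₀) (G i (Sum.inr l)) := ⟨_, rfl⟩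
  -- the determinant is a unit
  have hdet : IsUnit A.det := by
    apply E.isUnit_of_val_ne_zero w₀
    show E.evHom w₀ A.det ≠ 0
    rw [AlgHom.map_det]
    have h1 : (E.evHom w₀).mapMatrix A
        = (eval w₀.1).mapMatrix (Matrix.of fun i j => pderiv (Sum.inr j) (E.rel i)) := by
      ext i l
      simp only [hA, AlgHom.mapMatrix_apply, RingHom.mapMatrix_apply, Matrix.map_apply, Matrix.of_apply]
      rw [anadregb_ev_aeval, hGd]
    rw [h1, ← RingHom.map_det]
    exact E.eval_jac_ne_zero w₀.2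
  -- the linear system
  have hsys : ∀ i, (A.mulVec fun l => E.anadregbXi w₀ (Sum.inr l)) i
      ∈ Ideal.span (Set.range (E.zeta w₀)) := by
    intro i
    have h0 : aeval (E.anadregbGen w₀) (E.rel i) = 0 := by
      apply Subtype.ext
      rw [anadregb_coe_aeval]
      exact (E.gen_ker _).2 (Ideal.subset_span ⟨i, rfl⟩)
    rw [E.anadregb_aeval_hadamard w₀ (hG i), Fintype.sum_sum_type] at h0
    have h2 : (A.mulVec fun l => E.anadregbXi w₀ (Sum.inr l)) i
        = - ∑ j, E.anadregbXi w₀ (Sum.inl j) * aeval (E.anadregbGen w₀) (G i (Sum.inl j)) := by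
      rw [eq_neg_iff_add_eq_zero, add_comm, ← h0]
      congr 1
      simp only [Matrix.mulVec, dotProduct, hA, Matrix.of_apply]
      exact Finset.sum_congr rfl fun l _ => mul_comm _ _
    rw [h2]
    exact Ideal.neg_mem_iff _ |>.2 (Ideal.sum_mem _ fun j _ =>
      Ideal.mul_mem_right _ _ (E.anadregb_xi_inl_mem w₀ j))
  have h3 : A.adjugate.mulVec (A.mulVec fun l => E.anadregbXi w₀ (Sum.inr l))
      = A.det • fun l => E.anadregbXi w₀ (Sum.inr l) := by
    rw [Matrix.mulVec_mulVec, Matrix.adjugate_mul, Matrix.smul_mulVec, Matrix.one_mulVec]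
  have h4 : A.det * E.anadregbXi w₀ (Sum.inr l) ∈ Ideal.span (Set.range (E.zeta w₀)) := by
    have h5 := congrFun h3 l
    simp only [Pi.smul_apply, smul_eq_mul] at h5
    rw [← h5]
    simp only [Matrix.mulVec, dotProduct]
    exact Ideal.sum_mem _ fun i _ => Ideal.mul_mem_left _ _ (hsys i)
  exact (Ideal.unit_mul_mem_iff_mem _ hdet).1 h4

theorem gen_sub_mem_span (v : Fin n ⊕ Fin E.c) :
    (⟨E.gen v - algebraMap ℂ K (w₀.1 v),
      (E.regAtPt_gen w₀.1 v).sub (E.regAtPt_algebraMap w₀.1 _)⟩ : ↥(E.localRing w₀.1))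
      ∈ Ideal.span (Set.range (E.zeta w₀)) := by
  rcases v with j | l
  · exact E.anadregb_xi_inl_mem w₀ j
  · exact E.anadregb_xi_inr_mem w₀ l

theorem maxId_eq_span : E.maxId w₀ = Ideal.span (Set.range (E.zeta w₀)) := by
  refine le_antisymm ?_ ?_
  · intro c hc
    rw [mem_maxId] at hc
    obtain ⟨P, Q, hQ, h⟩ := c.2
    rw [E.val_eq w₀.2 hQ h, div_eq_zero_iff] at hc
    have hP : eval w₀.1 P = 0 := hc.resolve_right hQ
    obtain ⟨G, hG, -⟩ := anad_hadamard P w₀.1 hP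
    have h1 : c * aeval (E.anadregbGen w₀) Q = aeval (E.anadregbGen w₀) P := by
      apply Subtype.ext
      show c.1 * (aeval (E.anadregbGen w₀) Q : ↥(E.localRing w₀.1)).1 = _
      rw [anadregb_coe_aeval, anadregb_coe_aeval, h]
    have hu : IsUnit (aeval (E.anadregbGen w₀) Q : ↥(E.localRing w₀.1)) := by
      apply E.isUnit_of_val_ne_zero w₀
      rw [anadregb_coe_aeval, E.val_aeval w₀.2]
      exact hQ
    rw [← Ideal.mul_unit_mem_iff_mem _ hu, h1, E.anadregb_aeval_hadamard w₀ hG]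
    exact Ideal.sum_mem _ fun v _ => Ideal.mul_mem_right _ _ (E.gen_sub_mem_span w₀ v)
  · rw [Ideal.span_le]
    rintro _ ⟨i, rfl⟩
    exact E.zeta_mem_maxId w₀ i

/-! ### 3. order of vanishing -/

/-- the germ at `pr w₀` of the holomorphic function of `c : K` -/
def fn (c : K) : Cn n → ℂ := fun z => E.val (E.sect w₀ z) c

/-- regularity at `w₀` propagates along the section -/
theorem anadRegC_eventually {c : K} (hc : E.RegAtPt w₀.1 c) :
    ∀ᶠ z in 𝓝 (E.pr w₀), E.RegAtPt (E.sect w₀ z) c := by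
  have hs : ContinuousAt (E.sect w₀) (E.pr w₀) := (E.analyticAt_sect w₀).continuousAt
  have h1 : ∀ᶠ w' in 𝓝 (E.sect w₀ (E.pr w₀)), E.RegAtPt w' c := by
    rw [E.sect_self]
    exact RegAtPt.eventually E hc
  exact hs.eventually h1

theorem fn_add {c d : K} (hc : E.RegAtPt w₀.1 c) (hd : E.RegAtPt w₀.1 d) :
    E.fn w₀ (c + d) =ᶠ[𝓝 (E.pr w₀)] fun z => E.fn w₀ c z + E.fn w₀ d z := by
  filter_upwards [E.anadRegC_eventually w₀ hc, E.anadRegC_eventually w₀ hd] with z h1 h2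
  exact val_add (E.sect_mem w₀ z) h1 h2

theorem fn_sub {c d : K} (hc : E.RegAtPt w₀.1 c) (hd : E.RegAtPt w₀.1 d) :
    E.fn w₀ (c - d) =ᶠ[𝓝 (E.pr w₀)] fun z => E.fn w₀ c z - E.fn w₀ d z := by
  filter_upwards [E.anadRegC_eventually w₀ hc, E.anadRegC_eventually w₀ hd] with z h1 h2
  exact val_sub (E.sect_mem w₀ z) h1 h2

theorem fn_mul {c d : K} (hc : E.RegAtPt w₀.1 c) (hd : E.RegAtPt w₀.1 d) :
    E.fn w₀ (c * d) =ᶠ[𝓝 (E.pr w₀)] fun z => E.fn w₀ c z * E.fn w₀ d z := by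
  filter_upwards [E.anadRegC_eventually w₀ hc, E.anadRegC_eventually w₀ hd] with z h1 h2
  exact val_mul (E.sect_mem w₀ z) h1 h2

theorem fn_aeval_zeta (T : MvPolynomial (Fin n) ℂ) :
    E.fn w₀ (aeval (E.zeta w₀) T : ↥(E.localRing w₀.1)).1
      =ᶠ[𝓝 (E.pr w₀)] fun z => eval (z - E.pr w₀) T := by
  have e : (aeval (E.zeta w₀) T : ↥(E.localRing w₀.1)).1
      = aeval (fun i => E.zc i - algebraMap ℂ K (E.pr w₀ i)) T :=
    comp_aeval_apply (E.zeta w₀) (E.localRing w₀.1).val T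
  rw [e]
  filter_upwards [E.proj_sect w₀] with z hz
  have hreg : ∀ i, E.RegAtPt (E.sect w₀ z) (E.zc i - algebraMap ℂ K (E.pr w₀ i)) := fun i =>
    (E.regAtPt_gen _ (Sum.inl i)).sub (E.regAtPt_algebraMap _ _)
  unfold fn
  rw [val_aeval_of_reg (E.sect_mem w₀ z) hreg]
  congr 2
  funext i
  have hzc : E.RegAtPt (E.sect w₀ z) (E.zc i) := E.regAtPt_gen _ (Sum.inl i)
  rw [val_sub (E.sect_mem w₀ z) hzc (E.regAtPt_algebraMap _ _),
    E.val_zc (E.sect_mem w₀ z), E.val_algebraMap (E.sect_mem w₀ z), hz]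
  rfl

/-- (G3) Taylor expansion modulo `𝔪^k` -/
theorem exists_taylor (k : ℕ) (c : ↥(E.localRing w₀.1)) :
    ∃ T : MvPolynomial (Fin n) ℂ, (∀ γ ∈ T.support, γ.degree < k) ∧
      c - aeval (E.zeta w₀) T ∈ E.maxId w₀ ^ k := by
  classical
  induction k generalizing c with
  | zero =>
    refine ⟨0, fun γ hγ => ?_, ?_⟩
    · simp at hγ
    · rw [pow_zero, Ideal.one_eq_top]
      exact Submodule.mem_top
  | succ k ih =>
    set c₀ : ℂ := E.val w₀.1 c.1 with hc₀
    have h1 : c - algebraMap ℂ _ c₀ ∈ E.maxId w₀ := by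
      rw [mem_maxId]
      have : (c - algebraMap ℂ ↥(E.localRing w₀.1) c₀).1 = c.1 - algebraMap ℂ K c₀ := rfl
      rw [this, val_sub w₀.2 c.2 (E.regAtPt_algebraMap _ _), E.val_algebraMap w₀.2, hc₀, sub_self]
    rw [maxId_eq_span, Ideal.mem_span_range_iff_exists_fun] at h1
    obtain ⟨a, ha⟩ := h1
    choose T hTd hTr using fun i => ih (a i)
    refine ⟨C c₀ + ∑ i, X i * T i, fun γ hγ => ?_, ?_⟩
    · rcases Finset.mem_union.1 (support_add hγ) with h | h
      · have : γ = 0 := by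
          rw [support_C] at h
          split_ifs at h with h0
          · simp at h
          · simpa using h
        rw [this, map_zero]
        exact Nat.succ_pos k
      · obtain ⟨i, -, hi⟩ := Finset.mem_biUnion.1 (support_sum h)
        rw [support_X_mul, Finset.mem_map] at hi
        obtain ⟨γ', hγ', rfl⟩ := hi
        have := hTd i γ' hγ'
        simp only [addLeftEmbedding_apply, map_add, Finsupp.degree_single]
        omega
    · have e : c - aeval (E.zeta w₀) (C c₀ + ∑ i, X i * T i)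
          = ∑ i, E.zeta w₀ i * (a i - aeval (E.zeta w₀) (T i)) := by
        have e1 : c = algebraMap ℂ _ c₀ + ∑ i, a i * E.zeta w₀ i := by
          rw [ha]; ring
        conv_lhs => rw [e1]
        simp only [map_add, map_sum, map_mul, aeval_C, aeval_X, mul_sub, Finset.sum_sub_distrib]
        rw [add_sub_add_left_eq_sub]
        congr 1
        exact Finset.sum_congr rfl (fun i _ => mul_comm _ _)
      rw [e, pow_succ']
      exact Ideal.sum_mem _ (fun i _ => Ideal.mul_mem_mul (E.zeta_mem_maxId w₀ i) (hTr i))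

theorem anadRegC_fn_self (c : K) : E.fn w₀ c (E.pr w₀) = E.val w₀.1 c := by
  unfold fn
  rw [E.sect_self]

/-- (G6) -/
theorem isBigO_of_mem_pow (k : ℕ) (c : ↥(E.localRing w₀.1)) (hc : c ∈ E.maxId w₀ ^ k) :
    E.fn w₀ c.1 =O[𝓝 (E.pr w₀)] fun z => ‖z - E.pr w₀‖ ^ k := by
  induction k generalizing c with
  | zero =>
    simp only [pow_zero]
    exact (E.analyticAt_val_sect w₀ c.2).continuousAt.tendsto.isBigO_one ℝ
  | succ k ih =>
    rw [pow_succ'] at hc
    refine Submodule.mul_induction_on hc (fun m hm d hd => ?_) (fun x y hx hy => ?_)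
    · have h1 : E.fn w₀ m.1 =O[𝓝 (E.pr w₀)] fun z => ‖z - E.pr w₀‖ := by
        have h2 := (E.analyticAt_val_sect w₀ m.2).differentiableAt.isBigO_sub
        have h3 : E.val (E.sect w₀ (E.pr w₀)) m.1 = 0 := by
          rw [E.sect_self]
          exact (E.mem_maxId w₀ m).1 hm
        simp only [h3, sub_zero] at h2
        exact h2.norm_right
      have h4 := h1.mul (ih d hd)
      refine (E.fn_mul w₀ m.2 d.2).trans_isBigO (h4.congr_right (fun z => ?_))
      rw [pow_succ']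
    · exact (E.fn_add w₀ x.2 y.2).trans_isBigO (hx.add hy)

end EChart

/-- a polynomial of degree `< k` in one variable which is `O(|t|^k)` at `0` vanishes -/
theorem anadRegC_poly_eq_zero {q : Polynomial ℂ} {k : ℕ} (hq : q.natDegree < k) (C : ℝ)
    (h : ∀ᶠ t in 𝓝 (0 : ℂ), ‖q.eval t‖ ≤ C * ‖t‖ ^ k) : q = 0 := by
  by_contra hne
  obtain ⟨q₁, hq₁, hnd⟩ := Polynomial.exists_eq_pow_rootMultiplicity_mul_and_not_dvd q hne 0
  set m := Polynomial.rootMultiplicity 0 q with hm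
  rw [map_zero, sub_zero] at hq₁ hnd
  have hq₁0 : q₁ ≠ 0 := by
    rintro rfl
    exact hnd (dvd_zero _)
  have hmk : m < k := by
    have h1 : q.natDegree = m + q₁.natDegree := by
      conv_lhs => rw [hq₁]
      rw [Polynomial.natDegree_X_pow_mul m hq₁0, add_comm]
    omega
  have hev : q₁.eval 0 ≠ 0 := by
    intro h0
    apply hnd
    have := (Polynomial.dvd_iff_isRoot (p := q₁) (a := 0)).2 h0
    rwa [map_zero, sub_zero] at this
  have hle : (fun t : ℂ => ‖q₁.eval t‖) ≤ᶠ[𝓝[≠] 0] fun t => C * ‖t‖ ^ (k - m) := by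
    filter_upwards [nhdsWithin_le_nhds h, self_mem_nhdsWithin] with t ht ht0
    have ht0' : 0 < ‖t‖ ^ m := pow_pos (norm_pos_iff.2 ht0) m
    rw [hq₁, Polynomial.eval_mul, Polynomial.eval_pow, Polynomial.eval_X, norm_mul, norm_pow] at ht
    have e : ‖t‖ ^ k = ‖t‖ ^ m * ‖t‖ ^ (k - m) := by
      rw [← pow_add]; congr 1; omega
    rw [e] at ht
    have : ‖t‖ ^ m * ‖q₁.eval t‖ ≤ ‖t‖ ^ m * (C * ‖t‖ ^ (k - m)) := by
      calc ‖t‖ ^ m * ‖q₁.eval t‖ ≤ C * (‖t‖ ^ m * ‖t‖ ^ (k - m)) := ht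
        _ = _ := by ring
    exact le_of_mul_le_mul_left this ht0'
  have l1 : Tendsto (fun t : ℂ => ‖q₁.eval t‖) (𝓝[≠] 0) (𝓝 ‖q₁.eval 0‖) :=
    ((q₁.continuous.norm).tendsto 0).mono_left nhdsWithin_le_nhds
  have l2 : Tendsto (fun t : ℂ => C * ‖t‖ ^ (k - m)) (𝓝[≠] 0) (𝓝 0) := by
    have hc : Continuous fun t : ℂ => C * ‖t‖ ^ (k - m) := by fun_prop
    have := (hc.tendsto 0).mono_left (nhdsWithin_le_nhds (s := {0}ᶜ))
    simpa [zero_pow (by omega : k - m ≠ 0)] using this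
  have := le_of_tendsto_of_tendsto l1 l2 hle
  exact hev (norm_le_zero_iff.1 this)

theorem anadRegC_eval_line {n : ℕ} (T : MvPolynomial (Fin n) ℂ) (v : Cn n) (t : ℂ) :
    Polynomial.eval t (aeval (fun i => Polynomial.C (v i) * Polynomial.X) T) = eval (t • v) T := by
  induction T using MvPolynomial.induction_on with
  | C a => simp
  | add p q hp hq => simp [hp, hq]
  | mul_X p i hp =>
    rw [map_mul, map_mul, Polynomial.eval_mul, hp, aeval_X, eval_X, Polynomial.eval_mul,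
      Polynomial.eval_C, Polynomial.eval_X, Pi.smul_apply, smul_eq_mul, mul_comm (v i) t]

/-- (G5) -/
theorem anad_poly_eq_zero_of_isBigO {n : ℕ} {T : MvPolynomial (Fin n) ℂ} {k : ℕ} {z₀ : Cn n}
    (hT : ∀ γ ∈ T.support, γ.degree < k)
    (h : (fun z => eval (z - z₀) T) =O[𝓝 z₀] fun z => ‖z - z₀‖ ^ k) : T = 0 := by
  rcases Nat.eq_zero_or_pos k with rfl | hk
  · rw [← MvPolynomial.support_eq_empty]
    exact Finset.eq_empty_of_forall_notMem (fun γ hγ => Nat.not_lt_zero _ (hT γ hγ))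
  have hdeg : T.totalDegree ≤ k - 1 := by
    unfold MvPolynomial.totalDegree
    refine Finset.sup_le (fun γ hγ => ?_)
    have := hT γ hγ
    have e : γ.degree = γ.sum fun _ e => e := rfl
    omega
  refine MvPolynomial.funext (fun v => ?_)
  set q : Polynomial ℂ := aeval (fun i => Polynomial.C (v i) * Polynomial.X) T with hq
  have hqd : q.natDegree < k := by
    have := MvPolynomial.aeval_natDegree_le (n := 1) T hdeg
      (fun i => Polynomial.C (v i) * Polynomial.X)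
      (fun i => (Polynomial.natDegree_C_mul_le _ _).trans Polynomial.natDegree_X_le)
    rw [← hq] at this
    omega
  have htend : Tendsto (fun t : ℂ => z₀ + t • v) (𝓝 0) (𝓝 z₀) := by
    have hc : Continuous fun t : ℂ => z₀ + t • v := by fun_prop
    simpa using hc.tendsto 0
  obtain ⟨c, hc⟩ := (h.comp_tendsto htend).bound
  have hq0 : q = 0 := by
    refine anadRegC_poly_eq_zero hqd (c * ‖v‖ ^ k) ?_
    filter_upwards [hc] with t ht
    simp only [Function.comp_apply, add_sub_cancel_left, norm_pow, norm_norm] at ht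
    rw [norm_smul, mul_pow] at ht
    rw [hq, anadRegC_eval_line]
    calc ‖eval (t • v) T‖ ≤ c * (‖t‖ ^ k * ‖v‖ ^ k) := ht
      _ = _ := by ring
  have := anadRegC_eval_line T v 1
  rw [← hq, hq0, Polynomial.eval_zero, one_smul] at this
  rw [← this, map_zero]

namespace EChart

variable {n : ℕ} {K : Type} [Field K] [Algebra ℂ K] (E : EChart n K) (w₀ : E.pts)

/-- (G2) -/
theorem mem_pow_of_isBigO (k : ℕ) (c : ↥(E.localRing w₀.1))
    (hc : E.fn w₀ c.1 =O[𝓝 (E.pr w₀)] fun z => ‖z - E.pr w₀‖ ^ k) : c ∈ E.maxId w₀ ^ k := by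
  obtain ⟨T, hTd, hTr⟩ := E.exists_taylor w₀ k c
  have h1 := E.isBigO_of_mem_pow w₀ k _ hTr
  have h2 : E.fn w₀ (c - aeval (E.zeta w₀) T : ↥(E.localRing w₀.1)).1
      =ᶠ[𝓝 (E.pr w₀)] fun z => E.fn w₀ c.1 z - eval (z - E.pr w₀) T := by
    filter_upwards [E.fn_sub w₀ c.2 (aeval (E.zeta w₀) T : ↥(E.localRing w₀.1)).2,
      E.fn_aeval_zeta w₀ T] with z hz1 hz2
    rw [← hz2]
    exact hz1
  have h3 : (fun z => eval (z - E.pr w₀) T) =O[𝓝 (E.pr w₀)] fun z => ‖z - E.pr w₀‖ ^ k := by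
    have h4 := hc.sub (h2.symm.trans_isBigO h1)
    refine h4.congr_left (fun z => ?_)
    ring
  have hT0 : T = 0 := anad_poly_eq_zero_of_isBigO hTd h3
  rw [hT0, map_zero, sub_zero] at hTr
  exact hTr

end EChart

/-! ### 4. division -/

/-- (G7) Taylor polynomials of an analytic function -/
theorem anad_exists_taylor_poly {n : ℕ} {F : Cn n → ℂ} {z₀ : Cn n} (hF : AnalyticAt ℂ F z₀) (k : ℕ) :
    ∃ T : MvPolynomial (Fin n) ℂ,
      (fun z => F z - eval (z - z₀) T) =O[𝓝 z₀] fun z => ‖z - z₀‖ ^ k := by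
  obtain ⟨p, hp⟩ := hF
  refine ⟨∑ i ∈ Finset.range k, r242_diagPoly (p i), ?_⟩
  have h1 := hp.isBigO_sub_partialSum_pow k
  have ht : Tendsto (fun z : Cn n => z - z₀) (𝓝 z₀) (𝓝 0) := by
    have : Tendsto (fun z : Cn n => z - z₀) (𝓝 z₀) (𝓝 (z₀ - z₀)) :=
      (continuous_id.sub continuous_const).tendsto z₀
    rwa [sub_self] at this
  have h2 := h1.comp_tendsto ht
  refine h2.congr_left fun z => ?_
  simp only [Function.comp_apply, add_sub_cancel, map_sum, r242_eval_diagPoly,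
    FormalMultilinearSeries.partialSum]

namespace EChart

variable {n : ℕ} {K : Type} [Field K] [Algebra ℂ K] (E : EChart n K) (w₀ : E.pts)

/-- (G1): analytic divisibility implies divisibility in the local ring -/
theorem regAtPt_div_of_analytic {a q : K} (ha : E.RegAtPt w₀.1 a) (hq : E.RegAtPt w₀.1 q)
    (hq0 : q ≠ 0) {F : Cn n → ℂ} (hF : AnalyticAt ℂ F (E.pr w₀))
    (h : ∀ᶠ z in 𝓝 (E.pr w₀), E.fn w₀ a z = F z * E.fn w₀ q z) : E.RegAtPt w₀.1 (a / q) := by
  have hdvd : (⟨q, hq⟩ : ↥(E.localRing w₀.1)) ∣ ⟨a, ha⟩ := by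
    refine anad_krull_dvd (E.maxId w₀) (E.maxId_ne_top w₀) _ _ fun k => ?_
    obtain ⟨T, hT⟩ := anad_exists_taylor_poly hF k
    refine ⟨aeval (E.zeta w₀) T, E.mem_pow_of_isBigO w₀ k _ ?_⟩
    have hy : E.RegAtPt w₀.1 (aeval (E.zeta w₀) T : ↥(E.localRing w₀.1)).1 :=
      (aeval (E.zeta w₀) T : ↥(E.localRing w₀.1)).2
    have hbd : E.fn w₀ q =O[𝓝 (E.pr w₀)] fun _ => (1 : ℝ) :=
      (E.analyticAt_val_sect w₀ hq).continuousAt.isBigO_one ℝ
    have h3 : (fun z => E.fn w₀ q z * (F z - eval (z - E.pr w₀) T))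
        =O[𝓝 (E.pr w₀)] fun z => (1 : ℝ) * ‖z - E.pr w₀‖ ^ k := hbd.mul hT
    simp only [one_mul] at h3
    refine h3.congr' ?_ EventuallyEq.rfl
    change _ =ᶠ[𝓝 (E.pr w₀)] E.fn w₀ (a - q * (aeval (E.zeta w₀) T : ↥(E.localRing w₀.1)).1)
    filter_upwards [h, E.fn_sub w₀ ha (hq.mul hy), E.fn_mul w₀ hq hy, E.fn_aeval_zeta w₀ T]
      with z h1 h2 h4 h5
    rw [h2, h4, h5, h1]
    ring
  obtain ⟨d, hd⟩ := hdvd
  have hd' : a = q * d.1 := congrArg Subtype.val hd
  have : a / q = d.1 := by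
    rw [hd']
    field_simp
  rw [this]
  exact d.2

/-! ### 5. regularity -/

/-- (G0) **REG** -/
theorem anad_reg (b : K) {G : MvPolynomial (Fin n ⊕ Fin E.c) ℂ} (hG : aeval E.gen G ≠ 0)
    (r : ℝ) (hr : 0 < r)
    (hint : ∫⁻ w in {w : E.pts | ‖w.1 - w₀.1‖ < r ∧ eval w.1 G ≠ 0},
      ENNReal.ofReal (‖E.val w.1 b‖ ^ 2) ∂(rdVol E.pr) < ⊤) :
    E.RegAtPt w₀.1 b := by
  obtain ⟨P, Q, hQ, hPQ⟩ := E.gen_frac b
  have hp := E.isLocalHomeomorph_pr
  -- the sheet
  have hVo : IsOpen {w : E.pts | ‖w.1 - w₀.1‖ < r} :=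
    isOpen_lt ((continuous_subtype_val.sub continuous_const).norm) continuous_const
  set e := (rdSheet hp w₀).restrOpen _ hVo with he_def
  have he : IsSheet E.pr e := (isSheet_rdSheet hp w₀).restrOpen _ hVo
  have hes : e.source = (rdSheet hp w₀).source ∩ {w : E.pts | ‖w.1 - w₀.1‖ < r} :=
    (rdSheet hp w₀).restrOpen_source _ hVo
  have hsymm : ∀ z, (e.symm z).1 = E.sect w₀ z := fun z => rfl
  have hw₀s : w₀ ∈ e.source := by
    rw [hes]
    refine ⟨mem_rdSheet_source hp w₀, ?_⟩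
    show ‖w₀.1 - w₀.1‖ < r
    simpa using hr
  have hz₀ : E.pr w₀ ∈ e.target := by
    have := e.map_source hw₀s
    rwa [he] at this
  have hUo : IsOpen e.target := e.open_target
  -- analyticity of the section on the target
  have hsa : AnalyticOnNhd ℂ (E.sect w₀) e.target := by
    intro z hz
    have hy : e.symm z ∈ (hp.localInverseAt w₀).target := by
      have := e.map_target hz
      rw [hes] at this
      exact this.1
    have h1 := rd_localInverseAt_eventuallyEq hp hy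
    have h2 : E.pr (e.symm z) = z := he.apply_symm hz
    have h3 := E.analyticAt_sect (e.symm z)
    rw [h2] at h1 h3
    refine h3.congr ?_
    filter_upwards [h1] with y hy
    show (hp.localInverseAt (e.symm z) y).1 = (hp.localInverseAt w₀ y).1
    rw [hy]
  have hev : ∀ R : MvPolynomial (Fin n ⊕ Fin E.c) ℂ,
      AnalyticOnNhd ℂ (fun z => eval (E.sect w₀ z) R) e.target := fun R z hz =>
    (Chart.analyticOnNhd_eval R _ (Set.mem_univ _)).comp (hsa z hz)
  set h : Cn n → ℂ := fun z => eval (E.sect w₀ z) (Q * G) with hh_def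
  have hhQ : ∀ z, h z ≠ 0 → eval (E.sect w₀ z) Q ≠ 0 := by
    intro z hz h0
    apply hz
    simp only [hh_def, map_mul, h0, zero_mul]
  have hhG : ∀ z, h z ≠ 0 → eval (E.sect w₀ z) G ≠ 0 := by
    intro z hz h0
    apply hz
    simp only [hh_def, map_mul, h0, mul_zero]
  have hhd : DifferentiableOn ℂ h e.target := (hev (Q * G)).differentiableOn
  have hQG : aeval E.gen (Q * G) ≠ 0 := by
    rw [map_mul]
    exact mul_ne_zero hQ hG
  have hh0 : ∀ x ∈ e.target, ∃ᶠ y in 𝓝 x, h y ≠ 0 := by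
    intro x hx
    rw [frequently_iff]
    intro N hN
    obtain ⟨N', hN'N, hN'o, hxN'⟩ := _root_.mem_nhds_iff.1 hN
    have ho : IsOpen (e.source ∩ e ⁻¹' N') := e.isOpen_inter_preimage hN'o
    have hne : (e.source ∩ e ⁻¹' N').Nonempty :=
      ⟨e.symm x, e.map_target hx, by
        show e (e.symm x) ∈ N'
        rw [e.right_inv hx]; exact hxN'⟩
    obtain ⟨w, ⟨hws, hwN⟩, hw⟩ := (E.anad_null_dense hQG).inter_open_nonempty _ ho hne
    refine ⟨e w, hN'N hwN, ?_⟩
    show eval (E.sect w₀ (e w)) (Q * G) ≠ 0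
    rw [← hsymm, e.left_inv hws]
    exact hw
  set f : Cn n → ℂ := fun z => eval (E.sect w₀ z) P / eval (E.sect w₀ z) Q with hf_def
  have hfd : DifferentiableOn ℂ f (e.target \ {z | h z = 0}) := by
    intro z hz
    exact (((hev P z hz.1).div (hev Q z hz.1) (hhQ z hz.2)).differentiableAt).differentiableWithinAt
  have hfval : ∀ z, h z ≠ 0 → E.val (E.sect w₀ z) b = f z := fun z hz =>
    E.val_eq (E.sect_mem w₀ z) (hhQ z hz) hPQ
  -- the integral bound
  have hSo : IsOpen (e.target \ {z | h z = 0}) := by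
    have := hhd.continuousOn.isOpen_inter_preimage hUo (isOpen_compl_singleton (x := (0 : ℂ)))
    have hset : e.target \ {z | h z = 0} = e.target ∩ h ⁻¹' {0}ᶜ := by
      ext z
      simp
    rw [hset]
    exact this
  have hAo : IsOpen {w : E.pts | ‖w.1 - w₀.1‖ < r ∧ eval w.1 G ≠ 0} :=
    hVo.inter (E.anad_isOpen_ne_zero G)
  have hbound : ∫⁻ y in e.target \ {z | h z = 0}, ENNReal.ofReal (‖f y‖ ^ 2) < ⊤ := by
    refine lt_of_le_of_lt ?_ hint
    set A : Set E.pts := {w : E.pts | ‖w.1 - w₀.1‖ < r ∧ eval w.1 G ≠ 0} with hA_def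
    set g : E.pts → ℝ≥0∞ := A.indicator fun w => ENNReal.ofReal (‖E.val w.1 b‖ ^ 2) with hg_def
    calc ∫⁻ y in e.target \ {z | h z = 0}, ENNReal.ofReal (‖f y‖ ^ 2)
        = ∫⁻ y in e.target \ {z | h z = 0}, g (e.symm y) := by
          refine setLIntegral_congr_fun hSo.measurableSet fun z hz => ?_
          have hzA : e.symm z ∈ A := by
            have h1 := e.map_target hz.1
            rw [hes] at h1
            exact ⟨h1.2, hhG z hz.2⟩
          simp only [hg_def, Set.indicator_of_mem hzA]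
          rw [hsymm, hfval z hz.2]
      _ ≤ ∫⁻ y in e.target, g (e.symm y) := lintegral_mono_set Set.sdiff_subset
      _ = ∫⁻ w in e.source, g w ∂(rdVol E.pr) := (lintegral_sheet hp he g).symm
      _ ≤ ∫⁻ w, g w ∂(rdVol E.pr) := setLIntegral_le_lintegral _ _
      _ = ∫⁻ w in A, ENNReal.ofReal (‖E.val w.1 b‖ ^ 2) ∂(rdVol E.pr) :=
          lintegral_indicator hAo.measurableSet _
  have hi : ∀ x ∈ e.target, h x = 0 →
      ∃ r' > 0, ∫⁻ y in ball x r' \ {z | h z = 0}, ENNReal.ofReal (‖f y‖ ^ 2) < ⊤ := by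
    intro x hx _
    obtain ⟨r', hr', hb⟩ := Metric.isOpen_iff.1 hUo x hx
    exact ⟨r', hr', lt_of_le_of_lt (lintegral_mono_set (Set.sdiff_subset_sdiff_left hb)) hbound⟩
  obtain ⟨F, hFd, hFf⟩ := rext_zeroSet hUo hhd hh0 hfd hi
  have hFa : AnalyticAt ℂ F (E.pr w₀) := r242_analyticOnNhd_of_differentiableOn hUo hFd _ hz₀
  have heq : Set.EqOn (fun z => eval (E.sect w₀ z) P) (fun z => F z * eval (E.sect w₀ z) Q)
      e.target := by
    refine r242_eqOn_of_eqOn_off hUo hh0 (hev P).continuousOn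
      (hFd.continuousOn.mul (hev Q).continuousOn) fun x hx hhx => ?_
    show eval (E.sect w₀ x) P = F x * eval (E.sect w₀ x) Q
    rw [hFf x hx hhx, hf_def]
    exact (div_mul_cancel₀ _ (hhQ x hhx)).symm
  have hb : b = aeval E.gen P / aeval E.gen Q := eq_div_of_mul_eq hQ hPQ
  rw [hb]
  refine E.regAtPt_div_of_analytic w₀ (E.regAtPt_aeval _ P) (E.regAtPt_aeval _ Q) hQ hFa ?_
  filter_upwards [hUo.mem_nhds hz₀] with z hz
  show E.val (E.sect w₀ z) (aeval E.gen P) = F z * E.val (E.sect w₀ z) (aeval E.gen Q)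
  rw [E.val_aeval (E.sect_mem w₀ z), E.val_aeval (E.sect_mem w₀ z)]
  exact heq hz

end EChart

end Claimed.Agent.R242

end
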