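/-
Row 242, package ANAD.  Glob: strong form of RAT, and the all-in-one theorem GLOBAL for the lifts.     Architect: helper286.     No paper.

LEAVES  ANAD-GLOB-A : `anad_rat`      ANAD-GLOB-B : `anad_global`

Plan A.  `rat_weak` gives `H Q = P` on `E.pts`, `Q(gen) ≠ 0`;  `a := P(gen)/Q(gen)`.  At a point with `Q(w) ≠ 0`: `RegAtPt`, `val w a = P(w)/Q(w) = H w`
   (`val_eq`).  At an arbitrary `w₀`: `H` is continuous (`PolyL2.continuous`), so bounded by `C` on `{‖w - w₀‖ < r}` for some `r`, which can be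
   chosen with finite `rdVol` (`rdVol_isLocallyFiniteMeasure`); so `∫_{‖w-w₀‖<r, Q ≠ 0} |val w a|² ≤ C² rdVol(..) < ∞`; `anad_reg` (with `G = Q`).
   Value: `anad_val_eq_of_tendsto` with `S = {Q ≠ 0}` (dense: `anad_null_dense`), `F = H`.
Plan B.  `E = (M.echart x).localise g hg`.
   1. `∫ |H|²/(1+‖w‖²)^N ≤ c⁻¹ ∫ |H|² ψ < ∞`; `anad_rat` gives `a`; `h := a / lam x ^ m`, so `h * lam x ^ m = a` (`M.lam_ne`).
   2. Fix `p`, `E' = M.echart p`, `b = h * jac x p * lam p ^ m = a * (lam p / lam x)^m * jac`, `jac = E.jac E'` (`jac_localise_left`, `Model.jac_eq_echart`).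
      `r, c` from `hψ₂`.  `G₀` := common denominator on `E'` of `a`, `lam p / lam x`, `jac` (`exists_common_denominator`).
      `f w = ofReal ‖H w‖² * ψ w`,   `f' w' = if ‖w' - base p‖ < r ∧ G₀(w') ≠ 0 then ofReal (c ‖E'.val w' b‖²) else 0`.
      For `Same` points: `E'.val w' a = E.val w a = H w`, `E'.val w' (lam p/lam x) = E.val w (lam p/lam x)`, multiplicativity of `E'.val w'` on regular elements:
      `c ‖E'.val w' b‖² = ‖jac‖² ‖H w‖² (c ‖val w (lam p/lam x)‖^(2m)) ≤ ‖jac‖² f w`.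
      `anad_cmp` gives `G` with `{G ≠ 0} ⊆ {G₀ ≠ 0}` and `∫_{G ≠ 0} f' ≤ ∫ f < ∞`; hence `∫_{‖w'-base p‖<r, G ≠ 0} ofReal ‖E'.val w' b‖² < ∞`; `anad_reg` at `w₀ = base p`.
-/
import Claimed.Agent.R242.Anad.Cmp
import Claimed.Agent.R242.Anad.Rat
import Claimed.Agent.R242.Anad.Reg

set_option autoImplicit false

namespace Claimed.Agent.R242

open MvPolynomial Filter Topology MeasureTheory
open scoped ENNReal

namespace EChart

variable {n : ℕ} {K : Type} [Field K] [Algebra ℂ K] (E : EChart n K)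

/-- the punctured ball of `anad_reg` is an open set -/
theorem anad_glob_isOpen (w₀ : E.pts) (r : ℝ) (G : MvPolynomial (Fin n ⊕ Fin E.c) ℂ) :
    IsOpen {w : E.pts | ‖w.1 - w₀.1‖ < r ∧ eval w.1 G ≠ 0} := by
  refine IsOpen.inter ?_ (E.anad_isOpen_ne_zero G)
  exact isOpen_lt ((continuous_subtype_val.sub continuous_const).norm) continuous_const

/-- **RAT**, strong form -/
theorem anad_rat (H : E.pts → ℂ) (hH : RdHolo E.isLocalHomeomorph_pr H) (N : ℕ)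
    (hint : ∫⁻ w, ENNReal.ofReal (‖H w‖ ^ 2 / (1 + ‖w.1‖ ^ 2) ^ N) ∂(rdVol E.pr) < ⊤) :
    ∃ a : K, ∀ w : E.pts, E.RegAtPt w.1 a ∧ E.val w.1 a = H w := by
  have hP2 : E.PolyL2 H := ⟨hH, N, hint⟩
  obtain ⟨P, Q, hQ, hPQ⟩ := rat_weak hP2
  have hcont : Continuous H := hP2.continuous
  have ha : (aeval E.gen P / aeval E.gen Q) * aeval E.gen Q = aeval E.gen P := div_mul_cancel₀ _ hQ
  have hval : ∀ w : E.pts, eval w.1 Q ≠ 0 → E.val w.1 (aeval E.gen P / aeval E.gen Q) = H w := by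
    intro w hw
    rw [E.val_eq w.2 hw ha, ← hPQ w, mul_div_cancel_right₀ _ hw]
  have hreg : ∀ w₀ : E.pts, E.RegAtPt w₀.1 (aeval E.gen P / aeval E.gen Q) := by
    intro w₀
    have hlf := rdVol_isLocallyFiniteMeasure E.isLocalHomeomorph_pr
    obtain ⟨U, hU, hUfin⟩ := (rdVol E.pr).finiteAt_nhds w₀
    have hV : {w : E.pts | ‖H w‖ < ‖H w₀‖ + 1} ∈ 𝓝 w₀ :=
      (isOpen_lt hcont.norm continuous_const).mem_nhds (by simp)
    obtain ⟨r, hr, hball⟩ := Metric.mem_nhds_iff.1 (Filter.inter_mem hU hV)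
    have hsub : {w : E.pts | ‖w.1 - w₀.1‖ < r ∧ eval w.1 Q ≠ 0} ⊆ U ∩ {w : E.pts | ‖H w‖ < ‖H w₀‖ + 1} := by
      intro w hw
      apply hball
      rw [Metric.mem_ball, Subtype.dist_eq, dist_eq_norm]
      exact hw.1
    refine E.anad_reg w₀ _ hQ r hr ?_
    calc ∫⁻ w in {w : E.pts | ‖w.1 - w₀.1‖ < r ∧ eval w.1 Q ≠ 0},
          ENNReal.ofReal (‖E.val w.1 (aeval E.gen P / aeval E.gen Q)‖ ^ 2) ∂(rdVol E.pr)
        ≤ ∫⁻ _ in {w : E.pts | ‖w.1 - w₀.1‖ < r ∧ eval w.1 Q ≠ 0},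
          ENNReal.ofReal ((‖H w₀‖ + 1) ^ 2) ∂(rdVol E.pr) := by
          refine setLIntegral_mono' (E.anad_glob_isOpen w₀ r Q).measurableSet (fun w hw => ?_)
          apply ENNReal.ofReal_le_ofReal
          rw [hval w hw.2]
          have h1 : ‖H w‖ < ‖H w₀‖ + 1 := (hsub hw).2
          have h0 := norm_nonneg (H w)
          gcongr
      _ = ENNReal.ofReal ((‖H w₀‖ + 1) ^ 2) *
          rdVol E.pr {w : E.pts | ‖w.1 - w₀.1‖ < r ∧ eval w.1 Q ≠ 0} := setLIntegral_const _ _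
      _ < ⊤ := ENNReal.mul_lt_top ENNReal.ofReal_lt_top
          (lt_of_le_of_lt (measure_mono (hsub.trans Set.inter_subset_left)) hUfin)
  refine ⟨aeval E.gen P / aeval E.gen Q, fun w₀ => ⟨hreg w₀, ?_⟩⟩
  refine E.anad_val_eq_of_tendsto w₀ (hreg w₀) (S := {w : E.pts | eval w.1 Q ≠ 0}) ?_ (F := H)
    (fun w hw => hval w hw) (hcont.continuousAt.tendsto.mono_left nhdsWithin_le_nhds)
  rw [(E.anad_null_dense hQ).closure_eq]
  exact Set.mem_univ _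

/-- the local part of GLOBAL, for two embedded charts: `b = a ℓ^m jac` is regular at `w₀`. -/
theorem anad_glob_reg (E' : EChart n K) (w₀ : E'.pts) (m : ℕ) (H : E.pts → ℂ) (ψ : E.pts → ℝ≥0∞)
    (hint : ∫⁻ w, ENNReal.ofReal (‖H w‖ ^ 2) * ψ w ∂(rdVol E.pr) < ⊤)
    (a ℓ : K) (ha : ∀ w : E.pts, E.val w.1 a = H w)
    (r c : ℝ) (hr : 0 < r) (hc : 0 < c)
    (hψ : ∀ (w : E.pts) (w' : E'.pts), E.Same E' w.1 w'.1 → ‖w'.1 - w₀.1‖ < r →
      ENNReal.ofReal (c * ‖E.val w.1 ℓ‖ ^ (2 * m)) ≤ ψ w) :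
    E'.RegAtPt w₀.1 (a * ℓ ^ m * E.jac E') := by
  classical
  obtain ⟨G₀, hG₀, hden⟩ := E'.exists_common_denominator (Finset.univ : Finset (Fin 3))
    ![a, ℓ, E.jac E']
  have hra : ∀ w', eval w' G₀ ≠ 0 → E'.RegAtPt w' a := fun w' hw' => (hden w' hw' 0 (Finset.mem_univ _)).1
  have hrl : ∀ w', eval w' G₀ ≠ 0 → E'.RegAtPt w' ℓ := fun w' hw' => (hden w' hw' 1 (Finset.mem_univ _)).1
  have hrj : ∀ w', eval w' G₀ ≠ 0 → E'.RegAtPt w' (E.jac E') :=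
    fun w' hw' => (hden w' hw' 2 (Finset.mem_univ _)).1
  set b : K := a * ℓ ^ m * E.jac E' with hb
  let f : E.pts → ℝ≥0∞ := fun w => ENNReal.ofReal (‖H w‖ ^ 2) * ψ w
  let f' : E'.pts → ℝ≥0∞ := fun w' =>
    if ‖w'.1 - w₀.1‖ < r ∧ eval w'.1 G₀ ≠ 0 then ENNReal.ofReal (c * ‖E'.val w'.1 b‖ ^ 2) else 0
  have hcmp : ∀ (w : E.pts) (w' : E'.pts), E.Same E' w.1 w'.1 →
      f' w' ≤ ENNReal.ofReal (‖E'.val w'.1 (E.jac E')‖ ^ 2) * f w := by
    intro w w' hs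
    by_cases hcond : ‖w'.1 - w₀.1‖ < r ∧ eval w'.1 G₀ ≠ 0
    · have e1 : f' w' = ENNReal.ofReal (c * ‖E'.val w'.1 b‖ ^ 2) := if_pos hcond
      rw [e1]
      have h1 := hra w'.1 hcond.2
      have h2 := hrl w'.1 hcond.2
      have h3 := hrj w'.1 hcond.2
      have ev : E'.val w'.1 b = H w * (E.val w.1 ℓ) ^ m * E'.val w'.1 (E.jac E') := by
        rw [hb, E'.val_mul w'.2 (h1.mul (h2.pow m)) h3, E'.val_mul w'.2 h1 (h2.pow m),
          E'.val_pow w'.2 h2, ← (hs a).2, ← (hs ℓ).2, ha w]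
      have e2 : c * ‖E'.val w'.1 b‖ ^ 2 = ‖E'.val w'.1 (E.jac E')‖ ^ 2 *
          (‖H w‖ ^ 2 * (c * ‖E.val w.1 ℓ‖ ^ (2 * m))) := by
        rw [ev, norm_mul, norm_mul, norm_pow]
        ring
      rw [e2, ENNReal.ofReal_mul (sq_nonneg _), ENNReal.ofReal_mul (sq_nonneg _)]
      exact mul_le_mul_right (mul_le_mul_right (hψ w w' hs hcond.1) _) _
    · have e1 : f' w' = 0 := if_neg hcond
      rw [e1]
      exact zero_le
  obtain ⟨G, hG, hGG₀, hle⟩ := anad_cmp E E' f f' hcmp G₀ hG₀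
  refine E'.anad_reg w₀ b hG r hr ?_
  have hcinv : 0 ≤ c⁻¹ := (inv_pos.2 hc).le
  calc ∫⁻ w' in {w' : E'.pts | ‖w'.1 - w₀.1‖ < r ∧ eval w'.1 G ≠ 0},
        ENNReal.ofReal (‖E'.val w'.1 b‖ ^ 2) ∂(rdVol E'.pr)
      ≤ ∫⁻ w' in {w' : E'.pts | ‖w'.1 - w₀.1‖ < r ∧ eval w'.1 G ≠ 0},
        ENNReal.ofReal c⁻¹ * f' w' ∂(rdVol E'.pr) := by
        refine setLIntegral_mono' (E'.anad_glob_isOpen w₀ r G).measurableSet (fun w' hw' => ?_)
        have e1 : f' w' = ENNReal.ofReal (c * ‖E'.val w'.1 b‖ ^ 2) :=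
          if_pos ⟨hw'.1, hGG₀ _ hw'.2⟩
        rw [e1, ← ENNReal.ofReal_mul hcinv, ← mul_assoc, inv_mul_cancel₀ hc.ne', one_mul]
    _ = ENNReal.ofReal c⁻¹ * ∫⁻ w' in {w' : E'.pts | ‖w'.1 - w₀.1‖ < r ∧ eval w'.1 G ≠ 0},
        f' w' ∂(rdVol E'.pr) := lintegral_const_mul' _ _ ENNReal.ofReal_ne_top
    _ ≤ ENNReal.ofReal c⁻¹ * ∫⁻ w' in {w' : E'.pts | eval w'.1 G ≠ 0}, f' w' ∂(rdVol E'.pr) :=
        mul_le_mul_right (lintegral_mono_set (fun w' hw' => hw'.2)) _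
    _ ≤ ENNReal.ofReal c⁻¹ * ∫⁻ w, f w ∂(rdVol E.pr) := mul_le_mul_right hle _
    _ < ⊤ := ENNReal.mul_lt_top ENNReal.ofReal_lt_top hint

end EChart

namespace Model

variable {n : ℕ} {K : Type} [Field K] [Algebra ℂ K] (M : Model n K)

/-- **GLOBAL** -/
theorem anad_global (x : M.Pt) (g : MvPolynomial (Fin n ⊕ Fin (M.echart x).c) ℂ)
    (hg : aeval (M.echart x).gen g ≠ 0) (m : ℕ)
    (H : ((M.echart x).localise g hg).pts → ℂ)
    (hH : RdHolo ((M.echart x).localise g hg).isLocalHomeomorph_pr H)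
    (ψ : ((M.echart x).localise g hg).pts → ℝ≥0∞)
    (hint : ∫⁻ w, ENNReal.ofReal (‖H w‖ ^ 2) * ψ w ∂(rdVol ((M.echart x).localise g hg).pr) < ⊤)
    (hψ₁ : ∃ (N : ℕ) (c : ℝ), 0 < c ∧ ∀ w : ((M.echart x).localise g hg).pts,
      ENNReal.ofReal (c / (1 + ‖w.1‖ ^ 2) ^ N) ≤ ψ w)
    (hψ₂ : ∀ p : M.Pt, ∃ r > 0, ∃ c > 0, ∀ (w : ((M.echart x).localise g hg).pts) (w' : (M.chart p).pts),
      ((M.echart x).localise g hg).Same (M.echart p) w.1 w'.1 → ‖w'.1 - M.base p‖ < r →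
      ENNReal.ofReal (c * ‖((M.echart x).localise g hg).val w.1 (M.lam p / M.lam x)‖ ^ (2 * m)) ≤ ψ w) :
    ∃ h : K,
      (∀ w : ((M.echart x).localise g hg).pts,
        ((M.echart x).localise g hg).RegAtPt w.1 (h * M.lam x ^ m) ∧
        ((M.echart x).localise g hg).val w.1 (h * M.lam x ^ m) = H w) ∧
      ∀ p, M.RegAt p (h * M.jac x p * M.lam p ^ m) := by
  obtain ⟨N, c, hc, hψN⟩ := hψ₁
  have hcinv : 0 ≤ c⁻¹ := (inv_pos.2 hc).le
  have hint' : ∫⁻ w, ENNReal.ofReal (‖H w‖ ^ 2 / (1 + ‖w.1‖ ^ 2) ^ N)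
      ∂(rdVol ((M.echart x).localise g hg).pr) < ⊤ := by
    calc ∫⁻ w, ENNReal.ofReal (‖H w‖ ^ 2 / (1 + ‖w.1‖ ^ 2) ^ N) ∂(rdVol ((M.echart x).localise g hg).pr)
        ≤ ∫⁻ w, ENNReal.ofReal c⁻¹ * (ENNReal.ofReal (‖H w‖ ^ 2) * ψ w)
          ∂(rdVol ((M.echart x).localise g hg).pr) := by
          refine lintegral_mono fun w => ?_
          have e : ‖H w‖ ^ 2 / (1 + ‖w.1‖ ^ 2) ^ N = c⁻¹ * (‖H w‖ ^ 2 * (c / (1 + ‖w.1‖ ^ 2) ^ N)) := by
            field_simp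
          rw [e, ENNReal.ofReal_mul hcinv, ENNReal.ofReal_mul (sq_nonneg _)]
          exact mul_le_mul_right (mul_le_mul_right (hψN w) _) _
      _ = ENNReal.ofReal c⁻¹ * ∫⁻ w, ENNReal.ofReal (‖H w‖ ^ 2) * ψ w
          ∂(rdVol ((M.echart x).localise g hg).pr) := lintegral_const_mul' _ _ ENNReal.ofReal_ne_top
      _ < ⊤ := ENNReal.mul_lt_top ENNReal.ofReal_lt_top hint
  obtain ⟨a, ha⟩ := ((M.echart x).localise g hg).anad_rat H hH N hint'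
  have hlx : M.lam x ^ m ≠ 0 := pow_ne_zero _ (M.lam_ne x)
  have hah : a / M.lam x ^ m * M.lam x ^ m = a := div_mul_cancel₀ _ hlx
  refine ⟨a / M.lam x ^ m, fun w => ?_, fun p => ?_⟩
  · rw [hah]
    exact ha w
  · obtain ⟨r, hr, c', hc', hψp⟩ := hψ₂ p
    have key := ((M.echart x).localise g hg).anad_glob_reg (M.echart p) ⟨M.base p, M.base_mem p⟩ m H ψ hint
      a (M.lam p / M.lam x) (fun w => (ha w).2) r c' hr hc' hψp
    have e : a / M.lam x ^ m * M.jac x p * M.lam p ^ m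
        = a * (M.lam p / M.lam x) ^ m * ((M.echart x).localise g hg).jac (M.echart p) := by
      have : ((M.echart x).localise g hg).jac (M.echart p) = M.jac x p := rfl
      rw [this, div_pow]
      field_simp
    show (M.echart p).RegAtPt (M.base p) _
    rw [e]
    exact key

end Model

end Claimed.Agent.R242
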