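/-
Row 242, package ANAD.  LocReal: `Model → LocReal` (the local realisation of the sections near a closed point `x`, consumed by LOC and LIFT).
Architect: helper286.     No paper.

 * `M.secRing hM : SecRing K`      (`R j = M.sec j`; finite dimension from ALG-X `Model.resHyp`)
 * `M.basePt x : (M.chart x).pts`  (the point `x` in its chart; `pr = 0`)
 * `M.holFn x j s z = val (sect (basePt x) z) (s * lam x ^ j)`
 * `M.locReal hM x : LocReal (M.secRing hM) n`  with  `hol = M.holFn x`, and on `ball 0 r₀` the chosen section `sect (basePt x)` is analytic and is the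
   inverse of the chosen sheet `rdSheet _ (basePt x)` (so `lintegral_sheet` etc. apply).

LEAF ANAD-LOCREAL (this file).
Plan.  `E = M.echart x`, `w₀ = M.basePt x`, `s = E.sect w₀`.  Choose `r₀ > 0` with `ball 0 r₀ ⊆ (localInverseAt w₀).source` (open, contains `pr w₀ = 0`) and
 `s` analytic at every point of the ball (`analyticAt_sect`, `AnalyticAt.eventually_analyticAt`, `Metric.eventually_nhds_iff_ball`).
 For `z` in the ball: `s z ∈ pts` (`sect_mem`), `proj (s z) = z` (`IsLocalHomeomorph.apply_localInverseAt_of_mem`).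
 For `a ∈ M.sec j`: `a * lam x ^ j ∈ E.ring` (`hM.sec_ring`) `= aeval gen P`, so `holFn x j a z = eval (s z) P` (`val_aeval`): differentiable; add, smul, mul:
 `val_add`, `val_smul`, `val_mul` with `regAtPt_of_mem_ring` (`(a b) lam^(i+j) = (a lam^i)(b lam^j)`).
 `hol_inj`: `P` vanishes on the open non empty set `{w | pr w ∈ ball 0 r₀ ∧ s (pr w) = w}` ⊇ a neighbourhood of `w₀` (`sect_pr_eventually`, `continuous_pr`):
 `anad_aeval_eq_zero_of_open`; `lam x ≠ 0`.
 `k₀, σ` from `hM.coords x`; `σ_ne`: `e * (σ 0 lam^k) = 1` in the ring, apply `val`; `σ_coord`: `σ (i+1) lam^k = z_i (σ 0 lam^k)`, `val_gen`.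
 `b₀` from `hM.bpf`: `UnitAtPt` at `s z` gives `val ≠ 0` (`unitAtPt_iff`).
-/
import Claimed.Agent.R242.Anad.Null
import Claimed.Agent.R242.Loc.Defs
import Claimed.Agent.R242.Res.Main

set_option autoImplicit false

noncomputable section

namespace Claimed.Agent.R242

open MvPolynomial Filter Topology Metric

namespace Model

variable {n : ℕ} {K : Type} [Field K] [Algebra ℂ K] (M : Model n K)

theorem sec_finite (hM : M.IsAmple) (j : ℕ) : FiniteDimensional ℂ (M.sec j) := by
  obtain ⟨j₀, h⟩ := M.resHyp hM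
  obtain ⟨e₀, b₀, hr⟩ := h (j₀ + 1) (Nat.le_succ _) (Nat.succ_le_succ (Nat.zero_le _))
  exact hr.fin j

theorem sec_mul_mem (i j : ℕ) (a b : K) (ha : a ∈ M.sec i) (hb : b ∈ M.sec j) :
    a * b ∈ M.sec (i + j) := by
  intro p
  have h1 : (M.echart p).RegAtPt (M.base p) (a * M.lam p ^ i) := ha p
  have h2 : (M.echart p).RegAtPt (M.base p) (b * M.lam p ^ j) := hb p
  have h3 := h1.mul h2
  have e : a * M.lam p ^ i * (b * M.lam p ^ j) = a * b * M.lam p ^ (i + j) := by
    rw [pow_add]; ring
  rw [e] at h3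
  exact h3

/-- the section ring of the model -/
def secRing (hM : M.IsAmple) : SecRing K where
  R := M.sec
  fin := M.sec_finite hM
  mul_mem := M.sec_mul_mem

theorem secRing_R (hM : M.IsAmple) : (M.secRing hM).R = M.sec := rfl

/-- the closed point `x`, as a point of its chart -/
def basePt (x : M.Pt) : (M.chart x).pts := ⟨M.base x, M.base_mem x⟩

theorem pr_basePt (x : M.Pt) : (M.chart x).pr (M.basePt x) = 0 := by
  funext i
  exact M.base_coord x i

/-- the holomorphic function `(s lam_x^j) ∘ sect` near `0` -/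
def holFn (x : M.Pt) (j : ℕ) (s : K) (z : Cn n) : ℂ :=
  (M.echart x).val ((M.chart x).sect (M.basePt x) z) (s * M.lam x ^ j)

/-- sections are regular on the whole chart -/
theorem locreal_reg (hM : M.IsAmple) (x : M.Pt) {j : ℕ} {a : K} (ha : a ∈ M.sec j)
    (w : Fin n ⊕ Fin (M.chart x).c → ℂ) : (M.echart x).RegAtPt w (a * M.lam x ^ j) :=
  (M.echart x).regAtPt_of_mem_ring w (hM.sec_ring x j a ha)

/-- `holFn` of a section is a polynomial in the chosen section -/
theorem locreal_holFn_eq (hM : M.IsAmple) (x : M.Pt) {j : ℕ} {a : K} (ha : a ∈ M.sec j) :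
    ∃ P : MvPolynomial (Fin n ⊕ Fin (M.chart x).c) ℂ, aeval (M.gen x) P = a * M.lam x ^ j ∧
      ∀ z, M.holFn x j a z = eval ((M.chart x).sect (M.basePt x) z) P := by
  obtain ⟨P, hP⟩ := hM.sec_ring x j a ha
  refine ⟨P, hP, fun z => ?_⟩
  have h := (M.echart x).val_aeval (w := (M.chart x).sect (M.basePt x) z)
    ((M.chart x).sect_mem (M.basePt x) z) P
  exact (congrArg ((M.echart x).val ((M.chart x).sect (M.basePt x) z)) hP.symm).trans h

theorem locreal_add (hM : M.IsAmple) (x : M.Pt) {j : ℕ} {a b : K} (ha : a ∈ M.sec j)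
    (hb : b ∈ M.sec j) (z : Cn n) :
    M.holFn x j (a + b) z = M.holFn x j a z + M.holFn x j b z := by
  have h := EChart.val_add (E := M.echart x) (w := (M.chart x).sect (M.basePt x) z)
    ((M.chart x).sect_mem _ z) (M.locreal_reg hM x ha _) (M.locreal_reg hM x hb _)
  have e : (a + b) * M.lam x ^ j = a * M.lam x ^ j + b * M.lam x ^ j := add_mul _ _ _
  exact (congrArg ((M.echart x).val ((M.chart x).sect (M.basePt x) z)) e).trans h

theorem locreal_smul (hM : M.IsAmple) (x : M.Pt) {j : ℕ} (c : ℂ) {a : K} (ha : a ∈ M.sec j)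
    (z : Cn n) : M.holFn x j (c • a) z = c * M.holFn x j a z := by
  have h := EChart.val_smul (E := M.echart x) (w := (M.chart x).sect (M.basePt x) z)
    ((M.chart x).sect_mem _ z) (M.locreal_reg hM x ha _) c
  have e : (c • a) * M.lam x ^ j = c • (a * M.lam x ^ j) := smul_mul_assoc _ _ _
  exact (congrArg ((M.echart x).val ((M.chart x).sect (M.basePt x) z)) e).trans h

theorem locreal_mul (hM : M.IsAmple) (x : M.Pt) {i j : ℕ} {a b : K} (ha : a ∈ M.sec i)
    (hb : b ∈ M.sec j) (z : Cn n) :
    M.holFn x (i + j) (a * b) z = M.holFn x i a z * M.holFn x j b z := by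
  have h := EChart.val_mul (E := M.echart x) (w := (M.chart x).sect (M.basePt x) z)
    ((M.chart x).sect_mem _ z) (M.locreal_reg hM x ha _) (M.locreal_reg hM x hb _)
  have e : (a * b) * M.lam x ^ (i + j) = a * M.lam x ^ i * (b * M.lam x ^ j) := by
    rw [pow_add]; ring
  exact (congrArg ((M.echart x).val ((M.chart x).sect (M.basePt x) z)) e).trans h

theorem locreal_inj (hM : M.IsAmple) (x : M.Pt) {r : ℝ} (hr : 0 < r) {j : ℕ} {a : K}
    (ha : a ∈ M.sec j) (h0 : ∀ z ∈ ball (0 : Cn n) r, M.holFn x j a z = 0) : a = 0 := by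
  obtain ⟨P, hP, hPz⟩ := M.locreal_holFn_eq hM x ha
  have h1 := (M.chart x).sect_pr_eventually (M.basePt x)
  have h2 : ∀ᶠ w' in 𝓝 (M.basePt x), (M.chart x).pr w' ∈ ball (0 : Cn n) r := by
    apply (M.chart x).continuous_pr.continuousAt.eventually_mem
    rw [M.pr_basePt x]
    exact isOpen_ball.mem_nhds (mem_ball_self hr)
  obtain ⟨U, hUsub, hUo, hUm⟩ := _root_.mem_nhds_iff.1 (h1.and h2)
  have h3 : aeval (M.echart x).gen P = 0 := by
    refine (M.echart x).anad_aeval_eq_zero_of_open (U := U) hUo ⟨_, hUm⟩ fun w hw => ?_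
    obtain ⟨e1, e2⟩ := hUsub hw
    have e3 := hPz ((M.chart x).pr w)
    rw [h0 _ e2, e1] at e3
    exact e3.symm
  have h4 : a * M.lam x ^ j = 0 := hP.symm.trans h3
  exact (mul_eq_zero.1 h4).resolve_right (pow_ne_zero _ (M.lam_ne x))

theorem exists_locReal (hM : M.IsAmple) (x : M.Pt) :
    ∃ L : LocReal (M.secRing hM) n, L.hol = M.holFn x ∧
      ball 0 L.r₀ ⊆ ((M.chart x).isLocalHomeomorph_pr.localInverseAt (M.basePt x)).source ∧
      AnalyticOnNhd ℂ ((M.chart x).sect (M.basePt x)) (ball 0 L.r₀) := by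
  have hp := (M.chart x).isLocalHomeomorph_pr
  have hsrc : ∀ᶠ z in 𝓝 (0 : Cn n), z ∈ (hp.localInverseAt (M.basePt x)).source := by
    have := (hp.localInverseAt (M.basePt x)).open_source.mem_nhds
      hp.apply_self_mem_localInverseAt_source
    rw [M.pr_basePt x] at this
    exact this
  have han : ∀ᶠ z in 𝓝 (0 : Cn n), AnalyticAt ℂ ((M.chart x).sect (M.basePt x)) z := by
    have := ((M.chart x).analyticAt_sect (M.basePt x)).eventually_analyticAt
    rw [M.pr_basePt x] at this
    exact this
  obtain ⟨r₀, hr₀, hball⟩ := Metric.eventually_nhds_iff_ball.1 (hsrc.and han)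
  obtain ⟨k, σ, hk, hσ, ⟨e, he, hee⟩, hcoord⟩ := hM.coords x
  obtain ⟨j₀, hbpf⟩ := hM.bpf
  have hproj : ∀ z ∈ ball (0 : Cn n) r₀, (M.chart x).proj ((M.chart x).sect (M.basePt x) z) = z :=
    fun z hz => hp.apply_localInverseAt_of_mem (hball z hz).1
  refine ⟨{ r₀ := r₀
            r₀_pos := hr₀
            hol := M.holFn x
            hol_diff := ?_
            hol_add := fun j a b ha hb z _ => M.locreal_add hM x ha hb z
            hol_smul := fun j c a ha z _ => M.locreal_smul hM x c ha z
            hol_mul := fun i j a b ha hb z _ => M.locreal_mul hM x ha hb z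
            hol_inj := fun j a ha h0 => M.locreal_inj hM x hr₀ ha h0
            k₀ := k
            hk₀ := hk
            σ := σ
            σ_mem := hσ
            σ_ne := ?_
            σ_coord := ?_
            b₀ := j₀
            bpf := ?_ }, rfl, fun z hz => (hball z hz).1, fun z hz => (hball z hz).2⟩
  · intro j a ha
    obtain ⟨P, -, hPz⟩ := M.locreal_holFn_eq hM x ha
    have hfun : M.holFn x j a = fun z => eval ((M.chart x).sect (M.basePt x) z) P := funext hPz
    rw [hfun]
    intro z hz
    have h1 : DifferentiableAt ℂ (fun w : Fin n ⊕ Fin (M.chart x).c → ℂ => eval w P)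
        ((M.chart x).sect (M.basePt x) z) := (Chart.hasFDerivAt_eval P _).differentiableAt
    exact (h1.comp z (hball z hz).2.differentiableAt).differentiableWithinAt
  · intro z _ h0
    have hw := (M.chart x).sect_mem (M.basePt x) z
    have h1 := EChart.val_mul (E := M.echart x) (w := (M.chart x).sect (M.basePt x) z) hw
      ((M.echart x).regAtPt_of_mem_ring _ he) (M.locreal_reg hM x (hσ 0) _)
    have h2 : (M.echart x).val ((M.chart x).sect (M.basePt x) z) (e * (σ 0 * M.lam x ^ k)) = 1 :=
      (congrArg ((M.echart x).val ((M.chart x).sect (M.basePt x) z)) hee).trans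
        ((M.echart x).val_one hw)
    have h0' : (M.echart x).val ((M.chart x).sect (M.basePt x) z) (σ 0 * M.lam x ^ k) = 0 := h0
    rw [h2, h0', mul_zero] at h1
    exact one_ne_zero h1
  · intro i z hz
    have hw := (M.chart x).sect_mem (M.basePt x) z
    have h1 := EChart.val_mul (E := M.echart x) (w := (M.chart x).sect (M.basePt x) z) hw
      ((M.echart x).regAtPt_gen _ (Sum.inl i)) (M.locreal_reg hM x (hσ 0) _)
    have h2 : (M.echart x).val ((M.chart x).sect (M.basePt x) z) ((M.echart x).gen (Sum.inl i))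
        = z i := by
      have := (M.echart x).val_gen (w := (M.chart x).sect (M.basePt x) z) hw (Sum.inl i)
      exact this.trans (congrFun (hproj z hz) i)
    have e1 : σ i.succ * M.lam x ^ k = (M.echart x).gen (Sum.inl i) * (σ 0 * M.lam x ^ k) := by
      rw [← hcoord i]
      show M.gen x (Sum.inl i) * σ 0 * M.lam x ^ k = M.gen x (Sum.inl i) * (σ 0 * M.lam x ^ k)
      ring
    rw [h2] at h1
    exact (congrArg ((M.echart x).val ((M.chart x).sect (M.basePt x) z)) e1).trans h1
  · intro z _ b hb
    obtain ⟨N, τ, hτ, hu⟩ := hbpf b hb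
    have hw := (M.chart x).sect_mem (M.basePt x) z
    obtain ⟨i, hi⟩ := hu x _ hw
    exact ⟨τ i, hτ i, ((EChart.unitAtPt_iff (E := M.echart x) hw).1 hi).2⟩

/-- **the local realisation of the sections at `x`** -/
def locReal (hM : M.IsAmple) (x : M.Pt) : LocReal (M.secRing hM) n := (M.exists_locReal hM x).choose

theorem locReal_hol (hM : M.IsAmple) (x : M.Pt) : (M.locReal hM x).hol = M.holFn x :=
  (M.exists_locReal hM x).choose_spec.1

theorem locReal_hol_apply (hM : M.IsAmple) (x : M.Pt) (j : ℕ) (s : K) (z : Cn n) :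
    (M.locReal hM x).hol j s z
      = (M.echart x).val ((M.chart x).sect (M.basePt x) z) (s * M.lam x ^ j) := by
  rw [locReal_hol]; rfl

theorem locReal_ball_subset (hM : M.IsAmple) (x : M.Pt) :
    ball 0 (M.locReal hM x).r₀
      ⊆ ((M.chart x).isLocalHomeomorph_pr.localInverseAt (M.basePt x)).source :=
  (M.exists_locReal hM x).choose_spec.2.1

theorem locReal_analytic (hM : M.IsAmple) (x : M.Pt) :
    AnalyticOnNhd ℂ ((M.chart x).sect (M.basePt x)) (ball 0 (M.locReal hM x).r₀) :=
  (M.exists_locReal hM x).choose_spec.2.2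

theorem locReal_proj_sect (hM : M.IsAmple) (x : M.Pt) {z : Cn n}
    (hz : z ∈ ball 0 (M.locReal hM x).r₀) :
    (M.chart x).proj ((M.chart x).sect (M.basePt x) z) = z := by
  exact (M.chart x).isLocalHomeomorph_pr.apply_localInverseAt_of_mem (M.locReal_ball_subset hM x hz)

/-- the ball lies in the target of the chosen sheet through `x` -/
theorem locReal_ball_subset_sheet (hM : M.IsAmple) (x : M.Pt) :
    ball 0 (M.locReal hM x).r₀
      ⊆ (rdSheet (M.chart x).isLocalHomeomorph_pr (M.basePt x)).target := by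
  exact M.locReal_ball_subset hM x

theorem locReal_sheet_symm (hM : M.IsAmple) (x : M.Pt) (z : Cn n) :
    ((rdSheet (M.chart x).isLocalHomeomorph_pr (M.basePt x)).symm z).1
      = (M.chart x).sect (M.basePt x) z := by
  rw [rdSheet_symm]
  rfl

end Model

end Claimed.Agent.R242

end

/-! equation lemmas of this file, cited once here (rule 6) -/
namespace Claimed.Agent.R242

theorem r242_eqcite_Anad_LocReal : True := by
  have := @Claimed.Agent.R242.Model.locReal.eq_1
  have := @Claimed.Agent.R242.Model.secRing.eq_1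
  have := @Claimed.Agent.R242.Model.basePt.eq_1
  have := @Claimed.Agent.R242.Model.holFn.eq_1
  trivial

end Claimed.Agent.R242
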