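/-
Row 242, package ANAD: THE PUBLIC INTERFACE (statements consumed by LIFT / LOC).     Architect: helper286.
Everything here is proved by citing the package files (`Null`, `Rat`, `Reg`, `Cmp`, `Glob`).  Do not edit without asking helper286.

Other public files of the package (import them through this one):
 * `Anad/Defs.lean` : `EChart n K`, `M.echart p`, `E.RegAtPt w a`, `E.UnitAtPt w a`, `E.val w a`, `E.jac E'`, `E.Same E' w w'`, `C.pr`
 * `Anad/Val.lean`  : calculus of `RegAtPt`, `val`, `Same`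
 * `Anad/Loc.lean`  : `C.localise g`, `E.localise g hg`, `C.locMap g`, `E.same_locPt`
 * `Anad/RD.lean`   : `C.isLocalHomeomorph_pr`, `C.sect`, `C.rho` (+ the three hypotheses of `hormander_rd`), `E.rdHolo_val`,
                      `C.isOpenEmbedding_locMap`
 * `Anad/Alg.lean`  : derivations, `jac_mul_jac`, `K` algebraic over `ℂ(z)`
-/
import Claimed.Agent.R242.Anad.Glob
import Claimed.Agent.R242.SCV.Main

set_option autoImplicit false

namespace Claimed.Agent.R242

open MvPolynomial Filter Topology MeasureTheory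
open scoped ENNReal

namespace EChart

variable {n : ℕ} {K : Type} [Field K] [Algebra ℂ K] (E : EChart n K)

/-- **NULL**: the zero set of a nonzero regular function is a null set ... -/
theorem rdVol_zeroSet {Q : MvPolynomial (Fin n ⊕ Fin E.c) ℂ} (hQ : aeval E.gen Q ≠ 0) :
    rdVol E.pr {w : E.pts | eval w.1 Q = 0} = 0 :=
  E.anad_null_vol hQ

/-- ... and nowhere dense. -/
theorem dense_ne_zero {Q : MvPolynomial (Fin n ⊕ Fin E.c) ℂ} (hQ : aeval E.gen Q ≠ 0) :
    Dense {w : E.pts | eval w.1 Q ≠ 0} :=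
  E.anad_null_dense hQ

/-- **DER**: the algebraic derivation `der j` is `∂/∂z_j`. -/
theorem rdD_val (w : E.pts) {a : K} (ha : E.RegAtPt w.1 a) (j : Fin n) :
    rdD E.isLocalHomeomorph_pr j (fun w' : E.pts => E.val w'.1 a) w = E.val w.1 (E.der j a) :=
  E.anad_rdD_val w ha j

/-- **RAT**: a holomorphic function on the points of a chart which is `L²` with respect to a polynomial weight is (the function of)
an element of `K`, regular at all points of the chart. -/
theorem rat (H : E.pts → ℂ) (hH : RdHolo E.isLocalHomeomorph_pr H) (N : ℕ)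
    (hint : ∫⁻ w, ENNReal.ofReal (‖H w‖ ^ 2 / (1 + ‖w.1‖ ^ 2) ^ N) ∂(rdVol E.pr) < ⊤) :
    ∃ a : K, ∀ w : E.pts, E.RegAtPt w.1 a ∧ E.val w.1 a = H w :=
  E.anad_rat H hH N hint

/-- **REG**: an element of `K` which is `L²` near the point `w₀`, off a proper closed subvariety, is regular at `w₀`. -/
theorem reg (w₀ : E.pts) (b : K) {G : MvPolynomial (Fin n ⊕ Fin E.c) ℂ} (hG : aeval E.gen G ≠ 0)
    (r : ℝ) (hr : 0 < r)
    (hint : ∫⁻ w in {w : E.pts | ‖w.1 - w₀.1‖ < r ∧ eval w.1 G ≠ 0},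
      ENNReal.ofReal (‖E.val w.1 b‖ ^ 2) ∂(rdVol E.pr) < ⊤) :
    E.RegAtPt w₀.1 b :=
  E.anad_reg w₀ b hG r hr hint

/-- the value at a regular point is the limit of the values at nearby points of any set `S` accumulating at the point -/
theorem val_eq_of_tendsto (w₀ : E.pts) {a : K} (ha : E.RegAtPt w₀.1 a) {S : Set E.pts}
    (hS : w₀ ∈ closure S) {F : E.pts → ℂ} (hF : ∀ w ∈ S, E.val w.1 a = F w) {c : ℂ}
    (hc : Tendsto F (𝓝[S] w₀) (𝓝 c)) : E.val w₀.1 a = c :=
  E.anad_val_eq_of_tendsto w₀ ha hS hF hc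

/-- two elements of `K` with the same values on a set which is not contained in a proper subvariety are equal; here: on a
non empty open subset of the points where both are regular. -/
theorem eq_of_val_eq {a b : K} {U : Set E.pts} (hU : IsOpen U) (hne : U.Nonempty)
    (h : ∀ w ∈ U, E.RegAtPt w.1 a ∧ E.RegAtPt w.1 b ∧ E.val w.1 a = E.val w.1 b) : a = b :=
  E.anad_eq_of_val_eq hU hne h

/-- **CMP** (change of variables between two charts).  `f`, `f'` are functions on the points of `E`, `E'` with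
`f' w' ≤ |jac E E' (w')|² f w` whenever `w`, `w'` are the same point; then `∫ f' ≤ ∫ f`, where the left integral is taken off a suitable
proper subvariety `{G = 0}` of `E'` (which may be enlarged at will: `G₀`). -/
theorem cmp (E' : EChart n K) (f : E.pts → ℝ≥0∞) (f' : E'.pts → ℝ≥0∞)
    (h : ∀ (w : E.pts) (w' : E'.pts), E.Same E' w.1 w'.1 →
      f' w' ≤ ENNReal.ofReal (‖E'.val w'.1 (E.jac E')‖ ^ 2) * f w)
    (G₀ : MvPolynomial (Fin n ⊕ Fin E'.c) ℂ) (hG₀ : aeval E'.gen G₀ ≠ 0) :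
    ∃ G : MvPolynomial (Fin n ⊕ Fin E'.c) ℂ, aeval E'.gen G ≠ 0 ∧ (∀ w', eval w' G ≠ 0 → eval w' G₀ ≠ 0) ∧
      ∫⁻ w' in {w' : E'.pts | eval w'.1 G ≠ 0}, f' w' ∂(rdVol E'.pr) ≤ ∫⁻ w, f w ∂(rdVol E.pr) :=
  anad_cmp E E' f f' h G₀ hG₀

end EChart

namespace Model

variable {n : ℕ} {K : Type} [Field K] [Algebra ℂ K] (M : Model n K)

/-- **GLOBAL** (RAT + CMP + REG): step (e) of the lifts.
`H` is holomorphic on `W = W_x[1/g]` and `L²` for the weight `ψ`;
(i) `ψ` decays at most polynomially on `W`;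
(ii) near every closed point `p` the weight `ψ` dominates `|lam p / lam x|^(2m)`  (i.e. `φ_p` is bounded above near `p`).
Then `H = h lam_x^m` with `h ∈ K`, and `h dz_1 ∧ .. ∧ dz_n` is a global section of `K_X + mL`. -/
theorem global (x : M.Pt) (g : MvPolynomial (Fin n ⊕ Fin (M.echart x).c) ℂ)
    (hg : aeval (M.echart x).gen g ≠ 0) (m : ℕ)
    (H : ((M.echart x).localise g hg).pts → ℂ)
    (hH : RdHolo ((M.echart x).localise g hg).isLocalHomeomorph_pr H)
    (ψ : ((M.echart x).localise g hg).pts → ℝ≥0∞)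
    (hint : ∫⁻ w, ENNReal.ofReal (‖H w‖ ^ 2) * ψ w ∂(rdVol ((M.echart x).localise g hg).pr) < ⊤)
    (hψ₁ : ∃ (N : ℕ) (c : ℝ), 0 < c ∧ ∀ w : ((M.echart x).localise g hg).pts,
      ENNReal.ofReal (c / (1 + ‖w.1‖ ^ 2) ^ N) ≤ ψ w)
    (hψ₂ : ∀ p : M.Pt, ∃ r > 0, ∃ c > 0, ∀ (w : ((M.echart x).localise g hg).pts) (w' : (M.chart p).pts),
      ((M.echart x).localise g hg).Same (M.echart p) w.1 w'.1 → ‖w'.1 - M.base p‖ < r →
      ENNReal.ofReal (c * ‖((M.echart x).localise g hg).val w.1 (M.lam p / M.lam x)‖ ^ (2 * m)) ≤ ψ w) :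
    ∃ h : K,
      (∀ w : ((M.echart x).localise g hg).pts,
        ((M.echart x).localise g hg).RegAtPt w.1 (h * M.lam x ^ m) ∧
        ((M.echart x).localise g hg).val w.1 (h * M.lam x ^ m) = H w) ∧
      ∀ p, M.RegAt p (h * M.jac x p * M.lam p ^ m) :=
  M.anad_global x g hg m H hH ψ hint hψ₁ hψ₂

end Model

end Claimed.Agent.R242
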